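import Vale.Agent.P022.H651.FCH
import Vale.Agent.P022.H567.Rec
import Vale.Agent.P022.H567.Asm2
import Vale.Agent.P022.H180.APP
import Vale.Agent.P022.H352.Rdn
import Vale.Agent.P022.H269.Unrv
import Vale.Agent.P022.H917.LN
import Vale.Agent.P022.H967.POW
import Vale.Agent.P022K.F0.HilbA
import Vale.Agent.P022K.F0.TorF

/-!
# P022K / PB: the reciprocity law, place by place
-/

set_option autoImplicit false
set_option linter.all false

open NumberField IsDedekindDomain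

noncomputable section

namespace Vale.Agent.P022K.PB

open Vale.Agent.P022 Vale.Agent.P022.C
open Vale.Agent.P027M.S (Pr)
open Vale.Agent.P027M.S.Cls (val_eq ordv_of ordv_mul ordv_zpow ordv_pow)
open Vale.Agent.P022K.Sh.Tor (ordv_fin mem_iff val_le val_one val_nat val_of_ordv)

variable {K : Type} [Field K] [NumberField K]

section pw

variable {A B : Type} [CommGroup A] [CommGroup B]

/-- the value of `f` on a principal ideal -/
def pw (f : Pr K → A) (x : K) : A := ∏ᶠ v, f v ^ ordv v x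

theorem pw_fin (f : Pr K → A) {x : K} (hx : x ≠ 0) :
    (Function.mulSupport fun v => f v ^ ordv v x).Finite :=
  (ordv_fin hx).subset fun v hv h => hv (by simp only [h, zpow_zero])

theorem pw_mul (f : Pr K → A) {x y : K} (hx : x ≠ 0) (hy : y ≠ 0) :
    pw f (x * y) = pw f x * pw f y := by
  rw [pw, pw, pw, ← finprod_mul_distrib (pw_fin f hx) (pw_fin f hy)]
  exact finprod_congr fun v => by rw [ordv_mul v hx hy, zpow_add]

theorem pw_unit (f : Pr K → A) {x : K} (h : ∀ v, f v = 1 ∨ ordv v x = 0) : pw f x = 1 :=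
  finprod_eq_one_of_forall_eq_one fun v => by
    rcases h v with h | h <;> simp only [h, zpow_zero, one_zpow]

theorem pw_one (f : Pr K → A) : pw f (1 : K) = 1 :=
  pw_unit f fun v => Or.inr (Sh.Tor.ordv_one (map_one _))

theorem pw_div (f : Pr K → A) {x y : K} (hx : x ≠ 0) (hy : y ≠ 0) :
    pw f (x / y) = pw f x / pw f y := by
  rw [eq_div_iff_mul_eq', ← pw_mul f (div_ne_zero hx hy) hy, div_mul_cancel₀ _ hy]

theorem pw_inv (f : Pr K → A) {x : K} (hx : x ≠ 0) : pw f x⁻¹ = (pw f x)⁻¹ := by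
  rw [← one_div, pw_div f one_ne_zero hx, pw_one, one_div]

theorem pw_pow (f : Pr K → A) {x : K} (hx : x ≠ 0) (n : ℕ) : pw f (x ^ n) = pw f x ^ n := by
  induction n with
  | zero => rw [pow_zero, pow_zero, pw_one]
  | succ n ih => rw [pow_succ, pow_succ, pw_mul f (pow_ne_zero _ hx) hx, ih]

theorem pw_mul' (f f' : Pr K → A) {x : K} (hx : x ≠ 0) :
    pw (fun v => f v * f' v) x = pw f x * pw f' x := by
  rw [pw, pw, pw, ← finprod_mul_distrib (pw_fin f hx) (pw_fin f' hx)]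
  exact finprod_congr fun P => by rw [mul_zpow]

theorem pw_congr {f f' : Pr K → A} {x : K} (h : ∀ v, ordv v x ≠ 0 → f v = f' v) :
    pw f x = pw f' x := finprod_congr fun P => by
  by_cases k : ordv P x = 0
  · rw [k, zpow_zero, zpow_zero]
  · rw [h P k]

theorem map_pw (φ : A →* B) (f : Pr K → A) {x : K} (hx : x ≠ 0) :
    φ (pw f x) = pw (fun v => φ (f v)) x := by
  rw [pw, pw, φ.map_finprod (pw_fin f hx)]
  exact finprod_congr fun v => map_zpow φ _ _

theorem pw_inv' (f : Pr K → A) {x : K} (hx : x ≠ 0) : pw (fun v => (f v)⁻¹) x = (pw f x)⁻¹ :=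
  (map_pw (invMonoidHom : A →* A) f hx).symm

theorem pw_pow' (f : Pr K → A) {x : K} (hx : x ≠ 0) (n : ℕ) :
    pw (fun v => f v ^ n) x = pw f x ^ n := (map_pw (powMonoidHom n : A →* A) f hx).symm

theorem pw_div' (f f' : Pr K → A) {x : K} (hx : x ≠ 0) :
    pw (fun v => f v / f' v) x = pw f x / pw f' x := by
  simp only [div_eq_mul_inv]
  rw [pw_mul' _ _ hx, pw_inv' _ hx]

theorem pw_at (f : Pr K → A) {x : K} (w : Pr K) (h : ∀ v, v ≠ w → f v = 1 ∨ ordv v x = 0) :
    pw f x = f w ^ ordv w x := finprod_eq_single _ w fun v hv => by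
  rcases h v hv with h | h <;> simp only [h, zpow_zero, one_zpow]

/-- a function that is a power of one element -/
theorem pw_zpow (t : A) (a : Pr K → ℕ) {x : K} (hx : x ≠ 0) :
    pw (fun v => t ^ a v) x = t ^ (∑ᶠ v, ordv v x * a v) := by
  have h : (Function.support fun v => ordv v x * a v).Finite :=
    (ordv_fin hx).subset fun v hv h => hv (by simp only [h, zero_mul])
  have e : ∀ s : Finset (Pr K), t ^ (∑ v ∈ s, ordv v x * a v) = ∏ v ∈ s, t ^ (ordv v x * a v) := by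
    classical
    intro s
    induction s using Finset.induction_on with
    | empty => simp
    | insert v s hv ih => rw [Finset.sum_insert hv, Finset.prod_insert hv, zpow_add, ih]
  rw [pw, finsum_eq_sum _ h, e, finprod_eq_prod_of_mulSupport_subset (s := h.toFinset)]
  · exact Finset.prod_congr rfl fun v _ => by rw [mul_comm, zpow_mul, zpow_natCast]
  · intro v hv
    rw [Set.Finite.coe_toFinset]
    intro k
    apply hv
    have k' : (a v : ℤ) * ordv v x = 0 := (mul_comm _ _).trans k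
    show (t ^ a v) ^ ordv v x = 1
    rw [← zpow_natCast, ← zpow_mul, k', zpow_zero]

end pw

theorem val_of_lt {v : Pr K} {x : K} (h : v.valuation K (x - 1) < 1) : v.valuation K x = 1 := by
  rw [show x = 1 + (x - 1) by ring]
  exact (Valuation.map_add_eq_of_lt_left _ (by rwa [map_one])).trans (map_one _)

theorem val_nat_le (v : Pr K) (n : ℕ) : v.valuation K (n : K) ≤ 1 := by
  exact_mod_cast val_le v (n : 𝓞 K)

theorem val_nat_lt {v : Pr K} {n : ℕ} (h : (n : 𝓞 K) ∈ v.asIdeal) : v.valuation K (n : K) < 1 := by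
  exact_mod_cast (mem_iff v (n : 𝓞 K)).1 h

theorem over_fin {m : ℕ} (hm : m ≠ 0) : {v : Pr K | (m : 𝓞 K) ∈ v.asIdeal}.Finite :=
  (ordv_fin (x := (m : K)) (by exact_mod_cast hm)).subset fun v hv h =>
    (val_nat_lt hv).ne (val_of_ordv (by exact_mod_cast hm) h)

/-- elements congruent to one are quotients of integers congruent to one -/
theorem quot_one {m : ℕ} (hm : m ≠ 0) {x : K} (h : ∀ v : Pr K, (m : 𝓞 K) ∈ v.asIdeal →
    v.valuation K (x - 1) ≤ v.valuation K (m : K)) :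
    ∃ d u : 𝓞 K, d ≠ 0 ∧ (m : 𝓞 K) ∣ d - 1 ∧ (m : 𝓞 K) ∣ u - 1 ∧ (d : K) * x = u := by
  have hm' : (m : 𝓞 K) ≠ 0 := by exact_mod_cast hm
  obtain ⟨d, u, hd, h1, e⟩ := Hilb.denom x (Ideal.span {(m : 𝓞 K)}) (fun v hv => by
    have k := (Ideal.span_singleton_le_iff_mem _).1 hv
    exact (val_of_lt ((h v k).trans_lt (val_nat_lt k))).le) (by simpa using hm)
  have h2 := Ideal.mem_span_singleton.1 h1
  refine ⟨d, u, hd, h2, Hilb.dvd_of_val hm' fun v hv => ?_, e⟩
  obtain ⟨z, hz⟩ := h2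
  have e1 : ((u - 1 : 𝓞 K) : K) = d * (x - 1) + m * (z : K) := by
    have : ((d - 1 : 𝓞 K) : K) = ((m * z : 𝓞 K) : K) := by rw [hz]
    push_cast at this ⊢
    linear_combination this - e
  rw [e1, show ((m : 𝓞 K) : K) = m by push_cast; rfl]
  refine Valuation.map_add_le _ ?_ ?_ <;> rw [map_mul]
  · exact (mul_le_of_le_one_left' (val_le v d)).trans (h v hv)
  · exact mul_le_of_le_one_right' (val_le v z)

variable {j : K →+* Qb} {k : Type} [Field k]

/-- `θ` is not ramified at `v` -/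
def Un {A : Type} [Group A] (θ : GK j →* A) (v : Pr K) : Prop :=
  ∀ P : Ideal (𝓞 Qb), P.IsPrime → below j P = v.asIdeal → ∀ g : GK j, InI j P g → θ g = 1

/-- the symbol of `x` -/
def sy {A : Type} [CommGroup A] (θ : GK j →* A) (fr : Pr K → GK j) (x : K) : A :=
  ∏ᶠ v, θ (fr v) ^ ordv v x

theorem sy_eq {A : Type} [CommGroup A] (θ : GK j →* A) (fr : Pr K → GK j) (x : K) :
    sy θ fr x = pw (fun v => θ (fr v)) x := rfl

/-- a choice of Frobenius elements -/
theorem exists_fr (j : K →+* Qb) : ∃ fr : Pr K → GK j, ∀ v, ∃ P, FrI j v P (fr v) := by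
  choose P g h using H651.exists_frI j
  exact ⟨g, fun v => ⟨P v, h v⟩⟩

/-- **PW**: the reciprocity law, place by place -/
theorem pwl [IsEmpty (K →+* ℝ)] (θ : GK j →* kˣ) (ho : IsOpen (θ.ker : Set (GK j)))
    {fr : Pr K → GK j} (hfr : ∀ v, ∃ P, FrI j v P (fr v)) {n : ℕ} (hn : 0 < n)
    (hθ : ∀ g, θ g ^ n = 1) {D : ℕ} (hD : D ≠ 0)
    (hu : ∀ v : Pr K, (D : 𝓞 K) ∉ v.asIdeal → Un θ v) {x : K} (hx : x ≠ 0)
    (h : ∀ v : Pr K, (D : 𝓞 K) ∈ v.asIdeal → (Un θ v ∧ v.valuation K x = 1) ∨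
      v.valuation K (x - 1) < v.valuation K ((n : K) ^ 2)) : sy θ fr x = 1 := by
  have : NeZero n := ⟨hn.ne'⟩
  let φ : GK j →* rootsOfUnity n k := θ.codRestrict _ fun g => (mem_rootsOfUnity n _).2 (hθ g)
  have hφ : ∀ g g', φ g = g' ↔ θ g = g' := fun g g' => Subtype.ext_iff
  have hop : IsOpen (φ.ker : Set (GK j)) := by
    convert ho using 2
    ext g
    exact hφ g 1
  obtain ⟨L, _, _, _, hgal, jL, res, n', σ, g₀, Dc, hk, hcyc, hσ, hpow⟩ := H916.exists_Cyc j hop
  have hall : ∀ g : GK j, ∃ i : ℕ, res g = σ ^ i := by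
    intro g
    have hfd : FiniteDimensional K L := Module.Finite.of_restrictScalars_finite ℚ K L
    have hcard : Nat.card (L ≃ₐ[K] L) = n' := by
      rw [IsGalois.card_aut_eq_finrank, hcyc.rank]
    have h1 : Subgroup.zpowers σ = ⊤ := by
      apply Subgroup.eq_top_of_card_eq
      rw [Nat.card_zpowers, hcyc.ord, hcard]
    have h2 : res g ∈ Subgroup.zpowers σ := by rw [h1]; trivial
    rw [← mem_powers_iff_mem_zpowers] at h2
    obtain ⟨i, hi⟩ := h2
    exact ⟨i, hi.symm⟩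
  have hcomm : ∀ s t : L ≃ₐ[K] L, s * t = t * s := by
    intro s t
    obtain ⟨g, rfl⟩ := Dc.surj s
    obtain ⟨h, rfl⟩ := Dc.surj t
    obtain ⟨a, ha⟩ := hall g
    obtain ⟨b, hb⟩ := hall h
    rw [ha, hb, ← pow_add, ← pow_add, add_comm]
  have hdv : n' ∣ n := by
    rw [← hcyc.ord, orderOf_dvd_iff_pow_eq_one, ← hσ, ← map_pow, hk, hφ, map_pow]
    exact hθ g₀
  have hn' : θ g₀ ^ n' = 1 := by
    have : res (g₀ ^ n') = 1 := by rw [map_pow, hσ, ← hcyc.ord, pow_orderOf_eq_one]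
    rw [← map_pow]
    exact (hφ _ 1).1 ((hk _).1 this)
  have hun : ∀ (v : Pr K) (P : Ideal (𝓞 L)), P.IsPrime → dn K P = v.asIdeal → Un θ v →
      Unr σ P := by
    intro v P hP hv hU i hi
    obtain ⟨Q, hQ, hb⟩ := H916.exists_above jL P hP
    rw [← hb] at hi
    obtain ⟨g, hg, hin⟩ := Dc.inertia_lift hQ hi
    rw [← hg, hk, hφ]
    refine hU Q hQ ?_ g hin
    rw [← Dc.below_comap Q, hb]
    exact hv
  have hab : ∀ v : Pr K, ∃ P : Ideal (𝓞 L), P.IsPrime ∧ dn K P = v.asIdeal := fun v => by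
    obtain ⟨Q, hQ, hb⟩ := H916.exists_above j v.asIdeal v.isPrime
    exact ⟨below jL Q, Ideal.IsPrime.comap _, (Dc.below_comap Q).trans hb⟩
  obtain ⟨m, hm0, hm1, hm2, hrec⟩ := C.REC K L n' σ hcyc
  have hmD : ∀ v : Pr K, (m : 𝓞 K) ∈ v.asIdeal → (D : 𝓞 K) ∈ v.asIdeal := by
    intro v hv
    obtain ⟨p, hp, hpv, hpm⟩ : ∃ p : ℕ, p.Prime ∧ (p : 𝓞 K) ∈ v.asIdeal ∧ p ∣ m := by
      obtain ⟨p, hp, hpv⟩ := H651.exists_prime_mem v.isPrime hm0 hv
      refine ⟨p, hp, hpv, ?_⟩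
      by_contra hc
      have := (Nat.isCoprime_iff_coprime.2 ((hp.coprime_iff_not_dvd).2 hc)).map
        (Int.castRingHom (𝓞 K))
      simp only [Int.coe_castRingHom, Int.cast_natCast] at this
      obtain ⟨a, b, e⟩ := this
      exact v.isPrime.ne_top ((Ideal.eq_top_iff_one _).2 (e ▸ v.asIdeal.add_mem
        (v.asIdeal.mul_mem_left _ hpv) (v.asIdeal.mul_mem_left _ hv)))
    obtain ⟨P, hP, hpP, hr⟩ := hm1 p hp hpm
    have hP0 : P ≠ ⊥ := fun e => by
      rw [e, Ideal.mem_bot] at hpP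
      exact hp.ne_zero (by exact_mod_cast hpP)
    let w : Pr K := ⟨dn K P, dn_prime hP, dn_ne_bot hP0⟩
    have hw : (D : 𝓞 K) ∈ w.asIdeal := by
      by_contra hc
      exact hr (hun w P hP rfl (hu w hc))
    have hpD : p ∣ D := by
      by_contra hc
      have := (Nat.isCoprime_iff_coprime.2 ((hp.coprime_iff_not_dvd).2 hc)).map
        (Int.castRingHom (𝓞 K))
      simp only [Int.coe_castRingHom, Int.cast_natCast] at this
      obtain ⟨a, b, e⟩ := this
      exact w.isPrime.ne_top ((Ideal.eq_top_iff_one _).2 (e ▸ w.asIdeal.add_mem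
        (w.asIdeal.mul_mem_left _ (nat_mem_dn.2 hpP)) (w.asIdeal.mul_mem_left _ hw)))
    obtain ⟨c, rfl⟩ := hpD
    rw [Nat.cast_mul]
    exact v.asIdeal.mul_mem_right _ hpv
  have hn2 : ∀ v : Pr K, v.valuation K ((n : K) ^ 2) ≤ v.valuation K ((n' : K) ^ 2) := fun v => by
    obtain ⟨c, rfl⟩ := hdv
    rw [Nat.cast_mul, mul_pow, map_mul, map_pow _ (c : K)]
    exact mul_le_of_le_one_right' (pow_le_one' (val_nat_le v c) 2)
  have hx1 : ∀ v : Pr K, (D : 𝓞 K) ∈ v.asIdeal → v.valuation K x = 1 := fun v hv => by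
    rcases h v hv with h | h
    · exact h.2
    · refine val_of_lt (h.trans_le ?_)
      rw [map_pow]
      exact pow_le_one' (val_nat_le v n) 2
  obtain ⟨y, c, hc0, hy, hc, -⟩ := H180.APP K L n' σ hcyc _ (over_fin hm0) x hx (fun v hv => by
    rcases h v (hmD v hv) with h | h
    · obtain ⟨P, hP, e⟩ := hab v
      exact H917.LN K L n' σ hcyc v P hP e (hun v P hP e h.1) x hx (Or.inl h.2)
    · obtain ⟨z, hz⟩ := H967.POW K v n' hcyc.pos x (h.trans_le (hn2 v))
      exact nm_of_pow z hz) m hm0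
  choose a ha using fun v => hall (fr v)
  have ha1 : ∀ (v : Pr K) (P : Ideal (𝓞 L)), P.IsPrime → dn K P = v.asIdeal →
      Frob (σ ^ a v) (Ideal.absNorm v.asIdeal) P := fun v P hP e => by
    obtain ⟨Q, hQ⟩ := hfr v
    rw [← ha]
    exact H651.frob_all Dc hQ hcomm hP e
  have ha2 : (fun v => θ (fr v)) = fun v => θ g₀ ^ a v := funext fun v =>
    (hφ _ _).1 ((hpow _ _).1 (ha v))
  have key : ∀ α : 𝓞 K, α ≠ 0 → (m : 𝓞 K) ∣ α - 1 → pw (fun v => θ (fr v)) (α : K) = 1 := by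
    intro α h0 h1
    have := hrec a (fun v P _ hP e => ha1 v P hP e) (fun _ => 0) (fun φ => isEmptyElim φ) α h0 h1
    simp only [Nat.cast_zero, finsum_mem_zero, add_zero] at this
    obtain ⟨z, hz⟩ := this
    rw [ha2, pw_zpow _ _ (by exact_mod_cast h0), hz, zpow_mul, zpow_natCast, hn', one_zpow]
  obtain ⟨d, u, hd, d1, u1, e⟩ := quot_one hm0 hc
  have hd' : (d : K) ≠ 0 := by exact_mod_cast hd
  have hxc := div_ne_zero hx hc0
  have hu0 : u ≠ 0 := fun h0 => mul_ne_zero hd' hxc (by rw [e, h0]; rfl)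
  have h1 : pw (fun v => θ (fr v)) (x / c) = 1 := by
    have := pw_mul (fun v => θ (fr v)) hd' hxc
    rwa [e, key u hu0 u1, key d hd d1, one_mul, eq_comm] at this
  have h2 : pw (fun v => θ (fr v)) c = 1 := by
    rw [ha2]
    refine finprod_eq_one_of_forall_eq_one fun v => ?_
    by_cases hv : (m : 𝓞 K) ∈ v.asIdeal
    · have e1 := val_of_lt ((hc v hv).trans_lt (val_nat_lt hv))
      rw [map_div₀, hx1 v (hmD v hv), one_div, inv_eq_one] at e1
      rw [Sh.Tor.ordv_one e1, zpow_zero]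
    · obtain ⟨P, hP, e⟩ := hab v
      have hP0 : P ≠ ⊥ := fun e0 => v.ne_bot (by
        rw [← e, e0]
        exact Ideal.comap_bot_of_injective _ (FaithfulSMul.algebraMap_injective _ _))
      obtain ⟨z, hz⟩ := H352.CF.RDN H269.UNRV K L n' σ hcyc v P hP e
        (hm2 P hP hP0 fun k => hv (e ▸ nat_mem_dn.2 k)) (a v) _ (ha1 v P hP e) y c hc0 hy
      show (θ g₀ ^ a v) ^ ordv v c = 1
      rw [← zpow_natCast, ← zpow_mul, hz, zpow_mul, zpow_natCast, hn', one_zpow]
  rw [pw_div _ hx hc0, h2, div_one] at h1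
  exact h1

end Vale.Agent.P022K.PB
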