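import Vale.Agent.P022K.CH.Lev3
import Mathlib.RingTheory.RootsOfUnity.AlgebraicallyClosed

/-!
# P022K, block PB: tools for the canonical types
-/

set_option autoImplicit false
set_option linter.all false

noncomputable section

namespace Vale.Agent.P022K.PB.Can

open Classical Finset CH

/-- the odd numbers below `2 n` -/
def Jn (n : ℕ) : Finset ℕ := (range n).image fun i => 2 * i + 1

theorem inj2 : Function.Injective fun i : ℕ => 2 * i + 1 := fun a b h => by
  simp only at h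
  omega

theorem card_Jn (n : ℕ) : (Jn n).card = n := by
  rw [Jn, card_image_of_injective _ inj2, card_range]

theorem one_Jn {n : ℕ} (h : 0 < n) : 1 ∈ Jn n := mem_image.2 ⟨0, mem_range.2 h, rfl⟩

theorem odd_Jn {n j : ℕ} (h : j ∈ Jn n) : Odd j := by
  obtain ⟨i, -, rfl⟩ := mem_image.1 h
  exact odd_two_mul_add_one i

/-- a sign -/
def sg (p q : Prop) : ℤ := if p then 1 else if q then -1 else 0

theorem sg_congr {p q p' q' : Prop} (h : p ↔ p') (h' : q ↔ q') : sg p q = sg p' q' := by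
  rw [propext h, propext h']

theorem sum_Jn {R : Type} [CommRing R] [IsDomain R] {n : ℕ} {z : R} (h : z ^ (2 * n) = 1) :
    ∑ j ∈ Jn n, z ^ j = n * sg (z = 1) (z = -1) := by
  rw [Jn, sum_image fun a _ b _ e => inj2 e, sg]
  simp only [pow_succ, pow_mul, ← Finset.sum_mul, pow_zero, one_mul]
  split_ifs with h1 h2
  · simp [h1]
  · simp [h2]
  · have e := geom_sum_mul (z * z) n
    rw [← pow_two, ← pow_mul, h, sub_self, pow_two] at e
    rw [(mul_eq_zero.1 e).resolve_right fun k =>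
      (mul_self_eq_one_iff.1 (sub_eq_zero.1 k)).elim h1 h2]
    simp

theorem sum_two {R : Type} [CommRing R] [IsDomain R] {n : ℕ} {z z' : R} (h : z ^ (2 * n) = 1)
    (e : z * z' = 1) : ∑ j ∈ Jn n, (z ^ j + z' ^ j) = 2 * n * sg (z = 1) (z = -1) := by
  have h' : z' ^ (2 * n) = 1 := by
    have := mul_pow z z' (2 * n)
    rwa [e, h, one_pow, one_mul, eq_comm] at this
  rw [sum_add_distrib, sum_Jn h, sum_Jn h', sg_congr (p := z' = 1) (q := z' = -1) (p' := z = 1)
    (q' := z = -1) ⟨fun k => by rwa [k, mul_one] at e, fun k => by rwa [k, one_mul] at e⟩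
    ⟨fun k => by rw [k] at e; linear_combination -e, fun k => by rw [k] at e; linear_combination -e⟩]
  ring

/-- power sums -/
def ps {F : Type} [CommRing F] (s n : F) : ℕ → F
  | 0 => 2
  | 1 => s
  | i + 2 => s * ps s n (i + 1) - n * ps s n i

theorem ps_eq {F K : Type} [CommRing F] [CommRing K] (f : F →+* K) {s n : F} {a b : K}
    (h1 : a + b = f s) (h2 : a * b = f n) : ∀ i, f (ps s n i) = a ^ i + b ^ i
  | 0 => by simp [ps, map_ofNat, one_add_one_eq_two]
  | 1 => by simp [ps, h1]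
  | i + 2 => by
    rw [ps, map_sub, map_mul, map_mul, ps_eq f h1 h2 (i + 1), ps_eq f h1 h2 i, ← h1, ← h2]
    ring

theorem sg_ps {F K : Type} [Field F] [Field K] (f : F →+* K) {s n : F} {a b : K}
    (h1 : a + b = f s) (h2 : a * b = f n) (M : ℕ) : sg (a ^ M = b ^ M) (a ^ M = -b ^ M) =
      sg (ps s n M ^ 2 = 4 * n ^ M) (ps s n M = 0) := by
  refine sg_congr ?_ ?_
  · rw [← f.injective.eq_iff, map_pow, ps_eq f h1 h2, map_mul, map_pow, ← h2, map_ofNat,
      ← sub_eq_zero, ← sub_eq_zero (a := _ ^ 2), ← pow_eq_zero_iff two_ne_zero]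
    exact Eq.congr_left (by ring)
  · rw [← map_eq_zero_iff f f.injective, ps_eq f h1 h2, eq_neg_iff_add_eq_zero]

section sums

variable {R Γ ι : Type} [CommRing R] [Group Γ]

theorem isCh_sum (s : Finset ι) (c : ι → Γ → R) (h : ∀ i ∈ s, IsCh (c i)) :
    IsCh fun g => ∑ i ∈ s, c i g := by
  choose n h1 h2 σ h using fun i : s => h i i.2
  refine ⟨Σ i, n i, inferInstance, inferInstance,
    (Matrix.blockDiagonal'RingHom n R).toMonoidHom.comp (Pi.monoidHom σ), fun g => ?_⟩
  beta_reduce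
  rw [← Finset.sum_coe_sort s]
  simp only [h]
  exact (Matrix.trace_blockDiagonal' _).symm

theorem lvT_sum {H : Subgroup Γ} (s : Finset ι) (c : ι → Γ → R) (h : ∀ i ∈ s, LvT H (c i)) :
    LvT H fun g => ∑ i ∈ s, c i g := by
  choose n h1 x y a h using fun i : s => h i i.2
  refine ⟨Σ i, n i, inferInstance, fun p => x p.1 p.2, fun p => y p.1 p.2, fun p => a p.1 p.2,
    fun g hg => ?_⟩
  beta_reduce
  rw [← Finset.sum_coe_sort s, Fintype.sum_sigma]
  exact Finset.sum_congr rfl fun i _ => h i g hg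

theorem ext0_conj {H : Subgroup Γ} (ξ : H →* R) (u : H) (x : Γ) :
    ext0 ξ ((u : Γ)⁻¹ * x * u) = ext0 ξ x := by
  unfold ext0
  by_cases hx : x ∈ H
  · rw [dif_pos hx, dif_pos (mul_mem (mul_mem (inv_mem u.2) hx) u.2)]
    show ξ (u⁻¹ * ⟨x, hx⟩ * u) = _
    rw [map_mul, map_mul, mul_right_comm, ← map_mul, inv_mul_cancel, map_one, one_mul]
  · rw [dif_neg hx, dif_neg fun k => hx
      ((mul_mem_cancel_left (inv_mem u.2)).1 ((mul_mem_cancel_right u.2).1 k))]

end sums

section ind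

variable {F R : Type} [Field F] [Fintype F] [CommRing R]

theorem low_inv (t : F) : (lowU t)⁻¹ = lowU (-t) := inv_eq_of_mul_eq_one_right (by
  ext i j
  fin_cases i <;> fin_cases j <;> simp [lowU, Matrix.mul_apply, Fin.sum_univ_two])

theorem wey_inv : (wey F)⁻¹ = wey F := inv_eq_of_mul_eq_one_right (by
  ext i j
  fin_cases i <;> fin_cases j <;> simp [wey, Matrix.mul_apply, Fin.sum_univ_two])

variable [Fintype (GL (Fin 2) F)]

theorem ind_eq (ξ : Bor F →* R) (g : GL (Fin 2) F) : indC (Bor F) ξ g =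
    ext0 ξ (wey F * g * wey F) + ∑ t, ext0 ξ (lowU (-t) * g * lowU t) := by
  let r : Option F → GL (Fin 2) F := fun o => o.elim (wey F) lowU
  have hb : Function.Bijective fun o => (r o : GL (Fin 2) F ⧸ Bor F) := by
    refine ⟨fun o o' e => ?_, fun q => ?_⟩
    · have := mem_Bor.1 (QuotientGroup.eq.1 e)
      rcases o with _ | t <;> rcases o' with _ | t' <;>
        simp only [r, Option.elim, low_inv, wey_inv] at this <;>
        simp [lowU, wey, Matrix.mul_apply, Fin.sum_univ_two] at this ⊢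
      linear_combination -this
    · obtain ⟨x, rfl⟩ := QuotientGroup.mk_surjective q
      by_cases h : x 0 0 = 0
      · refine ⟨none, QuotientGroup.eq.2 (mem_Bor.2 ?_)⟩
        simp only [r, Option.elim, wey_inv]
        simp [wey, Matrix.mul_apply, Fin.sum_univ_two, h]
      · refine ⟨some (x 1 0 / x 0 0), QuotientGroup.eq.2 (mem_Bor.2 ?_)⟩
        simp only [r, Option.elim, low_inv]
        simp [lowU, Matrix.mul_apply, Fin.sum_univ_two, h]
  rw [indC, ← hb.sum_comp, Fintype.sum_option]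
  have e : ∀ x : GL (Fin 2) F, ext0 ξ ((x : GL (Fin 2) F ⧸ Bor F).out⁻¹ * g *
      (x : GL (Fin 2) F ⧸ Bor F).out) = ext0 ξ (x⁻¹ * g * x) := fun x => by
    obtain ⟨u, e⟩ := QuotientGroup.mk_out_eq_mul (Bor F) x
    rw [e, ← ext0_conj ξ u (x⁻¹ * g * x)]
    congr 1
    group
  simp only [e, r, Option.elim, low_inv, wey_inv]

variable (χ₁ χ₂ : F →* R)

theorem ind_ex (g : GL (Fin 2) F) : indC (Bor F) (borCh χ₁ χ₂) g =
    (if g 0 1 = 0 then χ₁ (g 1 1) * χ₂ (g 0 0) else 0) +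
    ∑ t, if g 1 0 + (g 1 1 - g 0 0) * t - g 0 1 * t ^ 2 = 0 then
      χ₁ (g 0 0 + g 0 1 * t) * χ₂ (g 1 1 - g 0 1 * t) else 0 := by
  rw [ind_eq]
  unfold ext0
  congr 1
  · by_cases h : g 0 1 = 0
    · rw [dif_pos ((wey_mem g).2 h), if_pos h]
      show χ₁ _ * χ₂ _ = _
      simp [wey, Matrix.mul_apply, Matrix.vecMul, dotProduct, Fin.sum_univ_two]
    · rw [dif_neg (mt (wey_mem g).1 h), if_neg h]
  · refine Finset.sum_congr rfl fun t _ => ?_
    by_cases h : g 1 0 + (g 1 1 - g 0 0) * t - g 0 1 * t ^ 2 = 0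
    · rw [dif_pos ((low_mem g t).2 h), if_pos h]
      show χ₁ _ * χ₂ _ = _
      congr 2 <;> simp [lowU, Matrix.mul_apply, Matrix.vecMul, dotProduct, Fin.sum_univ_two]
      ring
    · rw [dif_neg (mt (low_mem g t).1 h), if_neg h]

theorem ind_one : indC (Bor F) (borCh χ₁ χ₂) 1 = Fintype.card F + 1 := by
  rw [ind_ex]
  simp [add_comm]

theorem ind_val (g : GL (Fin 2) F) (hg : ¬ (g 1 0 = 0 ∧ g 0 1 = 0 ∧ g 0 0 = g 1 1)) {a d : F}
    (h1 : g 0 0 + g 1 1 = a + d) (h2 : g 0 0 * g 1 1 - g 0 1 * g 1 0 = a * d) :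
    indC (Bor F) (borCh χ₁ χ₂) g = ∑ x ∈ {a, d}, χ₁ x * χ₂ (a + d - x) := by
  rw [ind_ex]
  by_cases hb : g 0 1 = 0
  · have e : ({a, d} : Finset F) = {g 1 1, g 0 0} := by
      rw [hb, zero_mul, sub_zero] at h2
      have : (a - g 0 0) * (a - g 1 1) = 0 := by linear_combination -a * h1 + h2
      rcases mul_eq_zero.1 this with k | k
      · rw [sub_eq_zero.1 k, show d = g 1 1 by linear_combination -h1 - k, pair_comm]
      · rw [sub_eq_zero.1 k, show d = g 0 0 by linear_combination -h1 - k]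
    rw [e, ← h1]
    simp only [hb, if_true, zero_mul, add_zero, sub_zero]
    by_cases k : g 0 0 = g 1 1
    · have : g 1 0 ≠ 0 := fun k' => hg ⟨k', hb, k⟩
      simp [k, this]
    · rw [sum_pair (Ne.symm k), Finset.sum_eq_single (g 1 0 / (g 0 0 - g 1 1)) (fun t _ ht => if_neg
        fun e => ht (by rw [eq_div_iff (sub_ne_zero.2 k)]; linear_combination -e)) (by simp),
        if_pos (by have := sub_ne_zero.2 k; field_simp; ring)]
      simp
  · rw [if_neg hb, zero_add, ← Finset.sum_filter]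
    refine Finset.sum_bij' (fun t _ => g 0 0 + g 0 1 * t) (fun x _ => (x - g 0 0) / g 0 1)
      (fun t ht => ?_) (fun x hx => ?_) (fun t _ => ?_) (fun x _ => ?_) fun t _ => ?_
    · have : (g 0 0 + g 0 1 * t - a) * (g 0 0 + g 0 1 * t - d) = 0 := by
        linear_combination -g 0 1 * (mem_filter.1 ht).2 + (g 0 0 + g 0 1 * t) * h1 - h2
      simpa [sub_eq_zero] using this
    · have : (x - a) * (x - d) = 0 := by simpa [sub_eq_zero] using hx
      refine mem_filter.2 ⟨mem_univ _, ?_⟩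
      field_simp
      linear_combination -this + x * h1 - h2
    · field_simp
      ring
    · field_simp
      ring
    · rw [← h1]
      congr 2
      ring

theorem ind_par (g : GL (Fin 2) F) (hg : ¬ (g 1 0 = 0 ∧ g 0 1 = 0 ∧ g 0 0 = g 1 1)) {a : F}
    (h1 : g 0 0 + g 1 1 = a + a) (h2 : g 0 0 * g 1 1 - g 0 1 * g 1 0 = a * a) :
    indC (Bor F) (borCh χ₁ χ₂) g = χ₁ a * χ₂ a := by
  simp [ind_val χ₁ χ₂ g hg h1 h2]

theorem ind_reg (g : GL (Fin 2) F) {a d : F} (h : a ≠ d)
    (h1 : a + d = g 0 0 + g 1 1) (h2 : a * d = g 0 0 * g 1 1 - g 0 1 * g 1 0) :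
    indC (Bor F) (borCh χ₁ χ₂) g = χ₁ a * χ₂ d + χ₁ d * χ₂ a := by
  rw [ind_val χ₁ χ₂ g (fun ⟨e1, e2, e3⟩ => ?_) h1.symm h2.symm, sum_pair h, add_sub_cancel_left,
    add_sub_cancel_right]
  rw [e1, mul_zero, sub_zero, e3] at h2
  rw [e3] at h1
  exact pow_ne_zero 2 (sub_ne_zero.2 h)
    (by linear_combination ((a + d) + 2 * g 1 1) * h1 - 4 * h2)

end ind

theorem ex_ell {F E : Type} [Field F] [Field E] [Algebra F E] [Fintype F] [Fintype E]
    (h : Module.finrank F E = 2) (h2 : (2 : F) ≠ 0) {s n : F} (h0 : ∀ x, x ^ 2 - s * x + n ≠ 0) :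
    ∃ u : E, cj F u ≠ u ∧ Algebra.norm F u = n ∧ Algebra.trace F E u = s := by
  have := card_roots (E := E) h h2 s n
  rw [Finset.filter_false_of_mem fun x _ => h0 x, card_empty, zero_add] at this
  obtain ⟨u, hu⟩ := Finset.card_pos.1 (this ▸ two_pos)
  obtain ⟨rfl, rfl⟩ := mem_eig.1 hu
  refine ⟨u, fun e => ?_, rfl, rfl⟩
  rw [eig_ell h, e] at this
  simp at this

/-- a faithful character of a finite field -/
theorem ex_T (E K : Type) [Field E] [Fintype E] [Field K] [IsAlgClosed K] [CharZero K] :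
    ∃ T : MulChar E K, ∀ u, T u = 1 → u = 1 := by
  have : NeZero (Nat.card Eˣ) := ⟨Nat.card_pos.ne'⟩
  let e := mulEquivOfCyclicCardEq
    (HasEnoughRootsOfUnity.natCard_rootsOfUnity K (Nat.card Eˣ)).symm
  refine ⟨MulChar.ofUnitHom ((Subgroup.subtype _).comp e.toMonoidHom), fun u hu => ?_⟩
  rcases eq_or_ne u 0 with rfl | h
  · rw [MulChar.map_zero] at hu
    exact absurd hu zero_ne_one
  · obtain ⟨u, rfl⟩ := IsUnit.mk0 u h
    rw [MulChar.ofUnitHom_coe, Units.val_eq_one] at hu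
    exact Units.val_eq_one.2 (e.map_eq_one_iff.1 (Subtype.ext hu))

theorem T_sg {E K : Type} [Field E] [Field K] {T : MulChar E K} (hT : ∀ u, T u = 1 → u = 1)
    (h2 : (2 : E) ≠ 0) {a b : E} (hb : b ≠ 0) :
    sg (T (a / b) = 1) (T (a / b) = -1) = sg (a = b) (a = -b) := by
  have e : T (-1) = -1 := (mul_self_eq_one_iff.1 (by rw [← map_mul]; simp)).resolve_left fun k =>
    h2 (by linear_combination -hT _ k)
  refine sg_congr ⟨fun k => (div_eq_one_iff_eq hb).1 (hT _ k), fun k => by simp [k, hb]⟩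
    ⟨fun k => ?_, fun k => by rw [k, neg_div_self hb, e]⟩
  have := hT (-1 * (a / b)) (by rw [map_mul, e, k]; simp)
  field_simp at this
  linear_combination -this

end Vale.Agent.P022K.PB.Can
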