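import Vale.Agent.P022K.Top.Inst
import Vale.Agent.P022K.PB.CanA
import Mathlib.NumberTheory.LegendreSymbol.AddCharacter

/-!
# P022K, block PB: the canonical types `cc l k`
-/

set_option autoImplicit false
set_option linter.all false

noncomputable section

namespace Vale.Agent.P022K.PB.Can

open Classical Finset CH Top
open Vale.Agent.P022 (Qb)

variable {l : ℕ} [Fact l.Prime]

variable (l) in
/-- the values of the canonical type -/
structure Spec (e : ℤ) (n M : ℕ) (c : GL (Fin 2) (ZMod l) → Qb) : Prop where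
  prin : Prin l c
  one : c 1 = n * (l + e)
  uni : ∀ g : GL (Fin 2) (ZMod l), g ∉ Subgroup.center _ → g.val.trace ^ 2 = 4 * g.val.det →
    c g = e * n
  reg : ∀ (K : Type) [Field K] (f : ZMod l →+* K) (g : GL (Fin 2) (ZMod l)) (a b : K),
    a + b = f g.val.trace → a * b = f g.val.det → a ≠ b → a ^ l = (if e = 1 then a else b) →
    c g = 2 * e * n * sg (a ^ M = b ^ M) (a ^ M = -b ^ M)

theorem prin_sum {ι : Type} (s : Finset ι) (c : ι → GL (Fin 2) (ZMod l) → Qb)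
    (h : ∀ i ∈ s, Prin l (c i)) : Prin l fun g => ∑ i ∈ s, c i g :=
  ⟨inferInstance, isCh_sum s c fun i hi => (h i hi).isCh, lvT_sum s c fun i hi => (h i hi).lvT,
    fun g z hz => Finset.sum_congr rfl fun i hi => (h i hi).cen g z hz,
    fun d => Finset.sum_comm.trans (Finset.sum_eq_zero fun i hi => (h i hi).ks d)⟩

theorem ncen {F : Type} [Field F] {g : GL (Fin 2) F} (h : g ∉ Subgroup.center _) :
    ¬ (g 1 0 = 0 ∧ g 0 1 = 0 ∧ g 0 0 = g 1 1) := fun ⟨a, b, c⟩ =>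
  h (Subgroup.mem_center_iff.2 fun x => by
    ext i j
    fin_cases i <;> fin_cases j <;> simp [Matrix.mul_apply, Fin.sum_univ_two, a, b, c, mul_comm])

theorem half {F : Type} [Field F] [Fintype F] (h2 : (2 : F) ≠ 0) {g : GL (Fin 2) F}
    (h : g.val.trace ^ 2 = 4 * g.val.det) : ∃ a, a ≠ 0 ∧ g 0 0 + g 1 1 = a + a ∧
      g 0 0 * g 1 1 - g 0 1 * g 1 0 = a * a := by
  rw [Matrix.trace_fin_two, Matrix.det_fin_two] at h
  have e : g 0 0 * g 1 1 - g 0 1 * g 1 0 = (g 0 0 + g 1 1) / 2 * ((g 0 0 + g 1 1) / 2) := by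
    field_simp
    linear_combination -h
  exact ⟨_, fun k => gl_det g (by rw [e, k, mul_zero]), by field_simp; ring, e⟩

theorem fix_iff {K : Type} [Field K] (f : ZMod l →+* K) {a : K} : a ^ l = a ↔ ∃ x, f x = a := by
  have := charP_of_injective_ringHom f.injective l
  refine ⟨fun h => ?_, fun ⟨x, h⟩ => by rw [← h, ← map_pow, ZMod.pow_card]⟩
  obtain ⟨m, rfl⟩ := (mem_bot_iff_intCast l K).1
    ((Subfield.mem_bot_iff_pow_eq_self K l).2 h)
  exact ⟨m, map_intCast f m⟩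

theorem ex_pow {E : Type} [Field E] [Fintype E] {m : ℕ} (h : ¬ Fintype.card E - 1 ∣ m) :
    ∃ a : E, a ≠ 0 ∧ a ^ m ≠ 1 := by
  obtain ⟨a, ha⟩ := not_forall.1 (mt (FiniteField.forall_pow_eq_one_iff E m).1 h)
  exact ⟨a, a.ne_zero, fun k => ha (Units.ext (by simpa using k))⟩

theorem two_ne {p : ℕ} (h : l = 2 * p + 1) : (2 : ZMod l) ≠ 0 := fun k => by
  have : ((2 * p + 1 : ℕ) : ZMod l) = 0 := by rw [← h, ZMod.natCast_self]
  simp [k] at this

theorem spec_split {k M : ℕ} (h : l = 2 ^ (k + 2) * M + 1) : ∃ c, Spec l 1 (2 ^ (k + 1)) M c := by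
  obtain ⟨T, hT⟩ := ex_T (ZMod l) Qb
  have h2 : (2 : ZMod l) ≠ 0 := two_ne (p := 2 ^ (k + 1) * M) (by rw [h]; ring)
  have M0 : 0 < M := Nat.pos_of_ne_zero fun e => (Fact.out : l.Prime).ne_one (by simp [h, e])
  have hq : ∀ a : ZMod l, a ≠ 0 → T (a ^ M) ^ 2 ^ (k + 2) = 1 := fun a ha => by
    rw [← map_pow, ← pow_mul, show M * 2 ^ (k + 2) = l - 1 by rw [h, mul_comm]; simp,
      ZMod.pow_card_sub_one_eq_one ha, map_one]
  let χ : ℕ → ZMod l →* Qb := fun j => (powMonoidHom j).comp (T.toMonoidHom.comp (powMonoidHom M))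
  have hχ : ∀ j a, χ j a = T (a ^ M) ^ j := fun _ _ => rfl
  have hχ' : ∀ j a, (χ j).comp invMonoidHom a = T (a⁻¹ ^ M) ^ j := fun _ _ => rfl
  have hz : ∀ j a, a ≠ 0 → χ j a * (χ j).comp invMonoidHom a = 1 := fun j a ha =>
    (map_mul (χ j) a a⁻¹).symm.trans (by rw [mul_inv_cancel₀ ha, map_one])
  refine ⟨fun g => ∑ j ∈ Jn (2 ^ (k + 1)), indC (Bor (ZMod l))
    (borCh (χ j) ((χ j).comp invMonoidHom)) g, prin_sum _ _ fun j hj => prin_ind _ _ (k + 2)
      (fun a ha => ?_) (fun a ha => ?_) (hz j) ?_, ?_, fun g hg hd => ?_,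
    fun K _ f g a b h1 h3 ab hl => ?_⟩
  · rw [hχ, pow_right_comm, hq a ha, one_pow]
  · rw [hχ', pow_right_comm, hq _ (inv_ne_zero ha), one_pow]
  · obtain ⟨a, a0, ha⟩ := ex_pow (E := ZMod l) (m := M * j * 2) fun ⟨r, e⟩ => by
      obtain ⟨i, rfl⟩ := odd_Jn hj
      rw [ZMod.card, show l - 1 = 2 ^ (k + 2) * M by omega] at e
      have : M * ((2 * i + 1) * 2) = M * (4 * (2 ^ k * r)) := by linear_combination e
      have := Nat.eq_of_mul_eq_mul_left M0 this
      omega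
    refine ⟨a, a0, fun e => ha (hT _ ?_)⟩
    rw [pow_mul, pow_mul, map_pow, map_pow, ← hχ, pow_two]
    nth_rw 2 [e]
    exact hz j a a0
  · simp [ind_one, card_Jn, mul_add]
  · obtain ⟨a, a0, h1, h3⟩ := half h2 hd
    simp only [ind_par _ _ g (ncen hg) h1 h3, hz _ a a0]
    simp [card_Jn]
  · obtain ⟨x, rfl⟩ := (fix_iff f).1 (hl.trans (if_pos rfl))
    obtain ⟨y, rfl⟩ : ∃ y, f y = b := ⟨g.val.trace - x, by rw [map_sub, ← h1]; ring⟩
    have xy : x ≠ y := fun e => ab (congrArg f e)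
    rw [← map_add, f.injective.eq_iff, Matrix.trace_fin_two] at h1
    rw [← map_mul, f.injective.eq_iff, Matrix.det_fin_two] at h3
    obtain ⟨x0, y0⟩ := mul_ne_zero_iff.1 (h3 ▸ gl_det g)
    have e : ∀ j, indC (Bor (ZMod l)) (borCh (χ j) ((χ j).comp invMonoidHom)) g =
        T ((x / y) ^ M) ^ j + T ((y / x) ^ M) ^ j := fun j => by
      rw [ind_reg _ _ g xy h1 h3]
      simp only [hχ, hχ', ← mul_pow, ← map_mul, div_eq_mul_inv]
    simp only [e]
    rw [sum_two (by rw [← pow_succ']; exact hq _ (div_ne_zero x0 y0))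
      (by rw [← map_mul, ← mul_pow, div_mul_div_cancel₀ y0, div_self x0, one_pow, map_one]),
      div_pow, T_sg hT h2 (pow_ne_zero M y0)]
    simp only [← map_pow, ← map_neg, f.injective.eq_iff]
    push_cast
    ring

theorem spec_inert {k M : ℕ} (h : l + 1 = 2 ^ (k + 2) * M) :
    ∃ c, Spec l (-1) (2 ^ (k + 1)) M c := by
  let E := GaloisField l 2
  letI : Fintype E := Fintype.ofFinite E
  have rk : Module.finrank (ZMod l) E = 2 := GaloisField.finrank l two_ne_zero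
  obtain ⟨T, hT⟩ := ex_T E Qb
  obtain ⟨i0, hi⟩ : ∃ i, l = 4 * i + 3 := ⟨l / 4, by
    have : 2 ^ (k + 2) * M = 4 * (2 ^ k * M) := by ring
    omega⟩
  obtain ⟨p, hp, hp'⟩ : ∃ p, l = p + 1 ∧ p = 4 * i0 + 2 := ⟨_, by omega, rfl⟩
  have h2 : (2 : ZMod l) ≠ 0 := two_ne (p := 2 * i0 + 1) (by omega)
  have M0 : 0 < M := Nat.pos_of_ne_zero fun e => by simp [e] at h
  have cE : Fintype.card E - 1 = p * (2 ^ (k + 2) * M) := by
    rw [card_E rk, ZMod.card, ← h, hp]
    exact Nat.sub_eq_of_eq_add (by ring)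
  have hE : ∀ u : E, u ≠ 0 → u ^ (p * (2 ^ (k + 2) * M)) = 1 := fun u hu =>
    cE ▸ FiniteField.pow_card_sub_one_eq_one u hu
  have hq : ∀ u : E, u ≠ 0 → T ((u ^ p) ^ M) ^ 2 ^ (k + 2) = 1 := fun u hu => by
    rw [← map_pow, ← pow_mul, ← pow_mul, mul_comm M, hE u hu, map_one]
  have hc : ∀ u : E, cj (ZMod l) u = u ^ p * u := fun u => by
    rw [cj_apply, ZMod.card, ← pow_succ, ← hp]
  obtain ⟨ζ, hζ⟩ := HasEnoughRootsOfUnity.exists_primitiveRoot Qb l
  have hψ := AddChar.zmodChar_primitive_of_primitive_root l hζ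
  have ht : ∀ j ∈ Jn (2 ^ (k + 1)), ∀ u, (T ^ (p * M * j)) u = T ((u ^ p) ^ M) ^ j := fun j hj u => by
    rw [MulChar.pow_apply' _ (mul_pos (mul_pos (by omega) M0) (odd_Jn hj).pos).ne', pow_mul, pow_mul,
      map_pow, map_pow]
  have ex : ∀ j, ∃ C : Cus (ZMod l) E Qb, j ∈ Jn (2 ^ (k + 1)) → C.th = T ^ (p * M * j) := by
    have m : ∀ j ∈ Jn (2 ^ (k + 1)), ∃ C : Cus (ZMod l) E Qb, C.th = T ^ (p * M * j) := fun j hj => by
      obtain ⟨v, v0, hv⟩ := ex_pow (E := E) (m := p * (p * (M * j))) fun ⟨r, e⟩ => by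
        obtain ⟨i, rfl⟩ := odd_Jn hj
        rw [cE] at e
        have : p * M * (p * (2 * i + 1)) = p * M * (4 * (2 ^ k * r)) := by linear_combination e
        have := Nat.eq_of_mul_eq_mul_left (mul_pos (by omega) M0) this
        rw [hp', show (4 * i0 + 2) * (2 * i + 1) = 4 * (2 * i0 * i + i0 + i) + 2 by ring] at this
        omega
      refine ⟨⟨rk, AddChar.zmodChar l hζ.pow_eq_one, (l : Qb)⁻¹, by
        rw [ZMod.card, inv_mul_cancel₀ (Nat.cast_ne_zero.2 (by omega))], fun c hc => ?_,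
        T ^ (p * M * j), th0_of _ (v ^ p) (inj_FE (E := E) ?_) fun r hr => ?_⟩, rfl⟩
      · simpa only [mul_comm c, if_neg hc, Nat.cast_zero] using AddChar.sum_mulShift c hψ
      · rw [nm_eq rk, map_one, hc, ← hE v v0, ← h, show l + 1 = p + 2 by omega]
        ring
      · refine (mul_eq_zero.1 hr).resolve_left (sub_ne_zero.2 fun e => hv (hT _ ?_))
        rwa [ht j hj, ← map_pow, ← pow_mul, ← pow_mul, ← pow_mul] at e
    intro j
    by_cases hj : j ∈ Jn (2 ^ (k + 1))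
    · exact (m j hj).imp fun _ a _ => a
    · exact (m 1 (one_Jn (by positivity))).imp fun _ _ a => absurd a hj
  choose C hC using ex
  have hz : ∀ j ∈ Jn (2 ^ (k + 1)), ∀ a : ZMod l, a ≠ 0 → (C j).th (algebraMap _ E a) = 1 :=
    fun j hj a ha => by
      rw [hC j hj, ht j hj, ← map_pow (algebraMap _ E), show p = l - 1 by omega,
        ZMod.pow_card_sub_one_eq_one ha]
      simp
  refine ⟨fun g => ∑ j ∈ Jn (2 ^ (k + 1)), (C j).ch g, prin_sum _ _ fun j hj => prin_cus _ h2 (k + 2)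
    (fun u hu => ?_) (hz j hj), ?_, fun g hg hd => ?_, fun K _ f g a b h1 h3 ab hl => ?_⟩
  · rw [hC j hj, ht j hj, pow_right_comm, hq u hu, one_pow]
  · simp only [Cus.ch]
    rw [Finset.sum_congr rfl fun j hj => ((C j).tr_scalar 1 rfl rfl rfl).trans
      (congrArg _ (hz j hj _ one_ne_zero))]
    simp [card_Jn, sub_eq_add_neg, mul_add]
  · obtain ⟨a, a0, h1, h3⟩ := half h2 hd
    simp only [Cus.ch]
    rw [Finset.sum_congr rfl fun j hj => ((C j).tr_par g (ncen hg) h1 h3).trans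
      (congrArg _ (hz j hj _ a0))]
    simp [card_Jn]
  · obtain ⟨u, uc, u1, u2⟩ := ex_ell rk h2 (s := g.val.trace) (n := g.val.det) fun x e => ab (by
      have e := congrArg f e
      rw [map_add, map_sub, map_mul, map_pow, ← h1, ← h3, map_zero] at e
      rw [← (hl.trans (if_neg (by decide))), eq_comm, fix_iff f]
      rcases mul_eq_zero.1 (show (f x - a) * (f x - b) = 0 by linear_combination e) with e | e
      · exact ⟨x, sub_eq_zero.1 e⟩
      · exact ⟨g.val.trace - x, by rw [map_sub, ← h1]; linear_combination -e⟩)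
    have u0 : u ≠ 0 := fun e => g.det_ne_zero (u1 ▸ (nm_zero u).2 e)
    have c0 : cj (ZMod l) u ≠ 0 := (map_ne_zero _).2 u0
    have e1 : u ^ p = cj (ZMod l) u / u := by rw [hc, mul_div_cancel_right₀ _ u0]
    have e2 : cj (ZMod l) u ^ p = u / cj (ZMod l) u := by
      rw [eq_div_iff c0, ← hc, cj_cj rk]
    simp only [Cus.ch]
    rw [Finset.sum_congr rfl fun j hj => ((C j).tr_ell g uc
      ((Matrix.trace_fin_two _).symm.trans u2.symm)
      ((Matrix.det_fin_two _).symm.trans u1.symm)).trans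
      (by rw [hC j hj, ht j hj, ht j hj, add_comm]), Finset.sum_neg_distrib,
      sum_two (by rw [← pow_succ']; exact hq _ c0) (by rw [← map_mul, ← mul_pow, e1, e2,
        div_mul_div_cancel₀ c0, div_self u0, one_pow, map_one]), e2, div_pow,
      T_sg hT (by simpa only [map_ofNat] using alg_ne (E := E) h2) (pow_ne_zero M c0),
      sg_ps f h1 h3, sg_ps (algebraMap (ZMod l) E) (u2 ▸ (tr_eq rk u).symm)
        (u1 ▸ (nm_eq rk u).symm)]
    push_cast
    ring

/-- the defining property of the canonical type -/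
def Ex (l k : ℕ) (c : GL (Fin 2) (ZMod l) → Qb) : Prop := ∀ [Fact l.Prime] (e : ℤ) (M : ℕ),
  e = 1 ∨ e = -1 → (l : ℤ) = 2 ^ (k + 2) * M + e → Spec l e (2 ^ (k + 1)) M c

/-- **the canonical type** of order `2 ^ k` -/
def _root_.Vale.Agent.P022K.PB.cc (l k : ℕ) : GL (Fin 2) (ZMod l) → Qb :=
  Classical.epsilon (Ex l (k - 2))

theorem ex_cc (l k : ℕ) : Ex l k (cc l (k + 2)) := by
  refine Classical.epsilon_spec (p := Ex l k) ?_
  by_cases h : ∃ (_ : Fact l.Prime) (e : ℤ) (M : ℕ), (e = 1 ∨ e = -1) ∧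
      (l : ℤ) = 2 ^ (k + 2) * M + e
  · obtain ⟨_, e, M, he, h⟩ := h
    obtain ⟨c, hc⟩ : ∃ c, Spec l e (2 ^ (k + 1)) M c := by
      rcases he with rfl | rfl
      · exact spec_split (by exact_mod_cast h)
      · exact spec_inert (by zify; linear_combination h)
    refine ⟨c, fun e' M' he' h' => ?_⟩
    have e4 : (4 : ℤ) * (2 ^ k * M) + e = 4 * (2 ^ k * M') + e' := by linear_combination h' - h
    obtain rfl : e = e' := by omega
    obtain rfl : M = M' := by
      have := mul_left_cancel₀ (by positivity) (add_right_cancel (h.symm.trans h'))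
      exact_mod_cast this
    exact hc
  · exact ⟨0, fun e M he h' => absurd ⟨inferInstance, e, M, he, h'⟩ h⟩

omit [Fact l.Prime] in
theorem _root_.Vale.Agent.P022K.PB.prin_cc {k : ℕ} (hl : l.Prime) (hk : 2 ≤ k)
    (h : 2 ^ k ∣ l - 1 ∨ 2 ^ k ∣ l + 1) : Prin l (cc l k) := by
  have := Fact.mk hl
  obtain ⟨k, rfl⟩ := Nat.exists_eq_add_of_le' hk
  rcases h with ⟨M, h⟩ | ⟨M, h⟩
  · exact (ex_cc l k 1 M (Or.inl rfl) (by have := hl.pos; exact_mod_cast by omega)).prin
  · exact (ex_cc l k (-1) M (Or.inr rfl) (by zify at h; linear_combination h)).prin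

end Vale.Agent.P022K.PB.Can
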