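import Vale.Agent.P022K.F0.Typ
import Vale.Agent.P022K.F0.Tyr
import Vale.Agent.P022K.PB.CanB

/-!
# P022K, block PB: the canonical type contains the type of a Hecke character
-/

set_option autoImplicit false
set_option linter.all false

open NumberField IsDedekindDomain WithZero Filter

noncomputable section

namespace Vale.Agent.P022K.PB

open Vale.Agent.P022 (Qb)
open Vale.Agent.P022K.Sh Vale.Agent.P022K.Sh.Tor F0

namespace Can

theorem sg_prim {R : Type} [CommRing R] [IsDomain R] {ζ : R} {n : ℕ} (n0 : 0 < n)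
    (h : IsPrimitiveRoot ζ (2 * n)) (i : ℕ) :
    sg (ζ ^ i = 1) (ζ ^ i = -1) = sg (2 * n ∣ i) (2 * n ∣ i + n) := by
  refine sg_congr (h.pow_eq_one_iff_dvd i) ?_
  rw [← h.pow_eq_one_iff_dvd, pow_add, (h.pow (by omega) (mul_comm 2 n)).eq_neg_one_of_two_right,
    mul_neg_one, neg_eq_iff_eq_neg]

theorem core {G K : Type} [CommGroup G] [Field K] (H : Subgroup G) (χ : G →* ℂ) (x : G →* K)
    {k M : ℕ} (M0 : 0 < M) (ker : ∀ γ ∈ H, x γ = 1 → χ γ = 1) {g : G} (hg : g ∈ H)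
    (y : IsPrimitiveRoot (x g) (2 ^ (k + 1) * M)) (hx : ∀ γ, x γ ^ (2 ^ (k + 1) * M) = 1)
    (pow : ∀ γ ∈ H, χ γ ^ 2 ^ (k + 1) = 1) (ex : ∃ γ ∈ H, χ γ ^ 2 ^ k ≠ 1) :
    ∀ γ ∈ H, sg (χ γ = 1) (χ γ = -1) = sg (x γ ^ M = 1) (x γ ^ M = -1) := by
  have : NeZero (2 ^ (k + 1) * M) := ⟨by positivity⟩
  have e : ∀ γ ∈ H, ∃ i, x γ = x g ^ i ∧ χ γ = χ g ^ i := fun γ hγ => by
    obtain ⟨i, -, hi⟩ := y.eq_pow_of_pow_eq_one (hx γ)
    have := ker (γ / g ^ i) (div_mem hγ (pow_mem hg i)) (by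
      rw [map_div, map_pow, hi, div_self ((Group.isUnit γ).map x).ne_zero])
    rw [map_div, div_eq_one_iff_eq ((Group.isUnit _).map χ).ne_zero, map_pow] at this
    exact ⟨i, hi.symm, this⟩
  have z : IsPrimitiveRoot (χ g) (2 * 2 ^ k) := by
    obtain ⟨γ, hγ, h⟩ := ex
    obtain ⟨i, -, hi⟩ := e γ hγ
    rw [← pow_succ', ← orderOf_eq_prime_pow (fun a => h (by rw [hi, pow_right_comm, a, one_pow]))
      (pow g hg)]
    exact IsPrimitiveRoot.orderOf _
  intro γ hγ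
  obtain ⟨i, h1, h2⟩ := e γ hγ
  rw [h1, h2, pow_right_comm, sg_prim (by positivity) z,
    sg_prim (by positivity) (y.pow (by positivity) (by ring : _ = M * (2 * 2 ^ k)))]

section res

variable {E Γ K : Type} [Field E] [LinearOrderedCommGroupWithZero Γ] [Field K]

/-- a residue map -/
structure Rs (V : Valuation E Γ) (ρ : E → K) : Prop where
  add : ∀ {x y}, V x ≤ 1 → V y ≤ 1 → ρ (x + y) = ρ x + ρ y
  sub : ∀ {x y}, V x ≤ 1 → V y ≤ 1 → ρ (x - y) = ρ x - ρ y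
  mul : ∀ {x y}, V x ≤ 1 → V y ≤ 1 → ρ (x * y) = ρ x * ρ y
  int : ∀ m : ℤ, ρ m = m
  eq : ∀ {x y}, V x ≤ 1 → V y ≤ 1 → (ρ x = ρ y ↔ V (x - y) < 1)

theorem vz (V : Valuation E Γ) (m : ℤ) : V m ≤ 1 := intCast_mem V.valuationSubring m

theorem ex_res (V : Valuation E Γ) :
    ∃ (K : Type) (_ : Field K) (_ : IsAlgClosed K) (ρ : E → K), Rs V ρ := by
  classical
  let A := V.valuationSubring
  let r : A →+* AlgebraicClosure (IsLocalRing.ResidueField A) :=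
    (algebraMap _ _).comp (IsLocalRing.residue A)
  refine ⟨_, inferInstance, inferInstance, fun x => if h : V x ≤ 1 then r ⟨x, h⟩ else 0,
    fun a b => ?_, fun a b => ?_, fun a b => ?_, fun m => ?_, fun a b => ?_⟩
  · rw [dif_pos a, dif_pos b, dif_pos (V.map_add_le a b), ← map_add]
    rfl
  · rw [dif_pos a, dif_pos b, dif_pos (V.map_sub_le a b), ← map_sub]
    rfl
  · rw [dif_pos a, dif_pos b, dif_pos ((V.map_mul _ _).trans_le (mul_le_one' a b)), ← map_mul r]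
    rfl
  · rw [dif_pos (vz V m), ← map_intCast r]
    rfl
  · rw [dif_pos a, dif_pos b, ← sub_eq_zero, ← map_sub, RingHom.comp_apply, map_eq_zero,
      IsLocalRing.residue_eq_zero_iff, Valuation.mem_maximalIdeal_iff]
    rfl

variable {V : Valuation E Γ} {ρ : E → K} (R : Rs V ρ)
include R

theorem Rs.eqi {x : E} (h : V x ≤ 1) (m : ℤ) : ρ x = m ↔ V (x - m) < 1 := by
  rw [← R.int, R.eq h (vz V m)]

theorem Rs.ne {x : E} (h : V x ≤ 1) : ρ x ≠ 0 ↔ V x = 1 := by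
  have := R.eqi h 0
  rw [Int.cast_zero, Int.cast_zero, sub_zero] at this
  rw [Ne, this, not_lt]
  exact ⟨h.antisymm, Eq.ge⟩

end res

variable {F E : Type} [Field F] [NumberField F] [Field E] [NumberField E] [Algebra F E]

theorem nat_lt {P : Pl E} {n : ℕ} (h : (n : 𝓞 E) ∈ P.asIdeal) : P.valuation E (n : E) < 1 := by
  exact_mod_cast (mem_iff P (n : 𝓞 E)).1 h

theorem of_lt {P : Pl E} {x u : E} (hu : P.valuation E u = 1) (h : P.valuation E (x - u) < 1) :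
    P.valuation E x = 1 := by
  rw [← sub_add_cancel x u, Valuation.map_add_eq_of_lt_right _ (h.trans_eq hu.symm), hu]

theorem step {P : Pl E} {l : ℕ} (hl : (l : 𝓞 E) ∈ P.asIdeal) {x : E}
    (h : P.valuation E (x - 1) < 1) (r : ℕ) :
    P.valuation E (x ^ l ^ r - 1) ≤ exp (-(r + 1 : ℤ)) := by
  have one : ∀ {y : E}, P.valuation E y < 1 → P.valuation E y ≤ exp (-1 : ℤ) :=
    P027M.S.Cls.le_exp
  induction r with
  | zero => simpa using one h
  | succ r ih =>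
    have lt : P.valuation E (x ^ l ^ r - 1) < 1 := ih.trans_lt (by
      rw [← exp_zero, exp_lt_exp]
      omega)
    have s : P.valuation E (∑ i ∈ Finset.range l, (x ^ l ^ r) ^ i) < 1 := by
      rw [show ∑ i ∈ Finset.range l, (x ^ l ^ r) ^ i =
        l + ∑ i ∈ Finset.range l, ((x ^ l ^ r) ^ i - 1) by simp]
      refine Valuation.map_add_lt _ (nat_lt hl) (Valuation.map_sum_lt _ one_ne_zero
        fun i _ => ?_)
      rw [← mul_geom_sum, map_mul]
      refine (mul_le_of_le_one_right' (Valuation.map_sum_le _ fun t _ => ?_)).trans_lt lt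
      rw [map_pow, of_lt (map_one _) lt, one_pow]
    rw [pow_succ, pow_mul, ← mul_geom_sum, map_mul]
    refine (mul_le_mul' ih (one s)).trans_eq ?_
    rw [← exp_add]
    congr 1

theorem apx {D : ℕ} (D0 : D ≠ 0) (p : Pl E → Prop) {u : E} (hu : ∀ P, p P → P.valuation E u = 1) :
    ∃ a : E, ∀ P : Pl E, (D : 𝓞 E) ∈ P.asIdeal → (p P → P.valuation E (a - u) < 1) ∧
      (¬ p P → P.valuation E (a - 1) ≤ P.valuation E (D : E)) := by
  classical
  obtain ⟨a, ha⟩ := crt0 (fin_nat (E := E) D0) (fun P => if p P then u else 1)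
    (fun P => P.valuation E (D : E)) (fun P _ => by
      split_ifs with k
      exacts [(hu P k).le, (map_one _).le])
    fun P => (Valuation.ne_zero_iff _).2 (Nat.cast_ne_zero.2 D0)
  exact ⟨a, fun P d => ⟨fun k => (if_pos k ▸ ha P d :).trans (nat_lt d),
    fun k => (if_neg k ▸ ha P d :).le⟩⟩

variable {C : CM F E} {Ψ : Pl E → ℂˣ} {w : Pl F}

theorem tame (hk : C.Hk Ψ) (hw : (C.D : 𝓞 F) ∈ w.asIdeal) {l m : ℕ} (o : Odd l)
    (hl : (l : 𝓞 F) ∈ w.asIdeal) {γ : C.G} (hγ : γ ∈ C.G1 {P | ¬ Ab w P})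
    (hp : C.eps Ψ (γ : Eˣ) ^ 2 ^ m = 1)
    (h : ∀ P : Pl E, Ab w P → P.valuation E (((γ : Eˣ) : E) - 1) < 1) :
    C.eps Ψ (γ : Eˣ) = 1 := by
  obtain ⟨r, hr⟩ := ((eventually_all_finite (fin_nat (E := E) C.D0)).2 fun P _ =>
    (eventually_ge_atTop (-log (P.valuation E (C.D : E))).toNat).mono fun r hr =>
      show exp (-(r + 1 : ℤ)) ≤ P.valuation E (C.D : E) by
        rw [← exp_log ((P.valuation E).ne_zero_iff.2 (Nat.cast_ne_zero.2 C.D0)), exp_le_exp]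
        omega).exists
  have h1 : C.eps Ψ (γ : Eˣ) ^ l ^ r = 1 :=
    ((Nel.eH C Ψ).map_pow γ _).symm.trans (C.eps_one hk fun P _ d => by
      by_cases a : Ab w P
      · exact (step ((a.nat _).2 hl) (h P a) r).trans (hr P d)
      · exact pow_mem hγ _ P a d)
  rw [← pow_one (C.eps Ψ _), ← Nat.Coprime.gcd_eq_one
    ((Nat.coprime_two_left.2 o).pow m r), pow_gcd_eq_one]
  exact ⟨hp, h1⟩

theorem mkG {u : E} (h1 : ∀ P : Pl E, Ab w P → P.valuation E u = 1)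
    (h2 : ∀ P : Pl E, ¬ Ab w P → (C.D : 𝓞 E) ∈ P.asIdeal →
      P.valuation E (u - 1) ≤ P.valuation E (C.D : E)) :
    ∃ γ ∈ C.G1 {P | ¬ Ab w P}, (((γ : C.G) : Eˣ) : E) = u :=
  ⟨⟨Units.mk0 u fun e => zero_ne_one ((map_zero _).symm.trans (e ▸ h1 _ (ab_up w))), fun P d =>
    (em (Ab w P)).elim (h1 P) fun a => val_of_cong d (h2 P a d)⟩, h2, rfl⟩

theorem sq_mod {a : 𝓞 F} (h : IsSquare (algebraMap (𝓞 F) (Fw w) a)) :
    ∃ r : 𝓞 F, r ^ 2 - a ∈ w.asIdeal := by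
  obtain ⟨x, e⟩ := h
  have hx : Valued.v x ≤ 1 := by
    rw [← pow_le_one_iff_of_nonneg zero_le two_ne_zero, ← map_pow, pow_two, ← e, v_int]
    exact w.intValuation_le_one a
  obtain ⟨r, hr⟩ := dense_O hx one_ne_zero
  refine ⟨r, ?_⟩
  rw [← w.intValuation_lt_one_iff_mem, ← v_int, map_sub, map_pow, e,
    show algebraMap (𝓞 F) (Fw w) r ^ 2 - x * x = -((x - algebraMap (𝓞 F) (Fw w) r) *
      (x + algebraMap (𝓞 F) (Fw w) r)) by ring, Valuation.map_neg, map_mul]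
  exact mul_lt_one_of_lt_of_le hr (Valuation.map_add_le _ hx
    (by rw [v_int]; exact w.intValuation_le_one r))

section loc

variable {l : ℕ} [Fact l.Prime] {K : Type} [Field K] {ρ : E → K}
  (R : Rs ((up E w).valuation E) ρ) (mem : (C.D : 𝓞 F) ∈ w.asIdeal) (a : 2 * C.a ∉ w.asIdeal)
  (hl : (l : 𝓞 F) ∈ w.asIdeal) (deg : ∀ x : 𝓞 F, ∃ m : ℤ, x - m ∈ w.asIdeal)

include mem in
theorem v_g (γ : C.G) : (up E w).valuation E ((γ : Eˣ) : E) = 1 := γ.2 _ (((ab_up w).nat _).2 mem)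

/-- the reduction of the units -/
def al : C.G →* K where
  toFun γ := ρ ((γ : Eˣ) : E)
  map_one' := by exact_mod_cast R.int 1
  map_mul' x y := R.mul (v_g mem x).le (v_g mem y).le

include a in
theorem v_2 : (up E w).valuation E 2 = 1 :=
  val_nat (n := 2) fun h => a (Ideal.mul_mem_right _ _ (((ab_up w).nat 2).1 h))

include a in
theorem v_d : (up E w).valuation E C.δ = 1 := by
  have := ((ab_up (E := E) w).eq_one _).2 (val_one fun h => a (Ideal.mul_mem_left _ _ h))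
  rwa [← C.sq, map_pow, pow_eq_one_iff_left two_ne_zero] at this

include mem a in
theorem crd {γ : C.G} {s t : F} (e : ((γ : Eˣ) : E) = algebraMap F E s + algebraMap F E t * C.δ) :
    (up E w).valuation E (algebraMap F E s) ≤ 1 ∧ (up E w).valuation E (algebraMap F E t) ≤ 1 := by
  have h1 := (v_g mem γ).le
  have h2 := (v_g mem (C.cG γ)).le
  rw [C.coe_cG, e, C.c_co] at h2
  rw [e] at h1
  have h3 := Valuation.map_add_le _ h1 h2
  have h4 := Valuation.map_sub_le _ h1 h2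
  rw [add_add_sub_cancel, ← two_mul, map_mul, v_2 a, one_mul] at h3
  rw [add_sub_sub_cancel, ← two_mul, map_mul, v_2 a, one_mul, map_mul, v_d a, mul_one] at h4
  exact ⟨h3, h4⟩

include a in
theorem al_co {γ : C.G} {s t : F} (e : ((γ : Eˣ) : E) = algebraMap F E s + algebraMap F E t * C.δ) :
    al R mem γ = ρ (algebraMap F E s) + ρ (algebraMap F E t) * ρ C.δ ∧
      al R mem (C.cG γ) = ρ (algebraMap F E s) - ρ (algebraMap F E t) * ρ C.δ := by
  obtain ⟨h1, h2⟩ := crd mem a e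
  have h3 : (up E w).valuation E (algebraMap F E t * C.δ) ≤ 1 := by rwa [map_mul, v_d a, mul_one]
  rw [← R.mul h2 (v_d a).le, ← R.add h1 h3, ← R.sub h1 h3, ← C.c_co, ← e]
  exact ⟨rfl, rfl⟩

include R

theorem rs_int {s : F} {m : ℤ} (h : w.valuation F (s - m) < 1) : ρ (algebraMap F E s) = m := by
  rw [← (ab_up (E := E) w).lt, map_sub, map_intCast] at h
  refine (R.eqi ?_ m).2 h
  rw [← sub_add_cancel (algebraMap F E s) m]
  exact Valuation.map_add_le _ h.le (vz _ m)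

include deg in
theorem rs_deg {s : F} (h : (up E w).valuation E (algebraMap F E s) ≤ 1) :
    ∃ m : ℤ, ρ (algebraMap F E s) = m := by
  obtain ⟨x, hx⟩ := w.exists_valuation_sub_lt_of_integer
    (show w.valuation F s ≤ 1 by simpa using (Dc.ab_le (ab_up (E := E) w) s 1).1 (by simpa using h)) 1
  obtain ⟨m, hm⟩ := deg x
  refine ⟨m, rs_int R ?_⟩
  rw [show s - m = ((x - m : 𝓞 F) : F) - (algebraMap _ _ x - s) by simp]
  exact Valuation.map_sub_lt _ ((mem_iff w _).1 hm) hx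

include hl in
theorem chr : CharP K l := (CharP.charP_iff_prime_eq_zero Fact.out).2 (by
  have := (R.eqi (vz _ l) 0).2 (by simpa using nat_lt (((ab_up w).nat l).2 hl))
  rw [R.int] at this
  exact_mod_cast this)

include a hl deg in
theorem d_pow {e : ℤ} (he : e = 1 ∨ e = -1)
    (hs : IsSquare (algebraMap (𝓞 F) (Fw w) C.a) ↔ e = 1) : ρ C.δ ^ l = e * ρ C.δ := by
  have := chr R hl
  let f := ZMod.castHom (dvd_refl l) K
  have fi : ∀ m : ℤ, (m : K) ^ l = m := fun m => (fix_iff f).2 ⟨m, map_intCast f m⟩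
  have d2 : ρ C.δ ^ 2 = ρ (algebraMap F E C.a) := by
    rw [← C.sq, sq, sq, R.mul (v_d a).le (v_d a).le]
  rcases he with rfl | rfl
  · obtain ⟨r, hr⟩ := sq_mod (hs.2 rfl)
    obtain ⟨m, hm⟩ := deg r
    rw [rs_int R (m := m ^ 2) (by
      have := (mem_iff w _).1 (sub_mem (w.asIdeal.mul_mem_right (r + m) hm) hr)
      rwa [show (((r - m) * (r + m) - (r ^ 2 - C.a) : 𝓞 F) : F) = C.a - (m ^ 2 : ℤ) by
        simp; ring] at this), Int.cast_pow, sq_eq_sq_iff_eq_or_eq_neg, ← Int.cast_neg] at d2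
    rcases d2 with k | k <;> rw [k, fi, Int.cast_one, one_mul]
  · obtain ⟨i, hi⟩ := rs_deg R deg (s := C.a) (by rw [← C.sq, map_pow, v_d a, one_pow])
    have : (ρ C.δ ^ l) ^ 2 = ρ C.δ ^ 2 := by rw [pow_right_comm, d2, hi, fi]
    rcases sq_eq_sq_iff_eq_or_eq_neg.1 this with k | k
    · obtain ⟨x, hx⟩ := (fix_iff f).1 k
      obtain ⟨m, rfl⟩ := ZMod.intCast_surjective x
      rw [← hx, map_intCast, ← Int.cast_pow, eq_comm, R.eqi (by rw [← C.sq, map_pow, v_d a, one_pow]),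
        ← map_intCast (algebraMap F E), ← map_sub, (ab_up w).lt, Valuation.map_sub_swap,
        ← v_alg, map_sub, map_intCast, Int.cast_pow] at d2
      exact absurd (Tyr.v_sq a (fun s => by have := hs.1 s; omega) (vz _ m)) d2.ne
    · rw [k, Int.cast_neg, Int.cast_one, neg_one_mul]

omit R in
theorem ab {p : Pl E → Prop} (a : p (up E w)) (b : p (C.pi (up E w))) (P : Pl E) (h : Ab w P) : p P :=
  (C.ab_or (ab_up w) h).elim (fun e => e ▸ a) fun e => e ▸ b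

theorem al0 (γ : C.G) : al R mem γ ≠ 0 := ((Group.isUnit γ).map _).ne_zero

include a in
theorem two0 : (2 : K) ≠ 0 := by
  have := (R.ne (v_2 a).le).2 (v_2 a)
  rwa [← Int.cast_ofNat, R.int, Int.cast_ofNat] at this

include a hl deg in
theorem fr {e : ℤ} (he : e = 1 ∨ e = -1) (dp : ρ C.δ ^ l = e * ρ C.δ) (γ : C.G) :
    al R mem γ ^ l = (if e = 1 then al R mem γ else al R mem (C.cG γ)) ∧
      al R mem (C.cG γ) ^ l = (if e = 1 then al R mem (C.cG γ) else al R mem γ) := by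
  have := chr R hl
  let f := ZMod.castHom (dvd_refl l) K
  have fi : ∀ m : ℤ, (m : K) ^ l = m := fun m => (fix_iff f).2 ⟨m, map_intCast f m⟩
  obtain ⟨s, t, e1⟩ := C.span (γ : Eˣ)
  obtain ⟨h1, h3⟩ := al_co R mem a e1
  obtain ⟨i, hi⟩ := rs_deg R deg (crd mem a e1).1
  obtain ⟨j, hj⟩ := rs_deg R deg (crd mem a e1).2
  simp only [h1, h3, hi, hj, add_pow_char, sub_pow_char, mul_pow, fi, dp]
  rcases he with rfl | rfl <;> simp [sub_eq_add_neg]

theorem ex_sc {κ : ℂ} (kw : Kw C Ψ w κ) {s : F} (s1 : (up E w).valuation E (algebraMap F E s) = 1) :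
    ∃ η ∈ C.G1 {P | ¬ Ab w P}, Nel.eH C Ψ η = 1 ∧ al R mem η = ρ (algebraMap F E s) ∧
      al R mem (C.cG η) = ρ (algebraMap F E s) := by
  have s2 := ((ab_up w).eq_one s).1 s1
  obtain ⟨z, hz⟩ := apx C.D0 (· = w) (u := s) fun P k => k ▸ s2
  have z1 := of_lt s2 ((hz w mem).1 rfl)
  obtain ⟨η, hη, e2⟩ := mkG (C := C) (u := algebraMap F E z) (fun P k => (k.eq_one z).2 z1)
    fun P k d => by
      have := (Dc.ab_le (ab_un (F := F) P) _ _).2
        ((hz _ (((ab_un P).nat _).1 d)).2 fun b => k (ab_iff.2 b))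
      rwa [map_sub, map_one, map_natCast] at this
  have z2 : ρ (algebraMap F E z) = ρ (algebraMap F E s) := by
    rw [R.eq (((ab_up w).eq_one z).2 z1).le s1.le, ← map_sub, (ab_up w).lt]
    exact (hz w mem).1 rfl
  refine ⟨η, hη, (C.eps_rho Ψ e2).trans ?_, (congrArg ρ e2).trans z2,
    (congrArg ρ (by rw [C.coe_cG, e2, AlgEquiv.commutes])).trans z2⟩
  rw [kw z (fun b => by simp [b] at z1) fun v b d => (hz v d).2 b, ordv_one z1, zpow_zero]

include a hl in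
theorem ker {κ : ℂ} (hk : C.Hk Ψ) (kw : Kw C Ψ w κ) (o : Odd l) {m : ℕ}
    (pow : ∀ γ ∈ C.G1 {P | ¬ Ab w P}, C.eps Ψ ((γ : C.G) : Eˣ) ^ 2 ^ m = 1) (γ : C.G)
    (hγ : γ ∈ C.G1 {P | ¬ Ab w P}) (h : al R mem γ = al R mem (C.cG γ)) : C.eps Ψ (γ : Eˣ) = 1 := by
  obtain ⟨s, t, e1⟩ := C.span (γ : Eˣ)
  obtain ⟨h1, h3⟩ := al_co R mem a e1
  have h4 : al R mem γ = ρ (algebraMap F E s) :=
    mul_left_cancel₀ (two0 R a) (by linear_combination h1 + h3 + h)
  obtain ⟨η, hη, η1, η2, η3⟩ := ex_sc R mem kw ((R.ne (crd mem a e1).1).1 (h4 ▸ al0 R mem γ))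
  have k : ∀ x : C.G, al R mem x = 1 → (up E w).valuation E (((x : Eˣ) : E) - 1) < 1 := fun x b => by
    simpa using (R.eqi (v_g mem x).le 1).1 (b.trans Int.cast_one.symm)
  have k1 := k (γ / η) (by rw [map_div, η2, ← h4, div_self (al0 R mem γ)])
  have k2 := k (C.cG (γ / η)) (by rw [map_div, map_div, ← h, η3, ← h4, div_self (al0 R mem γ)])
  have : Nel.eH C Ψ (γ / η) = 1 := tame hk mem o hl (div_mem hγ hη) (pow _ (div_mem hγ hη))
    (ab (p := fun P => P.valuation E ((((γ / η : C.G) : Eˣ) : E) - 1) < 1) k1 (by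
      rw [C.val_pi, map_sub, map_one]
      exact k2))
  rwa [map_div, η1, div_one] at this

omit R in
theorem pw {e : ℤ} (he : e = 1 ∨ e = -1) {N : ℕ} (hM : (l : ℤ) = N + e) {y : K} (y0 : y ≠ 0) :
    y ^ N = 1 ↔ y ^ l = if e = 1 then y else y⁻¹ := by
  rcases he with rfl | rfl
  · rw [if_pos rfl, show l = N + 1 by omega, pow_succ' y, mul_eq_left₀ y0]
  · rw [if_neg (by decide), show N = l + 1 by omega, pow_succ, mul_eq_one_iff_eq_inv₀ y0]

include a hl in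
theorem sur [IsAlgClosed K] {e : ℤ} (he : e = 1 ∨ e = -1) (dp : ρ C.δ ^ l = e * ρ C.δ) {N : ℕ}
    (hM : (l : ℤ) = N + e) (N1 : 1 < N) :
    ∃ g ∈ C.G1 {P | ¬ Ab w P}, IsPrimitiveRoot (al R mem g / al R mem (C.cG g)) N := by
  have := chr R hl
  let f := ZMod.castHom (dvd_refl l) K
  have d0 : ρ C.δ ≠ 0 := (R.ne (v_d a).le).2 (v_d a)
  have h2 := two0 R a
  have : NeZero (N : K) := ⟨fun z => by
    have := congrArg (Int.cast : ℤ → K) hM
    push_cast at this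
    rw [z, CharP.cast_eq_zero] at this
    rcases he with rfl | rfl <;> simp at this⟩
  obtain ⟨y, hy⟩ := HasEnoughRootsOfUnity.exists_primitiveRoot K N
  have y0 := hy.ne_zero (by omega)
  have y1 := sub_ne_zero.2 (hy.ne_one N1)
  obtain ⟨i, hi⟩ := (fix_iff f (a := ρ C.δ * (y + 1) / (y - 1))).1 (by
    rw [div_pow, mul_pow, add_pow_char, sub_pow_char, one_pow, dp, (pw he hM y0).1 hy.pow_eq_one]
    rcases he with rfl | rfl
    · simp
    · have : 1 - y ≠ 0 := fun z => y1 (by linear_combination -z)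
      rw [if_neg (by decide)]
      field_simp
      push_cast
      ring)
  obtain ⟨i, rfl⟩ := ZMod.intCast_surjective i
  rw [map_intCast] at hi
  have u1 : ρ (i + C.δ) = 2 * ρ C.δ * y / (y - 1) := by
    rw [R.add (vz _ i) (v_d a).le, R.int, hi]
    field_simp
    ring
  have u2 : ρ (C.c (i + C.δ)) = 2 * ρ C.δ / (y - 1) := by
    rw [map_add, map_intCast, C.cδ, ← sub_eq_add_neg, R.sub (vz _ i) (v_d a).le, R.int, hi]
    field_simp
    ring
  have v1 := (R.ne (Valuation.map_add_le _ (vz _ i) (v_d a).le)).1 (u1 ▸ by positivity)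
  have v2 : (up E w).valuation E (C.c (i + C.δ)) = 1 := (R.ne (by
    rw [map_add, map_intCast, C.cδ, ← sub_eq_add_neg]
    exact Valuation.map_sub_le _ (vz _ i) (v_d a).le)).1 (u2 ▸ by positivity)
  have v3 := ab (p := fun P => P.valuation E (i + C.δ) = 1) v1 (by rwa [C.val_pi])
  obtain ⟨z, hz⟩ := apx C.D0 (Ab w) v3
  obtain ⟨g, hg, e2⟩ := mkG (C := C) (u := z)
    (fun P k => of_lt (v3 P k) ((hz P ((k.nat _).2 mem)).1 k)) fun P k d => (hz P d).2 k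
  have k1 := (hz _ (((ab_up w).nat _).2 mem)).1 (ab_up w)
  have k2 := (hz _ (((C.ab_pi (ab_up w)).nat _).2 mem)).1 (C.ab_pi (ab_up w))
  rw [C.val_pi, map_sub, ← e2] at k2
  rw [← e2] at k1
  refine ⟨g, hg, ?_⟩
  rwa [show al R mem g = _ from ((R.eq (v_g mem g).le v1.le).2 k1).trans u1,
    show al R mem (C.cG g) = _ from ((R.eq (v_g mem (C.cG g)).le v2.le).2 k2).trans u2,
    div_div_div_cancel_right₀ y1, mul_div_cancel_left₀ _ (mul_ne_zero h2 d0)]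

end loc

theorem loc {κ : ℂ} (hk : C.Hk Ψ) (kw : Kw C Ψ w κ) (mem : (C.D : 𝓞 F) ∈ w.asIdeal)
    (a : 2 * C.a ∉ w.asIdeal) {l : ℕ} [Fact l.Prime] (hl : (l : 𝓞 F) ∈ w.asIdeal)
    (deg : ∀ x : 𝓞 F, ∃ m : ℤ, x - m ∈ w.asIdeal) {k M : ℕ} {e : ℤ} (he : e = 1 ∨ e = -1)
    (hM : (l : ℤ) = 2 ^ (k + 2) * M + e) (hs : IsSquare (algebraMap (𝓞 F) (Fw w) C.a) ↔ e = 1)
    (pow : ∀ γ ∈ C.G1 {P | ¬ Ab w P}, C.eps Ψ ((γ : C.G) : Eˣ) ^ 2 ^ (k + 2) = 1)
    (ex : ∃ γ ∈ C.G1 {P | ¬ Ab w P}, C.eps Ψ ((γ : C.G) : Eˣ) ^ 2 ^ (k + 1) ≠ 1) :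
    ∃ (K : Type) (_ : Field K) (f : ZMod l →+* K) (α β : C.G → K), ∀ γ ∈ C.G1 {P | ¬ Ab w P},
      (∀ (s t : F) (m n : ℤ), ((γ : Eˣ) : E) = algebraMap F E s + algebraMap F E t * C.δ →
        w.valuation F (2 * s - m) < 1 → w.valuation F (s ^ 2 - C.a * t ^ 2 - n) < 1 →
        α γ + β γ = f m ∧ α γ * β γ = f n) ∧
      α γ ^ l = (if e = 1 then α γ else β γ) ∧ (α γ = β γ → C.eps Ψ (γ : Eˣ) = 1) ∧
      sg (C.eps Ψ (γ : Eˣ) = 1) (C.eps Ψ (γ : Eˣ) = -1) =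
        sg (α γ ^ M = β γ ^ M) (α γ ^ M = -β γ ^ M) := by
  obtain ⟨K, _, _, ρ, R⟩ := ex_res ((up E w).valuation E)
  have := chr R hl
  have dp := d_pow R a hl deg he hs
  have e4 : (l : ℤ) = 4 * (2 ^ k * M) + e := by rw [hM]; ring
  have M0 : 0 < M := Nat.pos_of_ne_zero fun z => by
    have := (Fact.out : l.Prime).two_le
    rw [z] at hM
    omega
  have hN : (l : ℤ) = (2 ^ (k + 2) * M : ℕ) + e := by exact_mod_cast hM
  have kr := ker R mem a hl hk kw ((Int.odd_coe_nat l).1 (by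
    rcases he with rfl | rfl
    exacts [⟨2 * (2 ^ k * M), by omega⟩, ⟨2 * (2 ^ k * M) - 1, by omega⟩])) pow
  have α0 := al0 R mem
  let x : C.G →* K := (al R mem).comp (MonoidHom.id _ / C.cG)
  have hx : ∀ γ, x γ = al R mem γ / al R mem (C.cG γ) := fun γ => map_div (al R mem) _ _
  obtain ⟨g, hg, y⟩ := sur R mem a hl he dp hN (by
    have : 2 ^ (k + 2) * M = 4 * (2 ^ k * M) := by ring
    have : 0 < 2 ^ k * M := by positivity
    omega)
  have co := core (C.G1 {P | ¬ Ab w P}) (Nel.eH C Ψ) x M0 (fun γ hγ h => kr γ hγ (by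
    rwa [hx, div_eq_one_iff_eq (α0 _)] at h)) hg (hx g ▸ y) (fun γ => (pw he hN (by
      rw [hx]; exact div_ne_zero (α0 _) (α0 _))).2 (by
        rw [hx, div_pow, (fr R mem a hl deg he dp γ).1, (fr R mem a hl deg he dp γ).2]
        split_ifs
        exacts [rfl, (inv_div _ _).symm])) pow ex
  refine ⟨K, inferInstance, ZMod.castHom (dvd_refl l) K, al R mem, fun γ => al R mem (C.cG γ),
    fun γ hγ => ⟨fun s t m n e1 h1 h3 => ⟨?_, ?_⟩, (fr R mem a hl deg he dp γ).1, kr γ hγ,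
      (co γ hγ).trans (sg_congr ?_ ?_)⟩⟩
  · rw [map_intCast, ← rs_int R h1, map_mul, map_ofNat]
    refine (R.add (v_g mem γ).le (v_g mem (C.cG γ)).le).symm.trans (congrArg ρ ?_)
    rw [C.coe_cG, e1, C.c_co]
    ring
  · rw [map_intCast, ← rs_int R h3, ← C.nm_co, ← e1]
    exact (R.mul (v_g mem γ).le (v_g mem (C.cG γ)).le).symm
  · rw [hx, div_pow, div_eq_one_iff_eq (pow_ne_zero M (α0 _))]
  · rw [hx, div_pow, div_eq_iff (pow_ne_zero M (α0 _)), neg_one_mul]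

end Can

open Can

variable {F E : Type} [Field F] [NumberField F] [Field E] [NumberField E] [Algebra F E]
  {C : CM F E} {Ψ : Pl E → ℂˣ} {w : Pl F}

/-- **the canonical type contains the type of `Ψ`** -/
theorem mc_cc {κ : ℂ} (io : Qb →+* ℂ) (hk : C.Hk Ψ) (kw : Kw C Ψ w κ)
    (mem : (C.D : 𝓞 F) ∈ w.asIdeal) (a : 2 * C.a ∉ w.asIdeal) {l : ℕ} (lp : l.Prime)
    (hl : (l : 𝓞 F) ∈ w.asIdeal) (deg : ∀ x : 𝓞 F, ∃ m : ℤ, x - m ∈ w.asIdeal) {k : ℕ} (k2 : 2 ≤ k)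
    (pow : ∀ γ ∈ C.G1 {P | ¬ Ab w P}, C.eps Ψ ((γ : C.G) : Eˣ) ^ 2 ^ k = 1)
    (ex : ∃ γ ∈ C.G1 {P | ¬ Ab w P}, C.eps Ψ ((γ : C.G) : Eˣ) ^ 2 ^ (k - 1) ≠ 1)
    (alt : (IsSquare (algebraMap (𝓞 F) (Fw w) C.a) ∧ 2 ^ k ∣ l - 1) ∨
      (¬ IsSquare (algebraMap (𝓞 F) (Fw w) C.a) ∧ 2 ^ k ∣ l + 1)) : Mc C Ψ io w l (cc l k) := by
  have := Fact.mk lp
  obtain ⟨k, rfl⟩ := Nat.exists_eq_add_of_le' k2
  obtain ⟨e, M, he, hM, hs⟩ : ∃ (e : ℤ) (M : ℕ), (e = 1 ∨ e = -1) ∧ (l : ℤ) = 2 ^ (k + 2) * M + e ∧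
      (IsSquare (algebraMap (𝓞 F) (Fw w) C.a) ↔ e = 1) := by
    rcases alt with ⟨s, M, h⟩ | ⟨s, M, h⟩
    · exact ⟨1, M, Or.inl rfl, by have := lp.pos; exact_mod_cast by omega, iff_of_true s rfl⟩
    · exact ⟨-1, M, Or.inr rfl, by zify at h; linear_combination h, iff_of_false s (by decide)⟩
  have S := ex_cc l k e M he hM
  obtain ⟨K, _, f, α, β, h⟩ := loc hk kw mem a hl deg he hM hs pow ex
  refine ⟨mem, a, fun g x => ?_, fun z hz g => ?_, e * (2 ^ (k + 1) : ℕ), (e, Jn (2 ^ (k + 1))),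
    ⟨?_, one_Jn (by positivity)⟩, S.uni, ?_, fun γ hγ s t m n e1 h1 h2 => ?_⟩
  · simpa using S.prin.isCh.conj g x⁻¹
  · rw [← Subgroup.mem_center_iff.1 hz, S.prin.cen g z hz]
  · rcases he with rfl | rfl <;> simp
  · have : (l : ℂ) ≠ 0 := Nat.cast_ne_zero.2 lp.ne_zero
    simp only [S.one, card_Jn, hs, map_mul, map_add, map_natCast, map_intCast]
    rcases he with rfl | rfl
    · rw [if_pos rfl]
      field_simp
      ring
    · rw [if_neg (by decide)]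
      field_simp
      ring
  · obtain ⟨h3, h4, h5, h6⟩ := h γ hγ
    obtain ⟨h7, h8⟩ := h3 s t m n e1 h1 h2
    have d : (m : ZMod l) ^ 2 = 4 * n ↔ α γ = β γ := by
      rw [← f.injective.eq_iff, map_pow, map_mul, map_ofNat, ← h7, ← h8, ← sub_eq_zero,
        ← sub_eq_zero (a := α γ), ← pow_eq_zero_iff two_ne_zero (a := α γ - β γ)]
      exact Eq.congr_left (by ring)
    refine ⟨fun b => h5 (d.1 b), fun g g1 g2 b => ?_⟩
    rw [S.reg K f g _ _ (g1 ▸ h7) (g2 ▸ h8) (mt d.2 b) h4, ← h6,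
      sum_two (by rw [← pow_succ']; exact pow γ hγ) (Ty.eps_nm mem kw hγ)]
    simp only [map_mul, map_natCast, map_intCast, map_ofNat]
    ring

end Vale.Agent.P022K.PB
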