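import Vale.Agent.P022K.PB.Pw
import Vale.Agent.P022K.Top.PmSt
import Vale.Agent.P022K.CH.Weil
import Vale.Agent.P022K.F0.StS3
import Vale.Agent.P022.H565.Fre
import Vale.Agent.P022E.GW.Kc

/-!
# P022K / PB: the CM field `X.F(√-Δ)` and its Frobenius elements
-/

set_option autoImplicit false
set_option linter.all false

open NumberField IsDedekindDomain
open scoped Pointwise

noncomputable section

namespace Vale.Agent.P022K.PB

open Vale.Agent.P022 Vale.Agent.P022.C CH CH.Weil Sh Sh.Tor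
open Vale.Agent.P022.H443 (inP)
open Vale.Agent.P022D.W (dec)
open Vale.Agent.P022E.GW (Ov Fb)
open Vale.Agent.P022K.Top.Pm (Qd)

/-- the CM field `E = X.F(√-Δ)` inside `ℚ̄`; the CM type sends `δ` to `io d0` -/
structure Ce (X : Fd) (Δ : ℕ) (io : Qb →+* ℂ) (d0 : Qb) {E : Type} [Field E] [NumberField E]
    [Algebra X.F E] (C : CM X.F E) (jE : E →+* Qb) : Prop where
  a : C.a = -(Δ : 𝓞 X.F)
  emb : io.comp X.j = C.t1
  cmp : ∀ x, jE (algebraMap X.F E x) = X.j x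
  sec : ∀ τ, C.sec τ C.δ = io d0

theorem conj_sqrt {z : ℂ} {Δ : ℕ} (h0 : 0 < Δ) (h : z ^ 2 = -(Δ : ℂ)) :
    starRingEnd ℂ z = -z := by
  have h1 : (starRingEnd ℂ z - z) * (starRingEnd ℂ z + z) = 0 := by
    have := congrArg (starRingEnd ℂ) h
    rw [map_pow, map_neg, map_natCast] at this
    linear_combination this - h
  rcases mul_eq_zero.1 h1 with k | k
  · exfalso
    have hr := Complex.conj_eq_iff_re.1 (sub_eq_zero.1 k)
    rw [← hr] at h
    have h2 : z.re ^ 2 = -(Δ : ℝ) := by exact_mod_cast h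
    have : (0 : ℝ) < Δ := by exact_mod_cast h0
    nlinarith [sq_nonneg z.re]
  · exact eq_neg_of_add_eq_zero_left k

/-- existence of the CM field -/
theorem ex_ce (X : Fd) (real : ∀ c, IsConj c → c ∈ X.H) (ev : Even X.H.index) {Δ D : ℕ}
    (h0 : 0 < Δ) (D3 : 3 ≤ D) (D2 : 2 ∣ D) (hD : Δ ∣ D) (io : Qb →+* ℂ) {d0 d1 : Qb}
    (e0 : d0 ^ 2 = -(Δ : Qb)) (e1 : d1 ^ 2 = -(Δ : Qb)) :
    ∃ (E : Type) (_ : Field E) (_ : NumberField E) (_ : Algebra X.F E) (C : CM X.F E)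
      (jE : E →+* Qb), Ce X Δ io d0 C jE ∧ C.D = D ∧ jE C.δ = d1 := by
  have re : ∀ (τ : X.F →+* ℂ) x, starRingEnd ℂ (τ x) = τ x := fun τ x =>
    Complex.conj_eq_iff_im.2 (real_of_conj real τ x)
  have : Fact (∀ r : X.F, r ^ 2 ≠ -(Δ : X.F) + 0 * r) := ⟨fun r h => by
    rw [zero_mul, add_zero] at h
    have h1 := congrArg (io.comp X.j) h
    rw [map_pow, map_neg, map_natCast] at h1
    have h2 := conj_sqrt h0 h1
    rw [re] at h2
    have h3 : (io.comp X.j) r = 0 := by linear_combination h2 / 2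
    rw [h3] at h1
    have : (Δ : ℂ) = 0 := by linear_combination h1
    exact h0.ne' (by exact_mod_cast this)⟩
  let E := QuadraticAlgebra X.F (-(Δ : X.F)) 0
  have nf : NumberField E := NumberField.of_module_finite X.F E
  let lf : ∀ {A : Type} [Field A] (τ : X.F →+* A) (u : A), u ^ 2 = -(Δ : A) → (E →+* A) :=
    fun {A} _ τ u h =>
      letI := τ.toAlgebra
      (QuadraticAlgebra.lift (R := X.F) (a := -(Δ : X.F)) (b := 0) ⟨u, by
        rw [zero_smul, add_zero, ← sq, h, neg_smul, Nat.cast_smul_eq_nsmul, nsmul_one]⟩).toRingHom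
  have l1 : ∀ {A : Type} [Field A] (τ : X.F →+* A) (u : A) (h) (x : X.F),
      lf τ u h (algebraMap X.F E x) = τ x := fun {A} _ τ u h x =>
    letI := τ.toAlgebra
    AlgHom.commutes _ x
  have l2 : ∀ {A : Type} [Field A] (τ : X.F →+* A) (u : A) (h),
      lf τ u h QuadraticAlgebra.omega = u := fun {A} _ τ u h => by
    letI := τ.toAlgebra
    simp [lf, QuadraticAlgebra.lift]
  have sp : ∀ x : E, x = algebraMap X.F E x.re + algebraMap X.F E x.im * QuadraticAlgebra.omega :=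
    fun x => by ext <;> simp [E]
  have sq : (QuadraticAlgebra.omega : E) ^ 2 = algebraMap X.F E (-(Δ : X.F)) := by
    ext <;> simp [E, pow_two]
  let c : E ≃ₐ[X.F] E := AlgEquiv.ofRingEquiv (f := starRingAut) fun x => by ext <;> simp [E]
  have cδ : c QuadraticAlgebra.omega = -QuadraticAlgebra.omega := by
    ext <;> simp [c, E]
  have i0 : io d0 ^ 2 = -(Δ : ℂ) := by rw [← map_pow, e0, map_neg, map_natCast]
  refine ⟨E, inferInstance, nf, inferInstance, ⟨QuadraticAlgebra.omega, -(Δ : 𝓞 X.F), c, D,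
    fun τ => lf τ (io d0) i0, io.comp X.j, fun h => ?_, sq.trans (by simp), cδ,
    fun x => ⟨_, _, sp x⟩, fun φ x => ?_, fun τ x => l1 τ _ i0 x, ?_, D3, D2, fun v h k => h ?_⟩,
    lf X.j d1 e1, ⟨rfl, rfl, l1 _ _ e1, fun τ => l2 _ _ i0⟩, rfl, l2 _ _ e1⟩
  · have := congrArg QuadraticAlgebra.im h
    simp at this
  · have h1 : φ QuadraticAlgebra.omega ^ 2 = -(Δ : ℂ) := by
      rw [← map_pow, sq, map_neg, map_natCast, map_neg, map_natCast]
    rw [sp x]
    simp only [map_add, map_mul, AlgEquiv.commutes, cδ, map_neg, conj_sqrt h0 h1]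
    rw [show ∀ y, φ (algebraMap X.F E y) = (φ.comp (algebraMap X.F E)) y from fun _ => rfl,
      show ∀ y, φ (algebraMap X.F E y) = (φ.comp (algebraMap X.F E)) y from fun _ => rfl, re, re]
  · by_contra k
    push Not at k
    have h1 : Fintype.card (X.F →+* ℂ) = 1 := Fintype.card_eq_one_iff.2 ⟨_, k⟩
    rw [Embeddings.card, ← index_GK X.j] at h1
    rw [show X.H.index = 1 from h1] at ev
    exact Nat.not_even_one ev
  · obtain ⟨c, rfl⟩ := hD
    rw [Nat.cast_mul]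
    exact v.asIdeal.mul_mem_right _ ((neg_mem_iff).1 k)

section

variable {X : Fd} {Δ : ℕ} {io : Qb →+* ℂ} {d0 : Qb} {E : Type} [Field E] [NumberField E]
  [Algebra X.F E] {C : CM X.F E} {jE : E →+* Qb}

theorem sq_or {x y : Qb} (h : x ^ 2 = y ^ 2) : x = y ∨ x = -y := sq_eq_sq_iff_eq_or_eq_neg.1 h

theorem mem_Qd {d g} (h : d ^ 2 = -(Δ : Qb)) : g ∈ Qd Δ ↔ g d = d :=
  ⟨fun k => k d h, fun k x hx => by
    rcases sq_or (hx.trans h.symm) with rfl | rfl
    · exact k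
    · rw [map_neg, k]⟩

theorem not_Qd {d g} (h : d ^ 2 = -(Δ : Qb)) (k : g ∉ Qd Δ) : g d = -d :=
  (sq_or (by rw [← map_pow, h, map_neg, map_natCast])).resolve_left (mt (mem_Qd h).2 k)

theorem ex_sqrt (Δ : ℕ) : ∃ d : Qb, d ^ 2 = -(Δ : Qb) := IsAlgClosed.exists_pow_nat_eq _ two_pos

theorem mul_Qd {g h : GQ} (hg : g ∉ Qd Δ) (hh : h ∉ Qd Δ) : g * h ∈ Qd Δ := by
  obtain ⟨d, e⟩ := ex_sqrt Δ
  rw [mem_Qd e, AlgEquiv.mul_apply, not_Qd e hh, map_neg, not_Qd e hg, neg_neg]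

instance normal_Qd : (Qd Δ).Normal := ⟨fun n hn g => by
  by_cases k : g ∈ Qd Δ
  · exact mul_mem (mul_mem k hn) (inv_mem k)
  · exact mul_Qd (fun a => k ((mul_mem_cancel_right hn).1 a)) fun a => k (inv_mem_iff.1 a)⟩

namespace Ce

variable (h : Ce X Δ io d0 C jE)
include h

theorem sq : jE C.δ ^ 2 = -(Δ : Qb) := by
  rw [← map_pow, C.sq, h.cmp, h.a]
  simp

theorem mem {g : GQ} : g ∈ GK jE ↔ g ∈ X.H ∧ g ∈ Qd Δ := by
  rw [mem_Qd h.sq]
  refine ⟨fun k => ⟨fun x => h.cmp x ▸ k _, k _⟩, fun k x => ?_⟩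
  obtain ⟨s, t, rfl⟩ := C.span x
  rw [map_add, map_mul, h.cmp, h.cmp, map_add, map_mul, k.1 s, k.1 t, k.2]

/-- the elements outside `G_E` induce the conjugation -/
theorem act {g : GQ} (hg : g ∈ X.H) (k : g ∉ Qd Δ) (x : E) : g (jE x) = jE (C.c x) := by
  obtain ⟨s, t, rfl⟩ := C.span x
  rw [C.c_co, map_add, map_mul, map_sub, map_mul, h.cmp, h.cmp, map_add, map_mul, hg s, hg t,
    not_Qd h.sq k]
  ring

theorem emp : IsEmpty (E →+* ℝ) := ⟨fun φ => by
  have := C.cj (Complex.ofRealHom.comp φ) C.δ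
  rw [C.cδ, map_neg] at this
  have e : starRingEnd ℂ ((Complex.ofRealHom.comp φ) C.δ) = (Complex.ofRealHom.comp φ) C.δ :=
    Complex.conj_ofReal _
  rw [e] at this
  exact C.δ0 ((map_eq_zero (Complex.ofRealHom.comp φ)).1 (by linear_combination -this / 2))⟩

theorem ab_iff {v : Pl E} {w : X.Pl} {P : Id} (e : below jE P = v.asIdeal) :
    Ab w v ↔ below X.j P = w.asIdeal := by
  have : v.asIdeal.comap (algebraMap (𝓞 X.F) (𝓞 E)) = below X.j P := by
    rw [← e]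
    ext x
    simp only [below, Ideal.mem_comap]
    exact Iff.of_eq (congrArg (· ∈ P) (RingOfIntegers.ext (h.cmp x)))
  rw [Tor.Ab, this]

theorem below_pi {v : Pl E} {P : Id} (e : below jE P = v.asIdeal) {g : GQ} (hg : g ∈ X.H)
    (k : g ∉ Qd Δ) : below jE (g • P) = (C.pi v).asIdeal := by
  ext x
  rw [mem_iff, C.val_pi]
  have e1 : C.c (x : E) = ((RingOfIntegers.mapRingHom (C.c : E →+* E) x : 𝓞 E) : E) := rfl
  rw [e1, ← mem_iff, ← e]
  simp only [below, Ideal.mem_comap, Ideal.mem_pointwise_smul_iff_inv_smul_mem]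
  exact Iff.of_eq (congrArg (· ∈ P) (RingOfIntegers.ext
    (h.act (inv_mem hg) (fun a => k (inv_mem_iff.1 a)) x)))

variable {v : Pl E} {w : X.Pl} {P : Id} {l : ℕ} {φ : X.H}

/-- split places -/
theorem fr_in (hP : Ov l P) (e : below jE P = v.asIdeal) (hφ : FrI X.j w P φ)
    (k : φ.1 ∈ Qd Δ) : FrI jE v P ⟨φ, h.mem.2 ⟨φ.2, k⟩⟩ := by
  obtain ⟨n, -, -, f⟩ := frb_of_fri hP hφ
  exact Frb.fri hP e ⟨h.mem.2 ⟨φ.2, k⟩, f.2.1, fun x hx => f.2.2 x (h.mem.1 hx).1⟩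

omit h in
theorem int_δ' : ∃ z : 𝓞 E, (z : E) = C.δ := ⟨⟨C.δ, IsIntegral.of_pow two_pos (by
  rw [C.sq]; exact C.a.2.map (IsScalarTower.toAlgHom ℤ X.F E))⟩, rfl⟩

theorem int_δ : ∃ z : 𝓞 E, (z : E) = C.δ := int_δ'

theorem in_Qd (hP : Ov l P) (e : below X.j P = w.asIdeal) (hw : (C.D : 𝓞 X.F) ∉ w.asIdeal)
    {s : GQ} (hs : s ∈ inP P) : s ∈ Qd Δ := by
  obtain ⟨v, hv⟩ := exists_below jE hP
  have hD : (C.D : 𝓞 E) ∉ v.asIdeal := fun a => hw ((((h.ab_iff hv).2 e).nat _).1 a)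
  by_contra k
  have i : IsIntegral ℤ C.δ := IsIntegral.of_pow two_pos (by
    rw [C.sq]; exact C.a.2.map (IsScalarTower.toAlgHom ℤ X.F E))
  have h1 := hs (RingOfIntegers.mapRingHom jE ⟨C.δ, i⟩)
  have h2 : (⟨C.δ, i⟩ * (-2) : 𝓞 E) ∈ below jE P := by
    refine Ideal.mem_comap.2 ?_
    convert h1 using 1
    refine RingOfIntegers.ext ?_
    have := not_Qd h.sq k
    change jE (C.δ * (-2)) = s (jE C.δ) - jE C.δ
    rw [this, map_mul, map_neg, map_ofNat]
    ring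
  rw [hv, mem_iff] at h2
  change v.valuation E (C.δ * (-2)) < 1 at h2
  rw [map_mul, Valuation.map_neg, CM.val_two hD, CM.val_δ hD, one_mul] at h2
  exact lt_irrefl _ h2

/-- inert places -/
theorem fr_out (hP : Ov l P) (e : below jE P = v.asIdeal) (hφ : FrI X.j w P φ)
    (hw : (C.D : 𝓞 X.F) ∉ w.asIdeal) (k : φ.1 ∉ Qd Δ) :
    FrI jE v P ⟨φ * φ, h.mem.2 ⟨mul_mem φ.2 φ.2, mul_Qd k k⟩⟩ := by
  obtain ⟨n, -, -, f⟩ := frb_of_fri hP hφ
  refine Frb.fri (n := n + n) hP e ⟨h.mem.2 ⟨mul_mem φ.2 φ.2, mul_Qd k k⟩, fb_add hP f.2.1 f.2.1, fun x hx a ha => ?_⟩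
  obtain ⟨m, rfl⟩ := f.2.2 x (h.mem.1 hx).1 a ha
  have h1 := h.in_Qd hP hφ.2.1 hw (fb_div hP (fb_pow hP f.2.1 m) ha)
  rw [mul_mem_cancel_right (h.mem.1 hx).2, inv_mem_iff] at h1
  obtain ⟨r, rfl | rfl⟩ := Nat.even_or_odd' m
  · exact ⟨r, by ring⟩
  · rw [pow_succ, pow_mul, mul_mem_cancel_left (pow_mem (pow_two φ.1 ▸ mul_Qd k k) r)] at h1
    exact absurd h1 k

theorem pi_out (hP : Ov l P) (e : below jE P = v.asIdeal) (hφ : FrI X.j w P φ)
    (k : φ.1 ∉ Qd Δ) : C.pi v = v := by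
  obtain ⟨n, -, -, f⟩ := frb_of_fri hP hφ
  refine HeightOneSpectrum.ext ((h.below_pi e φ.2 k).symm.trans (Eq.trans (congrArg _ ?_) e))
  ext x
  rw [Ideal.mem_pointwise_smul_iff_inv_smul_mem]
  exact inv_mem (fb_dec hP f.2.1) x

theorem gd_iff (hP : Ov l P) (hφ : FrI X.j w P φ) (hw : (C.D : 𝓞 X.F) ∉ w.asIdeal) :
    C.Gd w ↔ φ.1 ∈ Qd Δ := by
  obtain ⟨v, e⟩ := exists_below jE hP
  have ab := (h.ab_iff e).2 hφ.2.1
  refine ⟨fun g => by_contra fun k => g.ne ab (h.pi_out hP e hφ k), fun k => ⟨hw, ?_⟩⟩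
  obtain ⟨n, -, a, f⟩ := frb_of_fri hP hφ
  have N : Ideal.absNorm v.asIdeal = Ideal.absNorm w.asIdeal := (Frb.norm hP e
    ⟨h.mem.2 ⟨φ.2, k⟩, f.2.1, fun x hx => f.2.2 x (h.mem.1 hx).1⟩).trans a.symm
  have := Ideal.finiteQuotientOfFreeOfNeBot _ v.ne_bot
  have s := ((Ideal.quotientMap_injective' (I := v.asIdeal) (J := w.asIdeal)
    (f := algebraMap (𝓞 X.F) (𝓞 E)) (H := ab.ge) ab.le).bijective_of_nat_card_le N.le).2
  obtain ⟨z, hz⟩ := h.int_δ
  obtain ⟨x, hx⟩ := s (Ideal.Quotient.mk _ z)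
  obtain ⟨x, rfl⟩ := Ideal.Quotient.mk_surjective x
  rw [Ideal.quotientMap_mk, Ideal.Quotient.eq] at hx
  refine ⟨x, (ab.mem _).1 ?_⟩
  convert v.asIdeal.mul_mem_right (algebraMap _ _ x + z) hx using 1
  refine RingOfIntegers.ext ?_
  have := C.sq
  change algebraMap X.F E (x ^ 2 - C.a) = (algebraMap X.F E x - z) * (algebraMap X.F E x + z)
  rw [map_sub, map_pow, hz]
  linear_combination this

omit h in
theorem fr_conj (hφ : FrI X.j w P φ) (c : X.H) : FrI X.j w (c.1 • P) (c * φ * c⁻¹) := by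
  refine ⟨by have := hφ.1; infer_instance, Eq.trans (Ideal.ext fun x => ?_) hφ.2.1, fun y => ?_⟩
  · simp only [below, Ideal.mem_comap, Ideal.mem_pointwise_smul_iff_inv_smul_mem]
    exact Iff.of_eq (congrArg (· ∈ P) (RingOfIntegers.ext (inv_mem c.2 (x : X.F))))
  · have := Ideal.smul_mem_pointwise_smul c.1 _ _ (hφ.2.2 (c.1⁻¹ • y))
    rwa [smul_sub, smul_pow', smul_inv_smul, ← mul_smul, ← mul_smul] at this

omit h in
theorem ov_smul (hP : Ov l P) (c : GQ) : Ov l (c • P) :=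
  ⟨hP.1, by have := hP.2.1; infer_instance, by
    rw [Ideal.mem_pointwise_smul_iff_inv_smul_mem]
    convert hP.2.2 using 1
    exact RingOfIntegers.ext (map_natCast c⁻¹ l)⟩

/-- the places above a split place -/
theorem ab_in (g : C.Gd w) (ab : Tor.Ab w v) : {u | Tor.Ab w u} = {v, C.pi v} ∧ v ≠ C.pi v :=
  ⟨Set.ext fun u => ⟨fun a => C.ab_or ab a, fun a => a.elim (fun a => a ▸ ab)
    fun a => a ▸ C.ab_pi ab⟩, (g.ne ab).symm⟩

/-- the place above an inert place -/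
theorem ab_out (g : C.pi v = v) (ab : Tor.Ab w v) : {u | Tor.Ab w u} = {v} :=
  Set.ext fun u => ⟨fun a => (C.ab_or ab a).elim id fun a => a.trans g, fun a => a ▸ ab⟩

omit h in
/-- the discriminant has even order at the places which are not ramified -/
theorem ev_of {K : Type} [Field K] [NumberField K] {j : K →+* Qb} {u : Pl K} (h0 : 0 < Δ)
    (hP : P.IsPrime) (e : below j P = u.asIdeal) (k : ∀ s ∈ GK j, s ∈ inP P → s ∈ Qd Δ) :
    Even (ordv u (Δ : K)) := by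
  obtain ⟨d, hd⟩ := ex_sqrt Δ
  have := P022E.GW.Kc.even_of j (y := -(Δ : K)) (neg_ne_zero.2 (by exact_mod_cast h0.ne')) u hP e
    fun g a b => (P022E.GW.Kc.kq_zero (w := d) (by rw [hd, map_neg, map_natCast]) g).2
      (k g a b d hd)
  rwa [ordv, Valuation.map_neg] at this

omit h in
theorem not_dvd (sf : Squarefree Δ) (hP : Ov l P) (k : inP P ≤ Qd Δ) : ¬ l ∣ Δ := by
  rintro ⟨m, rfl⟩
  obtain ⟨u, hu⟩ := exists_below (algebraMap ℚ Qb) hP
  have hl := (P022E.GW.Kc.nat_mem _ hu l).2 hP.2.2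
  have l0 : (l : 𝓞 ℚ) ≠ 0 := by exact_mod_cast hP.1.ne_zero
  have pr : Prime (l : 𝓞 ℚ) := by
    rw [← MulEquiv.prime_iff Rat.ringOfIntegersEquiv, map_natCast]
    exact Nat.prime_iff_prime_int.1 hP.1
  have e : u.asIdeal = Ideal.span {(l : 𝓞 ℚ)} := by
    have m : (Ideal.span {(l : 𝓞 ℚ)}).IsMaximal :=
      ((Ideal.span_singleton_prime l0).2 pr).isMaximal (by simpa using l0)
    exact (m.eq_of_le u.isPrime.ne_top ((Ideal.span_singleton_le_iff_mem _).2 hl)).symm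
  have o : ordv u (l : ℚ) = 1 := by
    have e2 : (l : ℚ) = algebraMap (𝓞 ℚ) ℚ l := (map_natCast _ l).symm
    rw [ordv, e2, HeightOneSpectrum.valuation_of_algebraMap, u.intValuation_singleton l0 e]
    simp
  have m0 : m ≠ 0 := fun a => sf.ne_zero (by rw [a, mul_zero])
  have o' : ordv u (m : ℚ) = 0 := ordv_one (val_nat fun a => by
    have := H20.dvd_of_mem hP.1 hP.2.1 hP.2.2 (d := (m : ℤ))
      (by exact_mod_cast (P022E.GW.Kc.nat_mem _ hu m).1 a)
    exact hP.1.one_lt.ne' (Nat.isUnit_iff.1 (sf l (mul_dvd_mul_left l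
      (Int.natCast_dvd_natCast.1 this)))))
  have := ev_of (Nat.pos_of_ne_zero sf.ne_zero) hP.2.1 hu fun s _ a => k a
  rw [Nat.cast_mul, P027M.S.Cls.ordv_mul u (by exact_mod_cast hP.1.ne_zero)
    (by exact_mod_cast m0), o, o'] at this
  exact absurd this (by decide)

omit h in
/-- places of degree one -/
theorem deg {K : Type} [Field K] [NumberField K] {j : K →+* Qb} {u : Pl K} (hP : Ov l P)
    (e : below j P = u.asIdeal) (k : dec P ≤ GK j) (x : 𝓞 K) : ∃ m : ℤ, x - m ∈ u.asIdeal := by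
  have := Fact.mk hP.1
  have := u.isMaximal
  let _ : Field (𝓞 K ⧸ u.asIdeal) := Ideal.Quotient.field _
  have hl := (P022E.GW.Kc.nat_mem _ e l).2 hP.2.2
  have : CharP (𝓞 K ⧸ u.asIdeal) l := (CharP.charP_iff_prime_eq_zero hP.1).2
    (by rw [← map_natCast (Ideal.Quotient.mk _), Ideal.Quotient.eq_zero_iff_mem]; exact hl)
  obtain ⟨φ, hφ⟩ : ∃ φ, Fb l P φ := P022D.W.exists_phi hP.1 hP.2.1 hP.2.2
  have h1 := hφ (RingOfIntegers.mapRingHom j x)
  rw [show φ • RingOfIntegers.mapRingHom j x = RingOfIntegers.mapRingHom j x from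
    RingOfIntegers.ext (k (fb_dec hP (n := 1) (by rwa [pow_one])) (x : K)), ← map_pow, ← map_sub,
    ← Ideal.mem_comap] at h1
  have h2 := Ideal.Quotient.eq.2 (show x - x ^ l ∈ u.asIdeal from e ▸ h1)
  rw [map_pow] at h2
  obtain ⟨m, hm⟩ := (mem_bot_iff_intCast l _).1
    ((Subfield.mem_bot_iff_pow_eq_self _ l).2 h2.symm)
  exact ⟨m, Ideal.Quotient.eq.1 (by rw [map_intCast, hm])⟩

/-- the local square class of the discriminant -/
theorem sq_iff (hP : Ov l P) (e : below X.j P = w.asIdeal) (k : dec P ≤ X.H)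
    (ha : 2 * C.a ∉ w.asIdeal) :
    IsSquare (algebraMap (𝓞 X.F) (Fw w) C.a) ↔ dec P ≤ Qd Δ := by
  obtain ⟨v, hv⟩ := exists_below jE hP
  have ab := (h.ab_iff hv).2 e
  obtain ⟨z, hz⟩ := h.int_δ
  have z2 : z ^ 2 = algebraMap (𝓞 X.F) (𝓞 E) C.a := RingOfIntegers.ext (by
    change (z : E) ^ 2 = algebraMap X.F E C.a
    rw [hz, C.sq])
  have a1 : w.valuation X.F C.a = 1 := val_one fun a => ha (Ideal.mul_mem_left _ _ a)
  constructor
  · rintro ⟨y, hy⟩ g hg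
    have y1 : Valued.v y ≤ 1 := by
      rw [← pow_le_one_iff_of_nonneg zero_le two_ne_zero, ← map_pow, pow_two, ← hy]
      exact (val_comp w C.a).trans_le a1.le
    obtain ⟨t, ht⟩ := dense_val w y one_ne_zero
    have t1 : w.valuation X.F t ≤ 1 := by
      rw [← val_comp, ← sub_add_cancel (algebraMap _ _ t) y]
      exact Valuation.map_add_le _ ht.le y1
    obtain ⟨x, hx⟩ := w.exists_valuation_sub_lt_of_integer t1 1
    have h1 : Valued.v (algebraMap X.F (Fw w) x - y) < 1 := by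
      rw [← sub_add_sub_cancel _ (algebraMap X.F (Fw w) t), ← map_sub]
      exact Valuation.map_add_lt _ (val_comp w _ ▸ hx) ht
    have h2 : x ^ 2 - C.a ∈ w.asIdeal := by
      rw [mem_iff, ← val_comp]
      have : algebraMap X.F (Fw w) ((x ^ 2 - C.a : 𝓞 X.F) : X.F) =
          (algebraMap X.F (Fw w) x - y) * (algebraMap X.F (Fw w) x + y) := by
        have hy' : algebraMap X.F (Fw w) C.a = y * y := hy
        rw [show ((x ^ 2 - C.a : 𝓞 X.F) : X.F) = (x : X.F) ^ 2 - C.a from rfl, map_sub, map_pow, hy']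
        ring
      rw [this, map_mul]
      exact mul_lt_one_of_lt_of_le h1 (Valuation.map_add_le _ (val_comp w _ ▸ val_le w x) y1)
    by_contra n
    have h3 := (ab.mem _).2 h2
    rw [map_sub, map_pow, ← z2, sq_sub_sq] at h3
    have key : ∀ z' : 𝓞 E, (z' = z ∨ z' = -z) → algebraMap _ _ x - z' ∈ v.asIdeal →
        algebraMap _ _ x + z' ∈ v.asIdeal := fun z' hz' a => by
      rw [← hv] at a ⊢
      have := (hg _).2 (Ideal.mem_comap.1 a)
      refine Ideal.mem_comap.2 ?_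
      convert this using 1
      refine RingOfIntegers.ext ?_
      change jE (algebraMap X.F E x + z') = g (jE (algebraMap X.F E x - z'))
      rw [h.act (k hg) n, map_sub, AlgEquiv.commutes]
      rcases hz' with rfl | rfl
      · rw [hz, C.cδ, sub_neg_eq_add]
      · rw [show ((-z : 𝓞 E) : E) = -C.δ from congrArg _ hz, map_neg, C.cδ, neg_neg,
          sub_eq_add_neg]
    have h4 : algebraMap _ _ x + z ∈ v.asIdeal ∧ algebraMap _ _ x - z ∈ v.asIdeal := by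
      rcases v.isPrime.mem_or_mem h3 with a | a
      · exact ⟨a, by simpa only [sub_eq_add_neg] using key (-z) (.inr rfl) (by rwa [sub_neg_eq_add])⟩
      · exact ⟨key z (.inl rfl) a, a⟩
    refine ha ((ab.mem _).1 ?_)
    convert v.asIdeal.mul_mem_right z (sub_mem h4.1 h4.2) using 1
    rw [map_mul, ← z2, map_ofNat]
    ring
  · intro n
    obtain ⟨m, hm⟩ := deg hP hv (fun g a => h.mem.2 ⟨k a, n a⟩) z
    have h1 : C.a - (m : 𝓞 X.F) ^ 2 ∈ w.asIdeal := (ab.mem _).1 (by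
      rw [map_sub, map_pow, ← z2, map_intCast, sq_sub_sq]
      exact Ideal.mul_mem_left _ _ hm)
    have h2 := (mem_iff w _).1 h1
    push_cast at h2
    have m1 : w.valuation X.F ((m : X.F) ^ 2) = 1 := by
      rw [show (m : X.F) ^ 2 = C.a - (C.a - (m : X.F) ^ 2) by ring]
      exact (Valuation.map_sub_eq_of_lt_left _ (a1 ▸ h2)).trans a1
    have m0 : (m : X.F) ^ 2 ≠ 0 := fun a => by simp [a] at m1
    obtain ⟨y, hy⟩ := H967.POW X.F w 2 two_pos (C.a / (m : X.F) ^ 2) (by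
      rw [div_sub_one m0, map_div₀, m1, div_one, map_pow,
        val_nat fun a => ha (Ideal.mul_mem_right _ _ a), one_pow]
      exact h2)
    refine ⟨y * m, ?_⟩
    change algebraMap X.F (Fw w) C.a = _
    rw [← div_mul_cancel₀ (C.a : X.F) m0, map_mul, ← hy, map_pow, map_intCast]
    ring

end Ce

end

end Vale.Agent.P022K.PB
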