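import Vale.Agent.P022K.PB.HchA

/-!
# P022K, block PB, row HCH: the Hecke character that lifts a residual character
-/

set_option linter.all false

open NumberField IsDedekindDomain Finset WithZero

noncomputable section

namespace Vale.Agent.P022K.PB

open Vale.Agent.P022 Vale.Agent.P022.C CH Sh Sh.Tor Sh.Tor.CM
open Vale.Agent.P027M.S (Pr)
open Vale.Agent.P027M.S.Cls (val_eq ordv_of ordv_mul gen_pow)

variable {q : ℕ} [hq : Fact q.Prime] {F E : Type} [Field F] [NumberField F] [Field E]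
  [NumberField E] [Algebra F E] {C : CM F E} {Δ : ℕ} {io : Qb →+* ℂ} {ι : Qb →+* Cp q} {d : Qb}
  {r : ℤ} {j : E →+* Qb} {θ : GK j →* (Kp q)ˣ} {fr : Pl E → GK j}

namespace Hch

theorem nD {n : ℕ} (h : ¬ q ∣ n) {P : Pr E} (k : (q : 𝓞 E) ∈ P.asIdeal) : (n : 𝓞 E) ∉ P.asIdeal :=
  have := P.isPrime
  Ideal.IsPrime.notMem_of_isCoprime_of_mem (hq.out.coprime_iff_not_dvd.2 h).cast k

theorem mem_mul {P : Pr E} {a b : ℕ} :
    ((a * b : ℕ) : 𝓞 E) ∈ P.asIdeal ↔ (a : 𝓞 E) ∈ P.asIdeal ∨ (b : 𝓞 E) ∈ P.asIdeal := by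
  rw [Nat.cast_mul, P.isPrime.mul_mem_iff_mem_or_mem]

theorem norm_lt {n : ℤ} : ‖(n : Cp q)‖ < 1 ↔ (n : Kp q) = 0 := by
  rw [← red_int, ← red_zero, red_eq_iff (IsUltrametricDist.norm_intCast_le_one _ n) (by simp),
    sub_zero]

theorem rd_int {z : Qbˣ} {b : (Kp q)ˣ} (n : ℤ) (e : (z : Qb) = n) (e' : (b : Kp q) = n) :
    Rd ι z b := by
  refine ⟨?_, ?_⟩ <;> simp only [e, map_intCast]
  · exact (IsUltrametricDist.norm_intCast_le_one _ n).eq_or_lt.resolve_right fun k =>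
      b.ne_zero (e'.trans (norm_lt.1 k))
  · rw [red_int, e']

theorem pv_up (g : Pr E → Qbˣ) {x : E} (hx : x ≠ 0) : (pv (PB.up io g) x : ℂ) = io (pw g x : Qbˣ) :=
  congrArg Units.val (map_pw (Units.map (io : Qb →* ℂ)) g hx).symm

/-- the norm of a prime -/
def qb (v : Pr E) : Qbˣ := Units.mk0 (Ideal.absNorm v.asIdeal : Qb)
  (Nat.cast_ne_zero.2 fun h => v.ne_bot (Ideal.absNorm_eq_zero_iff.1 h))

theorem pv_qb {x : E} (hx : x ≠ 0) : (pv qU x : ℂ) = io (pw qb x : Qbˣ) := by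
  rw [← pv_up _ hx]
  congr 2
  exact funext fun v => Units.ext (map_natCast io _).symm

open Classical in
theorem ex_t (α : Eˣ) : ∃ t : F, t ≠ 0 ∧ ((α * cU C α : Eˣ) : E) = algebraMap F E t ∧
    (pv qU t : ℂ) = (Algebra.norm ℚ t : ℚ) ∧ (∀ v, C.sg v ^ ordv v t = 1) ∧ ∀ v P, Ab v P →
      ((C.D : 𝓞 E) ∉ P.asIdeal ∨ ordv P (α : E) = 0 ∧ ordv (C.pi P) (α : E) = 0) →
      ordv v t = ordv P (α : E) + ordv (C.pi P) (α : E) := by
  obtain ⟨s, t, e⟩ := C.span α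
  have e1 := C.nm_co s t
  rw [← e] at e1
  have c0 := (map_ne_zero C.c).2 α.ne_zero
  have t0 : s ^ 2 - C.a * t ^ 2 ≠ 0 := fun k => mul_ne_zero α.ne_zero c0 (by rw [e1, k, map_zero])
  refine ⟨_, t0, e1, by rw [pv_q t0, abs_of_pos (C.norm_pos (C.nm_pos t0))], C.sg_nm t0,
    fun v P h k => ?_⟩
  have o := ordv_mul P α.ne_zero c0
  rw [e1, ← ordv_pi] at o
  rcases k with k | k
  · rw [← o, ordv_ab h k]
  · rw [k.1, k.2] at o ⊢
    exact ordv_one ((h.eq_one _).1 (val_of_ordv ((map_ne_zero _).2 t0) o))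

theorem ex_α {P0 : Pr E} (h : (C.D : 𝓞 E) ∉ P0.asIdeal) : ∃ α ∈ C.G1 Set.univ,
    ordv P0 ((α : Eˣ) : E) = 1 ∧ ∀ P, P ≠ P0 → ((q * C.D : ℕ) : 𝓞 E) ∈ P.asIdeal →
      ordv P ((α : Eˣ) : E) = 0 := by
  classical
  obtain ⟨p, hp⟩ := P0.valuation_exists_uniformizer E
  obtain ⟨a, ha⟩ := crt1 ((fin_nat (E := E) (mul_ne_zero hq.out.ne_zero C.D0)).insert P0)
    (fun P => if P = P0 then p else 1)
    (fun P => if P = P0 then exp (-1) else P.valuation E (C.D : E)) fun P => by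
      split_ifs
      exacts [exp_ne_zero, (Valuation.ne_zero_iff _).2 (Nat.cast_ne_zero.2 C.D0)]
  have h0 := ha P0 (Or.inl rfl)
  simp only [if_true, ← hp] at h0
  have h1 := Valuation.map_add_eq_of_lt_right _ h0
  rw [sub_add_cancel, hp] at h1
  have h2 : ∀ P, P ≠ P0 → ((q * C.D : ℕ) : 𝓞 E) ∈ P.asIdeal →
      P.valuation E (a - 1) < P.valuation E (C.D : E) := fun P k l => by
    simpa only [if_neg k] using ha P (Or.inr l)
  have h3 := fun P k l => ordv_one (val_of_lt ((h2 P k l).trans_le (val_nat_le P _)))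
  have n : ∀ P : Pr E, (C.D : 𝓞 E) ∈ P.asIdeal → P ≠ P0 := fun P k e => h (e ▸ k)
  obtain ⟨γ, rfl⟩ := C.mk_G (x := a) (fun k => by rw [k, map_zero] at h1; exact exp_ne_zero h1.symm)
    fun P k => h3 P (n P k) (mem_mul.2 (.inr k))
  exact ⟨γ, fun P _ k => (h2 P (n P k) (mem_mul.2 (.inr k))).le, ordv_of h1, h3⟩

theorem qr (ha : C.a = -(Δ : 𝓞 F)) (hd : ∀ τ, C.sec τ C.δ = io d) (hr : ‖ι (d - r)‖ < 1)
    {K : Type} [Field K] [NumberField K] {v : Pr K} (h : (q : 𝓞 K) ∈ v.asIdeal) :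
    (r : 𝓞 K) ^ 2 + Δ ∈ v.asIdeal := by
  obtain ⟨k, hk⟩ : (q : ℤ) ∣ r ^ 2 + Δ := by
    rw [← CharP.intCast_eq_zero_iff (Kp q), ← norm_lt, ← map_intCast ι,
      show ((r ^ 2 + Δ : ℤ) : Qb) = -((d - r) * (d - r + (2 * r : ℤ))) by
        push_cast; linear_combination sq_d ha hd, map_neg, norm_neg, map_mul, norm_mul, map_add,
      map_intCast]
    exact mul_lt_one_of_nonneg_of_lt_one_left (norm_nonneg _) hr
      ((IsUltrametricDist.norm_add_le_max _ _).trans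
        (max_le hr.le (IsUltrametricDist.norm_intCast_le_one _ _)))
  have := congrArg (Int.cast : ℤ → 𝓞 K) hk
  push_cast at this
  exact this ▸ v.asIdeal.mul_mem_right _ h

theorem val_r (qD : ¬ q ∣ C.D) {P : Pr E} (h : (q : 𝓞 E) ∈ P.asIdeal) :
    P.valuation E (C.δ - r) ≤ 1 :=
  Valuation.map_sub_le _ (val_δ (nD qD h)).le (by exact_mod_cast val_le P (r : 𝓞 E))

open Classical in
/-- the norm with the sign of the quadratic character -/
def sq (C : CM F E) (w : Pr F) : Qbˣ := if C.Gd w then qb w else -qb w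

theorem ex_g (ha : C.a = -(Δ : 𝓞 F)) (hd : ∀ τ, C.sec τ C.δ = io d) (q5 : 5 ≤ q)
    {T : Qbˣ →* Qbˣ} (hT : ∀ z a, Rd ι z a → T z = z / te ι a) : ∃ g : Pr E → Qbˣ,
    (∀ a : Eˣ, pw g (a : E) = T (nt C.δ d a)) ∧ ∀ w : Pr F, ((q * C.D : ℕ) : 𝓞 F) ∉ w.asIdeal →
      ∏ᶠ (P) (_ : un F P = w), g P = T (sq C w) :=
  ext2 (MonoidHom.id Eˣ) (T.comp (nt C.δ d)) (un F)
    (fun w => (C.pr w).finite_toSet.subset fun P k => C.mem_pr.2 (ab_iff.2 k))
    {w | ((q * C.D : ℕ) : 𝓞 F) ∉ w.asIdeal} (fun w => T (sq C w)) fun a n n1 n2 => by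
      have fin : ∀ g : Pr F → Qbˣ, Function.HasFiniteMulSupport fun w => g w ^ n w := fun g =>
        n.finite_support.subset fun w k c => k (by simp only [c, zpow_zero])
      have n3 : ∀ P, ordv (C.pi P) (a : E) = ordv P (a : E) := fun P =>
        (n2 _).trans ((congrArg n (C.un_pi P)).trans (n2 P).symm)
      obtain ⟨t, t0, t1, t2, -, t3⟩ := ex_t (C := C) a
      have e1 : nt C.δ d (a * cU C a) = (∏ᶠ w, sq C w ^ n w) ^ 2 := by
        rw [show nt C.δ d (a * cU C a) = pw qb t from Units.ext (io.injective (by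
          rw [nt_io hd, ← pv_qb t0, t1, t2, ← prod_emb, NT]
          simp only [C.ovr])), finprod_pow (fin (sq C))]
        refine finprod_congr fun w => ?_
        have u := n2 (Tor.up E w)
        rw [(ab_up w).eq] at u
        rw [t3 w _ (ab_up w) (by_contra fun c => by
          rw [not_or, not_not, n3, and_self] at c
          exact c.2 (u.trans (n1 w (not_not.2 (mem_mul.2 (.inr (((ab_up w).nat _).1 c.1))))))), n3,
          show ordv _ (a : E) = n w from u, zpow_add, ← mul_zpow, pow_two, ← mul_zpow]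
        unfold sq
        split_ifs <;> simp
      have e2 := nt_12 ha hd (u := a / cU C a) (Units.ext (by
        simp [cU, C.cc])) fun P => by
          rw [Units.val_div_eq_div_val, map_div₀]
          erw [← val_pi]
          rw [val_eq _ a.ne_zero, val_eq _ a.ne_zero, n3, div_self exp_ne_zero]
      have e3 : (nt C.δ d a / ∏ᶠ w, sq C w ^ n w) ^ 24 = 1 := by
        rw [map_div, div_pow, div_eq_one] at e2
        rw [div_pow, div_eq_one, show 24 = 2 * 12 from rfl, pow_mul _ 2 12 , pow_mul _ 2 12, ← e1,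
          map_mul, mul_pow, ← e2, pow_two, mul_pow]
      obtain ⟨b, hb⟩ := Rd.ex (ι := ι) (norm_root (by norm_num) e3)
      have e4 := hT _ _ hb
      rw [← hb.eq_te (fun c => by
        rcases hq.out.dvd_mul.1 (show q ∣ 2 ^ 3 * 3 from c) with c | c
        · have := Nat.le_of_dvd two_pos (hq.out.dvd_of_dvd_pow c); omega
        · have := Nat.le_of_dvd three_pos c; omega) e3, div_self', map_div,
        div_eq_one, T.map_finprod (fin (sq C))] at e4
      exact e4.trans (finprod_congr fun w => map_zpow T _ _)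

section

variable (ha : C.a = -(Δ : 𝓞 F)) (qD : ¬ q ∣ C.D) (hd : ∀ τ, C.sec τ C.δ = io d)
  (hr : ‖ι (d - r)‖ < 1)

include ha qD hd hr in
theorem xor {P : Pr E} (h : (q : 𝓞 E) ∈ P.asIdeal) :
    (C.pi P).valuation E (C.δ - r) < 1 ↔ ¬ P.valuation E (C.δ - r) < 1 := by
  have a := val_r (r := r) qD ((C.nat_pi P _).2 h)
  have b := (mem_iff P _).1 (qr ha hd hr h)
  rw [val_pi, map_sub, C.cδ, map_intCast] at a ⊢
  refine ⟨fun k l => ?_, fun k => ?_⟩
  · have := Valuation.map_sub_lt _ l k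
    rw [show C.δ - r - (-C.δ - r) = 2 * C.δ by ring, map_mul, val_two (nD qD h), val_δ (nD qD h),
      one_mul] at this
    exact lt_irrefl _ this
  · rwa [show (((r : 𝓞 E) ^ 2 + Δ : 𝓞 E) : E) = (C.δ - r) * (-C.δ - r) by
      change algebraMap (𝓞 E) E _ = _
      rw [map_add, map_pow, map_intCast, map_natCast]; linear_combination sq_δ ha, map_mul,
      (val_r qD h).eq_or_lt.resolve_right k, one_mul] at b

include qD hr in
theorem nt_ind {z : Eˣ} (p : Qbˣ → Prop) (p1 : p 1) (p2 : ∀ a b, p a → p b → p (a * b))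
    (h : ∀ (φ : E →+* Qb) (P : Pr E), (q : 𝓞 E) ∈ P.asIdeal → P.valuation E (C.δ - r) < 1 →
      (∀ y, (P.valuation E y < 1 → ‖ι (φ y)‖ < 1) ∧ (P.valuation E y = 1 → ‖ι (φ y)‖ = 1)) →
      p (Units.map (φ : E →* Qb) z)) : p (nt C.δ d z) := by
  classical
  rw [nt, MonoidHom.finsetProd_apply]
  refine prod_induction _ p p2 p1 fun φ k => ?_
  obtain ⟨P, a, b⟩ := ex_pl (ι.comp φ)
  refine h φ P a ((val_r qD a).lt_or_eq.resolve_right fun l => hr.ne ?_) b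
  simpa only [RingHom.comp_apply, map_sub, map_intCast, (mem_filter.1 k).2] using (b _).2 l

include qD hr in
theorem rd1 {z : Eˣ} (h : ∀ P : Pr E, (q : 𝓞 E) ∈ P.asIdeal → P.valuation E (C.δ - r) < 1 →
    P.valuation E ((z : E) - 1) < 1) : Rd ι (nt C.δ d z) 1 :=
  nt_ind qD hr (Rd ι · 1) Rd.one (fun a b x y => by simpa using x.mul y) fun φ P a b c =>
    Rd.one.near (by simpa using (c _).1 (h P a b))

include qD hr in
theorem rdu {z : Eˣ} (h : ∀ P : Pr E, (q : 𝓞 E) ∈ P.asIdeal → P.valuation E (C.δ - r) < 1 →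
    ordv P (z : E) = 0) : ∃ b, Rd ι (nt C.δ d z) b :=
  nt_ind qD hr (∃ b, Rd ι · b) ⟨1, Rd.one⟩ (fun _ _ ⟨_, x⟩ ⟨_, y⟩ => ⟨_, x.mul y⟩) fun φ P a b c =>
    Rd.ex ((c _).2 (val_of_ordv z.ne_zero (h P a b)))

variable (ho : IsOpen (θ.ker : Set (GK j))) (hfr : ∀ v, ∃ P, FrI j v P (fr v))
  (hu : ∀ v : Pl E, ((q * C.D : ℕ) : 𝓞 E) ∉ v.asIdeal → Un θ v)
  (h1 : ∀ v : Pl E, (q : 𝓞 E) ∈ v.asIdeal → v.valuation E (C.δ - r) < 1 → Un (θ / om q j) v)
  (h2 : ∀ v : Pl E, (q : 𝓞 E) ∈ v.asIdeal → ¬ v.valuation E (C.δ - r) < 1 → Un θ v)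
  {m : ℕ} (m0 : 0 < m) (o1 : ∀ g, θ g ^ m = 1) (o2 : ∀ g, om q j g ^ m = 1)
  (deep : ∀ v : Pl E, (C.D : 𝓞 E) ∈ v.asIdeal →
    v.valuation E (C.D : E) < v.valuation E ((m : E) ^ 2))

include ha qD hd hr ho hfr hu h1 h2 m0 o1 o2 deep

/-- the reciprocity law for `θ` -/
theorem law {x : Eˣ} (x1 : ∀ P : Pr E, (q : 𝓞 E) ∈ P.asIdeal → ordv P (x : E) = 0)
    (x2 : ∀ P : Pr E, (C.D : 𝓞 E) ∈ P.asIdeal →
      P.valuation E ((x : E) - 1) ≤ P.valuation E (C.D : E)) :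
    Rd ι (nt C.δ d x) (sy θ fr (x : E)) := by
  classical
  have : IsEmpty (E →+* ℝ) := ⟨fun φ => C.δ0 (φ.injective (by
    have := congrArg φ (sq_δ ha)
    rw [map_pow, map_neg, map_natCast] at this
    rw [map_zero]
    nlinarith [Nat.cast_nonneg (α := ℝ) Δ]))⟩
  have N0 := mul_ne_zero hq.out.ne_zero C.D0
  have l : ∀ P : Pr E, P.valuation E ((m : E) ^ 2) ≤ 1 := fun P => by
    rw [map_pow]
    exact pow_le_one' (val_nat_le P m) 2
  let Φ : Pr E → Prop := fun P => (q : 𝓞 E) ∈ P.asIdeal ∧ P.valuation E (C.δ - r) < 1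
  obtain ⟨y, hy⟩ := crt1 (fin_nat (E := E) N0) (fun P => if Φ P then (x : E) else 1)
    (fun P => P.valuation E ((m : E) ^ 2)) fun P => (Valuation.ne_zero_iff _).2
      (pow_ne_zero _ (Nat.cast_ne_zero.2 m0.ne'))
  have y1 : ∀ P : Pr E, ((q * C.D : ℕ) : 𝓞 E) ∈ P.asIdeal → P.valuation E y = 1 := fun P k => by
    have e : P.valuation E (if Φ P then (x : E) else 1) = 1 := by
      split_ifs with c
      exacts [val_of_ordv x.ne_zero (x1 P c.1), map_one _]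
    have := Valuation.map_add_eq_of_lt_right _ (((hy P k).trans_le (l P)).trans_eq e.symm)
    rwa [sub_add_cancel, e] at this
  have y2 : ∀ P : Pr E, ((q * C.D : ℕ) : 𝓞 E) ∈ P.asIdeal → ¬ Φ P →
      P.valuation E (y - 1) < P.valuation E ((m : E) ^ 2) := fun P k c => by
    simpa only [if_neg c] using hy P k
  obtain ⟨y, rfl⟩ : ∃ z : Eˣ, z = y := by
    obtain ⟨P, k, -⟩ := ex_pl (ι.comp j)
    exact ⟨Units.mk0 y fun c => by simpa [c] using y1 _ (mem_mul.2 (.inl k)), rfl⟩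
  have y3 : ∀ P : Pr E, ((q * C.D : ℕ) : 𝓞 E) ∈ P.asIdeal →
      P.valuation E (((x / y : Eˣ) : E) - 1) = P.valuation E ((y : E) - x) := fun P k => by
    rw [Units.val_div_eq_div_val, div_sub_one y.ne_zero, map_div₀, y1 P k, div_one,
      Valuation.map_sub_swap]
  have y4 : ∀ P, Φ P → P.valuation E (((x / y : Eˣ) : E) - 1) < P.valuation E ((m : E) ^ 2) :=
    fun P c => by
      rw [y3 P (mem_mul.2 (.inl c.1))]
      simpa only [if_pos c] using hy P (mem_mul.2 (.inl c.1))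
  have e1 := pwl θ ho hfr m0 o1 N0 hu (x / y).ne_zero fun P k => by
    by_cases c : Φ P
    · exact .inr (y4 P c)
    rcases mem_mul.1 k with a | a
    · refine .inl ⟨h2 P a fun b => c ⟨a, b⟩, ?_⟩
      rw [Units.val_div_eq_div_val, map_div₀, y1 P k, val_of_ordv x.ne_zero (x1 P a), div_one]
    · rw [y3 P k, ← sub_sub_sub_cancel_right _ _ (1 : E)]
      exact .inr (Valuation.map_sub_lt _ (y2 P k c) ((x2 P a).trans_lt (deep P a)))
  have e2 := pwl (θ / om q j) (Subgroup.isOpen_mono (H₁ := θ.ker ⊓ (om q j).ker) (fun g k => by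
      rw [MonoidHom.mem_ker, MonoidHom.div_apply, k.1, k.2, div_one]) (ho.inter om_open)) hfr m0
    (fun g => by rw [MonoidHom.div_apply, div_pow, o1, o2, div_one]) N0
    (fun v k P a b g c => by rw [MonoidHom.div_apply, hu v k P a b g c,
      om_un (fun e => k (mem_mul.2 (.inl e))) P a b g c, div_one]) y.ne_zero fun P k => by
    by_cases c : Φ P
    exacts [.inl ⟨h1 P c.1 c.2, y1 P k⟩, .inr (y2 P k c)]
  have e3 : Rd ι (nt C.δ d y * nt C.δ d (cU C y)) (sy (om q j) fr (y : E)) := by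
    rw [show nt C.δ d y * _ = pw qb (y : E) from
      Units.ext (io.injective ((nt_nm ha hd y).trans (pv_qb y.ne_zero)))]
    refine Rd.pw y.ne_zero fun v k => ?_
    obtain ⟨P, hP⟩ := hfr v
    exact rd_int (Ideal.absNorm v.asIdeal : ℕ) (Int.cast_natCast _).symm
      ((om_fr (fun c => k (ordv_one (y1 v (mem_mul.2 (.inl c))))) hP).trans (Int.cast_natCast _).symm)
  have e4 : Rd ι (nt C.δ d (cU C y)) 1 := rd1 qD hr fun P a b => by
    have a' := (C.nat_pi P _).2 a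
    have := (y2 _ (mem_mul.2 (.inl a')) fun c => (xor ha qD hd hr a).1 c.2 b).trans_le (l _)
    rwa [val_pi, map_sub, map_one] at this
  have e5 := (rd1 qD hr fun P a b => (y4 P ⟨a, b⟩).trans_le (l P)).mul (e3.div e4)
  simp only [sy_eq, MonoidHom.div_apply, Units.val_div_eq_div_val] at e1 e2 e5 ⊢
  rw [pw_div _ x.ne_zero y.ne_zero, div_eq_one] at e1
  rw [pw_div' _ _ y.ne_zero, div_eq_one] at e2
  rwa [mul_div_cancel_right, ← map_mul, div_mul_cancel, one_mul, div_one, ← e2, ← e1] at e5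

open Classical in
theorem core (q5 : 5 ≤ q) (hk : ∀ w : Pl F, ((q * C.D : ℕ) : 𝓞 F) ∉ w.asIdeal →
    ((∏ᶠ (P) (_ : Ab w P), θ (fr P) : (Kp q)ˣ) : Kp q) =
      if C.Gd w then (qw w : Kp q) else -(qw w : Kp q)) : ∃ ψ, Hc C io ι θ fr r ψ := by
  have L := @law q _ F E _ _ _ _ _ C Δ io ι d r j θ fr ha qD hd hr ho hfr hu h1 h2 m m0 o1 o2 deep
  obtain ⟨T, hT⟩ := ex_T ι
  have T1 : ∀ {z a}, Rd ι z a → Rd ι (T z) 1 := fun {z a} h =>
    hT z a h ▸ div_self' a ▸ h.div (rd_te a)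
  have T2 : ∀ {z a}, Rd ι z a → T (T z) = z / te ι a := fun h => by
    rw [hT _ _ (T1 h), map_one, div_one, hT _ _ h]
  have pr : ∀ {A : Type} [CommMonoid A] (g : Pr E → A) (w : Pr F),
      ∏ᶠ (P) (_ : Ab w P), g P = ∏ P ∈ C.pr w, g P := fun g w =>
    finprod_cond_eq_prod_of_cond_iff _ fun _ => C.mem_pr.symm
  obtain ⟨g, g1, g2⟩ := ex_g ha hd q5 hT
  let ψ0 : Pr E → Qbˣ := fun P => te ι (θ (fr P)) * T (g P)
  have f1 : ∀ {a : Eˣ} {b}, Rd ι (nt C.δ d a) b →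
      pw ψ0 (a : E) = te ι (sy θ fr (a : E)) * (nt C.δ d a / te ι b) := fun {a b} h => by
    rw [pw_mul' _ _ a.ne_zero, ← map_pw _ _ a.ne_zero, ← map_pw _ _ a.ne_zero, ← T2 h]
    exact congrArg (_ * T ·) (g1 a)
  obtain ⟨ψ, p1, p2⟩ := ext2 (C.G.subtype.comp (C.G1 Set.univ).subtype)
    ((nt C.δ d).comp (C.G.subtype.comp (C.G1 Set.univ).subtype)) id Set.finite_singleton
    {P | (q : 𝓞 E) ∉ P.asIdeal} ψ0 fun u n n1 n2 => by
      have := f1 (L (x := u.1.1) (fun P k => (n2 P).trans (n1 P (not_not.2 k))) (u.2 · trivial))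
      rw [mul_div_cancel] at this
      exact this.symm.trans (finprod_congr fun P => congrArg _ (n2 P))
  replace p2 : ∀ P : Pr E, (q : 𝓞 E) ∉ P.asIdeal → ψ P = ψ0 P := fun P k =>
    (finprod_cond_eq_left (a := P)).symm.trans (p2 P k)
  have H : C.Hk (PB.up io ψ) := fun u k =>
    (pv_up _ (Units.ne_zero _)).trans ((congrArg _ (congrArg _ (p1 ⟨u, k⟩))).trans (nt_io hd _))
  have k0 : ∀ w, (kap (PB.up io ψ) w : ℂ) = io (∏ P ∈ C.pr w, ψ P : Qbˣ) := fun w => by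
    rw [C.kap_eq, Units.coe_prod, Units.coe_prod, map_prod]
    rfl
  have k1 : ∀ w : Pr F, ((q * C.D : ℕ) : 𝓞 F) ∉ w.asIdeal → (kap (PB.up io ψ) w : ℂ) =
      if C.Gd w then (qw w : ℂ) else -(qw w : ℂ) := fun w k => by
    have a : Rd ι (sq C w) (∏ P ∈ C.pr w, θ (fr P)) :=
      rd_int (if C.Gd w then qw w else -qw w) (by unfold sq; split_ifs <;> simp [qb])
        (by rw [← pr, hk w k]; split_ifs <;> simp)
    have b := g2 w k
    simp only [← ab_iff] at b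
    rw [k0, prod_congr rfl fun P c => p2 P fun e => k (mem_mul.2 (.inl
      (((C.mem_pr.1 c).nat _).1 e))), prod_mul_distrib, ← map_prod (te ι), ← map_prod T, ← pr g, b, T2 a,
      mul_div_cancel]
    unfold sq
    split_ifs <;> simp [qb]
  have gd : ∀ w : Pr F, (q : 𝓞 F) ∈ w.asIdeal → C.Gd w := fun w k =>
    ⟨nD qD k, r, by rw [ha, sub_neg_eq_add]; exact qr ha hd hr k⟩
  have k2 : ∀ w : Pr F, (q : 𝓞 F) ∈ w.asIdeal → (kap (PB.up io ψ) w : ℂ) = qw w := fun w k => by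
    have o := (gd w k).ne (ab_up (E := E) w)
    obtain ⟨α, a1, a2, a3⟩ := ex_α (q := q) (C.nD (gd w k))
    obtain ⟨t, t0, t1, t2, t3, t4⟩ := ex_t (C := C) α.1
    have e1 := C.eps_one H ((C.G1 _).mul_mem a1 (C.cG_mem a1))
    rw [C.eps_rho _ (γ := α * C.cG α) t1, rho_eq, ← t2, div_eq_one_iff_eq (Units.ne_zero _),
      Units.val_inj, eq_comm, ← div_eq_one] at e1
    have e2 := (pw_div' _ _ t0).trans e1
    rw [pw, finprod_eq_single _ w fun v c => ?_, t4 w _ (ab_up w) (.inl (C.nD (gd w k))), a2,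
      a3 _ o (mem_mul.2 (.inl (((C.ab_pi (ab_up w)).nat _).2 k))), add_zero, zpow_one, div_eq_one,
      off, if_neg (nD qD k)] at e2
    · exact congrArg Units.val e2
    by_cases b : ((q * C.D : ℕ) : 𝓞 F) ∈ v.asIdeal
    · have z : ∀ P, Ab v P → ordv P ((α : Eˣ) : E) = 0 := fun P e =>
        a3 P (fun l => c (e.eq.symm.trans (l ▸ (ab_up w).eq))) ((e.nat _).2 b)
      rw [t4 v _ (ab_up v) (.inr ⟨z _ (ab_up v), z _ (C.ab_pi (ab_up v))⟩), z _ (ab_up v),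
        z _ (C.ab_pi (ab_up v)), add_zero, zpow_zero]
    · have b' : (C.D : 𝓞 F) ∉ v.asIdeal := fun l => b (mem_mul.2 (.inr l))
      rw [← t3 v, off, if_neg b', show kap (PB.up io ψ) v = C.sg v * qU v from Units.ext (by
        rw [k1 v b, sg]
        simp only [b', false_or]
        split_ifs <;> simp [qU]), mul_div_cancel_right]
  have u1 : ∀ v : Pr E, (q : 𝓞 E) ∈ v.asIdeal → ¬ v.valuation E (C.δ - r) < 1 → ‖ι (ψ v)‖ = 1 :=
    fun v k c => by
      obtain ⟨n, α, n0, a1, a2⟩ := C.gen1 (nD qD k)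
      obtain ⟨b, hb⟩ := rdu (z := α.1) qD hr fun P _ l => by
        rw [a2, if_neg fun e : P = v => c (e ▸ l)]
      have e := (pw_at ψ v fun P l => .inr ((a2 P).trans (if_neg l))).symm.trans (p1 ⟨α, a1⟩)
      rw [a2, if_pos rfl, zpow_natCast] at e
      have := (e ▸ hb : Rd ι (ψ v ^ n) b).1
      rwa [Units.val_pow_eq_pow_val, map_pow, norm_pow,
        pow_eq_one_iff_of_nonneg (norm_nonneg _) n0] at this
  refine ⟨ψ, H, fun w k => ?_, fun v k => ?_, fun γ k l => ?_, fun v k => ⟨fun c => ?_, u1 v k⟩⟩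
  · by_cases c : (q : 𝓞 F) ∈ w.asIdeal
    · rw [k2 w c, if_pos (gd w c)]
    · exact k1 w fun e => (mem_mul.1 e).elim c k
  · have c := fun e => k (mem_mul.2 (.inl e))
    obtain ⟨x, x0, hx⟩ := gen_pow v
    obtain ⟨b, hb⟩ := rdu (z := Units.mk0 x x0) qD hr fun P l _ =>
      (hx P).trans (if_neg fun e : P = v => c (e ▸ l))
    have e := (pw_at g v fun P l => .inr ((hx P).trans (if_neg l))).symm.trans (g1 (Units.mk0 x x0))
    rw [hx, if_pos rfl, zpow_natCast] at e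
    have := (e ▸ T1 hb : Rd ι (g v ^ classNumber E) 1).1
    rw [Units.val_pow_eq_pow_val, map_pow, norm_pow,
      pow_eq_one_iff_of_nonneg (norm_nonneg _) (classNumber_ne_zero E)] at this
    obtain ⟨b, hb⟩ := Rd.ex this
    exact p2 v c ▸ mul_one (θ (fr v)) ▸ (rd_te _).mul (T1 hb)
  · rw [CM.eps, pv_up _ γ.ne_zero, pw_congr fun P c => p2 P fun e => c
      (ordv_one (val_of_lt (l P e))), f1 (rd1 qD hr fun P a _ => l P a), ← nt_io hd, map_one,
      div_one, ← map_div₀, ← Units.val_div_eq_div_val, div_mul_cancel_right, map_inv]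
  · have a := ab_un (F := F) v
    have b := (a.nat _).1 k
    have e := (k0 _).symm.trans (k2 _ b)
    rw [← pr, finprod_cond_eq_prod_of_cond_iff (t := {v, C.pi v}) _ fun _ => ⟨fun l => by
        simpa using C.ab_or a l, fun l => by
        rcases mem_insert.1 l with l | l
        exacts [l ▸ a, mem_singleton.1 l ▸ C.ab_pi a]⟩, prod_pair ((gd _ b).ne a).symm,
      ← map_natCast io, io.injective.eq_iff] at e
    have e' := congrArg (‖ι ·‖) e
    simp only [Units.val_mul, map_mul, norm_mul, map_natCast,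
      u1 _ ((C.nat_pi v _).2 k) fun l => (xor ha qD hd hr k).1 l c, mul_one] at e'
    rw [e', ← Int.cast_natCast, norm_lt, Int.cast_natCast, CharP.cast_eq_zero_iff _ q]
    exact by_contra fun l => nD l b (Ideal.absNorm_mem _)

end

end Hch

open Hch

/-- the primes above `q` split -/
theorem gd_q (ha : C.a = -(Δ : 𝓞 F)) (qD : ¬ q ∣ C.D) (hd : ∀ τ, C.sec τ C.δ = io d)
    (hr : ‖ι (d - r)‖ < 1) {w : Pl F} (k : (q : 𝓞 F) ∈ w.asIdeal) : C.Gd w :=
  ⟨nD qD k, r, by rw [ha, sub_neg_eq_add]; exact qr ha hd hr k⟩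

open Classical in
/-- **HCH** -/
theorem hch (C : CM F E) (ha : C.a = -(Δ : 𝓞 F)) (q5 : 5 ≤ q) (qD : ¬ q ∣ C.D) (io : Qb →+* ℂ)
    (ι : Qb →+* Cp q) (d : Qb) (hd : ∀ τ, C.sec τ C.δ = io d) (r : ℤ) (hr : ‖ι (d - r)‖ < 1)
    (θ : GK j →* (Kp q)ˣ) (ho : IsOpen (θ.ker : Set (GK j))) (hfr : ∀ v, ∃ P, FrI j v P (fr v))
    (hu : ∀ v : Pl E, ((q * C.D : ℕ) : 𝓞 E) ∉ v.asIdeal → Un θ v)
    (h1 : ∀ v : Pl E, (q : 𝓞 E) ∈ v.asIdeal → v.valuation E (C.δ - r) < 1 → Un (θ / om q j) v)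
    (h2 : ∀ v : Pl E, (q : 𝓞 E) ∈ v.asIdeal → ¬ v.valuation E (C.δ - r) < 1 → Un θ v)
    (hk : ∀ w : Pl F, ((q * C.D : ℕ) : 𝓞 F) ∉ w.asIdeal →
      ((∏ᶠ (P) (_ : Ab w P), θ (fr P) : (Kp q)ˣ) : Kp q) =
        if C.Gd w then (qw w : Kp q) else -(qw w : Kp q)) :
    ∃ n ψ, Hc (enl C (C.D ^ n) (pow_pos (Nat.pos_of_ne_zero C.D0) n)) io ι θ fr r ψ := by
  obtain ⟨a, a0, a1⟩ := Lb.ex_ord ho
  obtain ⟨b, b0, b1⟩ := Lb.ex_ord (om_open (q := q) (j := j))
  have m0 := mul_pos a0 b0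
  choose f hf using fun v : Pr E => fun k : (C.D : 𝓞 E) ∈ v.asIdeal => exists_pow_lt₀
    (C.val_D_lt k) (Units.mk0 _ ((Valuation.ne_zero_iff (v.valuation E)).2
      (pow_ne_zero 2 (Nat.cast_ne_zero.2 m0.ne'))))
  have := (fin_nat (E := E) C.D0).to_subtype
  obtain ⟨n, hn⟩ := Finite.exists_le fun v : {v : Pr E | (C.D : 𝓞 E) ∈ v.asIdeal} => f v v.2
  have h := pow_pos (Nat.pos_of_ne_zero C.D0) n
  have i : ∀ {K : Type} [Field K] [NumberField K] {v : Pr K},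
      ((q * (C.D * C.D ^ n) : ℕ) : 𝓞 K) ∉ v.asIdeal → ((q * C.D : ℕ) : 𝓞 K) ∉ v.asIdeal :=
    fun k l => k (mul_assoc q _ _ ▸ mem_mul.2 (.inl l))
  refine ⟨n, core (C := enl C _ h) ha
    (fun k => qD (hq.out.dvd_of_dvd_pow (n := n + 1) (pow_succ' C.D n ▸ k))) hd hr ho hfr
    (fun v k => hu v (i k)) h1 h2 m0 (fun g => by rw [pow_mul, a1, one_pow])
    (fun g => by rw [pow_mul', b1, one_pow]) (fun v k => ?_) q5 fun w k => ?_⟩
  · have l : (C.D : 𝓞 E) ∈ v.asIdeal := v.isPrime.mem_of_pow_mem (n + 1) (by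
      rwa [pow_succ', ← Nat.cast_pow, ← Nat.cast_mul])
    refine lt_of_le_of_lt ?_ (hf v l)
    rw [show (enl C _ h).D = C.D ^ (n + 1) from (pow_succ' _ _).symm, Nat.cast_pow, map_pow]
    exact pow_le_pow_right_of_le_one' (val_nat_le v _) ((hn ⟨v, l⟩).trans n.le_succ)
  · rw [hk w (i k)]
    congr 1
    exact propext ⟨fun g => ⟨fun l => k (mem_mul.2 (.inr l)), g.2⟩,
      fun g => ⟨mt (enl_mem C h) g.1, g.2⟩⟩

end Vale.Agent.P022K.PB
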