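import Vale.Agent.P022K.PB.Tei
import Vale.Agent.P022K.F0.Torn2

/-!
# P022K, block PB: extension of characters, the type norm
-/

set_option linter.all false

open NumberField IsDedekindDomain Finset Multiplicative

noncomputable section

namespace Vale.Agent.P022K.PB

open Vale.Agent.P022 Vale.Agent.P022.C CH Sh Sh.Tor
open Vale.Agent.P027M.S (Pr)

variable {q : ℕ} [hq : Fact q.Prime] {F E : Type} [Field F] [NumberField F] [Field E]
  [NumberField E] [Algebra F E]

/-- complex values -/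
def up (io : Qb →+* ℂ) (ψ : Pl E → Qbˣ) : Pl E → ℂˣ := fun P => Units.map (io : Qb →* ℂ) (ψ P)

/-- `ψ` is a Hecke character that lifts `θ` -/
structure Hc (C : CM F E) (io : Qb →+* ℂ) (ι : Qb →+* Cp q) {j : E →+* Qb} (θ : GK j →* (Kp q)ˣ)
    (fr : Pl E → GK j) (r : ℤ) (ψ : Pl E → Qbˣ) : Prop where
  hk : C.Hk (up io ψ)
  kp : Sh.Kp C (up io ψ)
  rd : ∀ v : Pl E, ((q * C.D : ℕ) : 𝓞 E) ∉ v.asIdeal →
    ‖ι (ψ v)‖ = 1 ∧ red (ι (ψ v)) = θ (fr v)
  ep : ∀ γ ∈ C.G, (∀ P : Pl E, (q : 𝓞 E) ∈ P.asIdeal → P.valuation E ((γ : E) - 1) < 1) →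
    C.eps (up io ψ) γ = io (te ι (sy θ fr (γ : E))⁻¹ : Qbˣ)
  uq : ∀ v : Pl E, (q : 𝓞 E) ∈ v.asIdeal → (v.valuation E (C.δ - r) < 1 → ‖ι (ψ v)‖ < 1) ∧
    (¬ v.valuation E (C.δ - r) < 1 → ‖ι (ψ v)‖ = 1)

namespace Hch

theorem ext0 {A B : Type} [CommGroup A] [CommGroup B] (f : A →* B) (χ : A →* Qbˣ)
    (h : ∀ a, f a = 1 → χ a = 1) : ∃ θ : B →* Qbˣ, ∀ a, θ (f a) = χ a := by
  let _ : DivisibleBy (Additive Qbˣ) ℤ := by
    refine divisibleByOfSMulRightSurj _ _ fun {n} hn x => ?_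
    obtain ⟨y, hy⟩ := IsAlgClosed.exists_pow_nat_eq ((x.toMul : Qbˣ) : Qb) (Int.natAbs_pos.2 hn)
    have y0 : y ≠ 0 := by
      rintro rfl
      exact x.toMul.ne_zero (by rw [← hy, zero_pow (Int.natAbs_ne_zero.2 hn)])
    refine ⟨n.sign • Additive.ofMul (Units.mk0 y y0), ?_⟩
    show n • _ = x
    rw [smul_smul, Int.mul_sign_self, natCast_zsmul]
    exact Additive.toMul.injective (Units.ext (by simpa using hy))
  let g : A ⧸ f.ker →* Qbˣ := QuotientGroup.lift _ χ h
  obtain ⟨k, hk⟩ := (Module.Baer.of_divisible (Additive Qbˣ)).extension_property_addMonoidHom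
    (MonoidHom.toAdditive (QuotientGroup.kerLift f))
    (fun a b hab => QuotientGroup.kerLift_injective f hab) (MonoidHom.toAdditive g)
  refine ⟨MonoidHom.toAdditive.symm k, fun a => ?_⟩
  exact congrArg (fun g : Additive (A ⧸ f.ker) →+ Additive Qbˣ =>
    (g (Additive.ofMul (a : A ⧸ f.ker))).toMul) hk

theorem fp_eq {α : Type} (g : α → Qbˣ) (a : α →₀ ℤ) :
    ∏ᶠ P, g P ^ a P = a.prod fun P n => g P ^ n :=
  finprod_eq_prod_of_mulSupport_subset (s := a.support) _ fun P h => by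
    by_contra k
    exact h (by simp only [Finsupp.notMem_support_iff.1 k, zpow_zero])

/-- characters of ideals with prescribed values -/
theorem ext2 {Γ β : Type} [CommGroup Γ] (i : Γ →* Eˣ) (χ : Γ →* Qbˣ) (b : Pr E → β)
    (hb : ∀ w, {P | b P = w}.Finite) (S : Set β) (κ : β → Qbˣ)
    (h : ∀ γ (n : β →₀ ℤ), (∀ w ∉ S, n w = 0) → (∀ P, ordv P (i γ : E) = n (b P)) →
      χ γ = ∏ᶠ w, κ w ^ n w) : ∃ g : Pr E → Qbˣ, (∀ γ, pw g (i γ : E) = χ γ) ∧
      ∀ w ∈ S, ∏ᶠ (P) (_ : b P = w), g P = κ w := by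
  classical
  let d1 : Γ →* Multiplicative (Pr E →₀ ℤ) := MonoidHom.mk' (fun a => ofAdd
    (Finsupp.ofSupportFinite (fun P => ordv P (i a : E)) (ordv_fin (Units.ne_zero _))))
    fun x y => congrArg ofAdd (Finsupp.ext fun P => by
      show ordv P (i (x * y) : E) = _
      rw [map_mul]
      exact P027M.S.Cls.ordv_mul P (Units.ne_zero _) (Units.ne_zero _))
  let d2 : Multiplicative (Finsupp.supported ℤ ℤ S) →* Multiplicative (Pr E →₀ ℤ) :=
    MonoidHom.mk' (fun n => ofAdd (Finsupp.ofSupportFinite (fun P => n.toAdd.1 (b P))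
      ((n.toAdd.1.support.finite_toSet.biUnion fun w _ => hb w).subset fun P k =>
        Set.mem_biUnion (Finsupp.mem_support_iff.2 k) rfl)))
      fun x y => congrArg ofAdd (Finsupp.ext fun P => rfl)
  let e2 : Multiplicative (Finsupp.supported ℤ ℤ S) →* Qbˣ :=
    MonoidHom.mk' (fun n => ∏ᶠ w, κ w ^ n.toAdd.1 w) fun x y => by
      rw [fp_eq, fp_eq, fp_eq]
      exact Finsupp.prod_add_index' (fun _ => zpow_zero _) fun _ => zpow_add _
  obtain ⟨θ, hθ⟩ := ext0 (d1.coprod d2) (χ.coprod e2) fun ⟨γ, n⟩ k => by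
    have k' : d1 γ = d2 n⁻¹ := (eq_inv_of_mul_eq_one_left k).trans (map_inv d2 n).symm
    exact mul_eq_one_iff_eq_inv.2 ((h γ _ ((Finsupp.mem_supported' _ _).1 n⁻¹.toAdd.2) fun P =>
      congrArg (fun a => a.toAdd P) k').trans (map_inv e2 n))
  have e : ∀ a, θ (ofAdd a) = ∏ᶠ P, θ (ofAdd (Finsupp.single P 1)) ^ a P := fun a => by
    rw [fp_eq]
    conv_lhs => rw [← a.sum_single, Finsupp.sum, ofAdd_sum, map_prod]
    refine prod_congr rfl fun P _ => ?_
    simp only [← map_zpow, ← ofAdd_zsmul, Finsupp.smul_single, smul_eq_mul, mul_one]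
  refine ⟨fun P => θ (ofAdd (Finsupp.single P 1)), fun γ => ?_, fun w hw => ?_⟩
  · have := hθ (γ, 1)
    simp only [MonoidHom.coprod_apply, map_one, mul_one] at this
    exact (e _).symm.trans this
  · have := hθ (1, ofAdd ⟨_, Finsupp.single_mem_supported ℤ 1 hw⟩)
    simp only [MonoidHom.coprod_apply, map_one, one_mul] at this
    refine Eq.trans (finprod_congr fun P => ?_) (((e _).symm.trans this).trans ?_)
    · rw [finprod_eq_if]
      show _ = _ ^ (Finsupp.single w 1 (b P) : ℤ)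
      rw [Finsupp.single_apply]
      split_ifs with a c c
      exacts [(zpow_one _).symm, absurd a.symm c, absurd c.symm a, (zpow_zero _).symm]
    · exact ((fp_eq κ _).trans (Finsupp.prod_single_index (zpow_zero _))).trans (zpow_one _)

variable (ι : Qb →+* Cp q)

/-- the projection to the units congruent to one -/
theorem ex_T : ∃ T : Qbˣ →* Qbˣ, ∀ z a, Rd ι z a → T z = z / te ι a := by
  obtain ⟨T, hT⟩ := ext0 ((MonoidHom.fst _ _).comp (RS ι).subtype)
    (((MonoidHom.fst _ _) / (te ι).comp (MonoidHom.snd _ _)).comp (RS ι).subtype)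
    fun ⟨⟨z, a⟩, h⟩ k => by
      obtain rfl : z = 1 := k
      rw [show (⟨(1, a), h⟩ : RS ι) = 1 from Subtype.ext (Prod.ext rfl (Rd.uniq h Rd.one)), map_one]
  exact ⟨T, fun z a h => hT ⟨(z, a), h⟩⟩

open Classical in
/-- the product of the embeddings that send `δ` to `d` -/
def nt (δ : E) (d : Qb) : Eˣ →* Qbˣ :=
  ∏ φ ∈ univ.filter fun φ : E →+* Qb => φ δ = d, Units.map (φ : E →* Qb)

open Classical in
theorem nt_coe (δ : E) (d : Qb) (x : Eˣ) :
    (nt δ d x : Qb) = ∏ φ ∈ univ.filter fun φ : E →+* Qb => φ δ = d, φ x := by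
  rw [nt, MonoidHom.finsetProd_apply, Units.coe_prod]
  rfl

theorem nt_g (δ : E) (d : Qb) (x : Eˣ) (g : GQ) : g (nt δ d x) = nt δ (g d) x := by
  rw [nt_coe, nt_coe, map_prod]
  exact prod_bijective (fun φ => (g : Qb →+* Qb).comp φ) (Finite.injective_iff_bijective.1
    fun φ φ' h => RingHom.ext fun x => g.injective (RingHom.congr_fun h x))
    (fun φ => by simp) fun _ _ => rfl

variable (C : CM F E) {Δ : ℕ} {io : Qb →+* ℂ} {d : Qb}

/-- the conjugation -/
def cU : Eˣ →* Eˣ := Units.map (C.c : E →* E)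

theorem nt_c (x : Eˣ) : nt C.δ d (cU C x) = nt C.δ (-d) x := by
  refine Units.ext ?_
  rw [nt_coe, nt_coe]
  exact prod_bijective (fun φ => φ.comp (C.c : E →+* E)) (Finite.injective_iff_bijective.1
    fun φ φ' h => RingHom.ext fun x => C.cc x ▸ RingHom.congr_fun h (C.c x))
    (fun φ => by simp [C.cδ]) fun _ _ => rfl

variable {C}

theorem nt_io (hd : ∀ τ, C.sec τ C.δ = io d) (x : Eˣ) : io (nt C.δ d x) = C.NT x := by
  classical
  have k : ∀ φ : E →+* Qb, φ C.δ = d → C.sec ((io.comp φ).comp (algebraMap F E)) = io.comp φ :=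
    fun φ h => RingHom.ext fun x => by
      obtain ⟨s, t, rfl⟩ := C.span x
      simp only [map_add, map_mul, C.ovr, hd, RingHom.comp_apply, h]
  have i : Function.Injective (io.comp : (E →+* Qb) → _) := fun φ φ' h =>
    RingHom.ext fun x => io.injective (RingHom.congr_fun h x)
  rw [nt_coe, map_prod]
  refine prod_nbij (fun φ => (io.comp φ).comp (algebraMap F E)) (fun _ _ => mem_univ _)
    (fun φ a φ' b h => i ?_) (fun τ _ => ?_) fun φ a => by rw [k φ (mem_filter.1 a).2]; rfl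
  · rw [← k φ (mem_filter.1 a).2, ← k φ' (mem_filter.1 b).2]
    exact congrArg _ h
  · obtain ⟨φ, e⟩ := ((Fintype.bijective_iff_injective_and_card _).2 ⟨i, by
      rw [Embeddings.card, Embeddings.card]⟩).2 (C.sec τ)
    refine ⟨φ, mem_filter.2 ⟨mem_univ _, io.injective ((RingHom.congr_fun e _).trans (hd τ))⟩, ?_⟩
    exact RingHom.ext fun x => (RingHom.congr_fun e _).trans (C.ovr τ x)

theorem nt_cj (x : E) : C.NT (C.c x) = starRingEnd ℂ (C.NT x) := by
  simp only [CM.NT, C.cj, map_prod]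

theorem sq_δ (ha : C.a = -(Δ : 𝓞 F)) : C.δ ^ 2 = -(Δ : E) := by
  rw [C.sq, ha]
  simp

theorem sq_d (ha : C.a = -(Δ : 𝓞 F)) (hd : ∀ τ, C.sec τ C.δ = io d) : d ^ 2 = -(Δ : Qb) :=
  io.injective (by rw [map_pow, ← hd C.t1, ← map_pow, sq_δ ha, map_neg, map_neg, map_natCast,
    map_natCast])

theorem nt_nm (ha : C.a = -(Δ : 𝓞 F)) (hd : ∀ τ, C.sec τ C.δ = io d) (x : Eˣ) :
    io (nt C.δ d x * nt C.δ d (cU C x) : Qbˣ) = pv qU (x : E) := by
  classical
  have e : ((nt C.δ d x * nt C.δ d (cU C x) : Qbˣ) : Qb) = (Algebra.norm ℚ (x : E) : ℚ) := by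
    have h := Algebra.norm_eq_prod_embeddings ℚ Qb (x : E)
    rw [← Fintype.prod_equiv (RingHom.equivRatAlgHom E Qb) (fun f => f x) (fun φ => φ x)
      (fun _ => rfl), ← prod_filter_mul_prod_filter_not _ fun φ : E →+* Qb => φ C.δ = d] at h
    rw [nt_c, Units.val_mul, nt_coe, nt_coe]
    refine Eq.trans ?_ h.symm
    congr 2
    refine filter_congr fun φ _ => ⟨fun a b => C.δ0 (φ.injective ?_), fun a => ?_⟩
    · rw [map_zero]
      linear_combination (a + b) / 2
    · refine (sq_eq_sq_iff_eq_or_eq_neg.1 ?_).resolve_left a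
      rw [sq_d ha hd, ← map_pow, sq_δ ha, map_neg, map_natCast]
  have e' := congrArg io e
  rw [Units.val_mul, map_mul, nt_io hd, nt_io hd, map_ratCast] at e'
  erw [nt_cj, Complex.mul_conj] at e'
  rw [pv_q x.ne_zero, e, map_ratCast, abs_of_nonneg]
  exact_mod_cast (Complex.normSq_nonneg _).trans_eq (Complex.ofReal_inj.1 (e'.trans
    (Complex.ofReal_ratCast _).symm))

/-- the type norm of a unit is a root of unity -/
theorem nt_12 (ha : C.a = -(Δ : 𝓞 F)) (hd : ∀ τ, C.sec τ C.δ = io d) {u : Eˣ}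
    (h1 : u * cU C u = 1) (h2 : ∀ P : Pr E, P.valuation E (u : E) ≤ 1) : nt C.δ d u ^ 12 = 1 := by
  obtain ⟨y, hy⟩ := HeightOneSpectrum.mem_integers_of_valuation_le_one (R := 𝓞 E) E (u : E) h2
  have i : ∀ d, IsIntegral ℤ (nt C.δ d u : Qb) := fun d => by
    rw [nt_coe]
    exact IsIntegral.prod _ fun φ _ => (hy ▸ y.isIntegral_coe).map φ.toIntAlgHom
  have m := congrArg (fun z => (nt C.δ d z : Qb)) h1
  simp only [map_mul, map_one, Units.val_mul, Units.val_one] at m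
  have := H443.galQb
  obtain ⟨t, ht⟩ := (InfiniteGalois.mem_range_algebraMap_iff_fixed (k := ℚ)
    ((nt C.δ d u : Qb) + nt C.δ (-d) u)).2 fun g => by
      rw [map_add, nt_g, nt_g, map_neg]
      rcases sq_eq_sq_iff_eq_or_eq_neg.1 (show g d ^ 2 = d ^ 2 by
        rw [← map_pow, sq_d ha hd, map_neg, map_natCast]) with e | e <;> rw [e]
      rw [neg_neg, add_comm]
  obtain ⟨n, rfl⟩ := IsIntegrallyClosed.isIntegral_iff.1 ((isIntegral_algebraMap_iff
    (algebraMap ℚ Qb).injective).1 (ht ▸ (i d).add (i (-d))))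
  rw [← nt_c, eq_ratCast, eq_intCast, Rat.cast_intCast] at ht
  have m' := congrArg (fun z => ‖io z‖) m
  have t' := congrArg (fun z => ‖io z‖) ht
  simp only [map_mul, map_add, map_one, nt_io hd, map_intCast, norm_mul, norm_one,
    Complex.norm_intCast] at m' t'
  have c : ‖C.NT (cU C u)‖ = ‖C.NT u‖ := by erw [nt_cj, Complex.norm_conj]
  have b : |n| ≤ 2 := by
    have := norm_add_le (C.NT u) (C.NT (cU C u))
    rw [← t', c] at this
    rw [c] at m'
    exact_mod_cast (show |(n : ℝ)| ≤ 2 by nlinarith [norm_nonneg (C.NT u)])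
  refine Units.ext ?_
  rw [Units.val_pow_eq_pow_val, Units.val_one]
  generalize (nt C.δ d u : Qb) = x at m ht
  have p : x ^ 2 - n * x + 1 = 0 := by linear_combination -x * ht - m
  obtain ⟨b1, b2⟩ := abs_le.1 b
  interval_cases n <;> push_cast at p
  · rw [show x = -1 from eq_neg_of_add_eq_zero_left
      (pow_eq_zero_iff two_ne_zero |>.1 (by linear_combination p))]
    norm_num
  · linear_combination (x - 1) * (x ^ 9 + x ^ 6 + x ^ 3 + 1) * p
  · linear_combination (x ^ 10 - x ^ 8 + x ^ 6 - x ^ 4 + x ^ 2 - 1) * p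
  · linear_combination (x + 1) * (x ^ 9 - x ^ 6 + x ^ 3 - 1) * p
  · rw [show x = 1 from sub_eq_zero.1 (pow_eq_zero_iff two_ne_zero |>.1 (by linear_combination p)),
      one_pow]

end Hch

end Vale.Agent.P022K.PB
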