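import Vale.Agent.P022K.PB.LbA

/-!
# P022K, block PB, row LB: a ramified character is not trivial on the local units
-/

set_option linter.all false

open NumberField IsDedekindDomain WithZero Finset

noncomputable section

namespace Vale.Agent.P022K.PB.Lb

open Vale.Agent.P022 Vale.Agent.P022.C Vale.Agent.P022.H916
open Vale.Agent.P027M.S (Pr Inert)
open Vale.Agent.P022E.GW (Ov)
open Vale.Agent.P022E.GW.Kc (fin_ord)
open Vale.Agent.P022K.Exi
open Vale.Agent.P022K.Hilb (LN hilb)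
open Vale.Agent.P011.Arith (LS LS_of_close)
open Vale.Agent.P022K.Sh.Tor (val_le val_one val_nat mem_iff ordv_one crt1 fin_nat)

variable {K : Type} [Field K] [NumberField K] {j : K →+* Qb} {v : Pr K} {P : Ideal (𝓞 Qb)}
  {k : Type} [Field k]

def Un (θ : GK j →* kˣ) (v : Pr K) : Prop :=
  ∀ P : Ideal (𝓞 Qb), P.IsPrime → below j P = v.asIdeal → ∀ g : GK j, InI j P g → θ g = 1

def sy (θ : GK j →* kˣ) (fr : Pr K → GK j) (x : K) : kˣ := ∏ᶠ v, θ (fr v) ^ ordv v x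

theorem sy_mul (θ θ' : GK j →* kˣ) (fr : Pr K → GK j) {x : K} (hx : x ≠ 0) :
    sy (θ * θ') fr x = sy θ fr x * sy θ' fr x := by
  have f : ∀ θ : GK j →* kˣ, Function.HasFiniteMulSupport fun v => θ (fr v) ^ ordv v x := fun θ =>
    (fin_ord hx).subset fun v hv e => hv (by simp only [e, zpow_zero])
  rw [sy, sy, sy, ← finprod_mul_distrib (f θ) (f θ')]
  exact finprod_congr fun v => by rw [MonoidHom.mul_apply, mul_zpow]

theorem ex_ord {θ : GK j →* kˣ} (ho : IsOpen (θ.ker : Set (GK j))) :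
    ∃ n, 0 < n ∧ ∀ g, θ g ^ n = 1 := by
  have := GW.Pl.cpt
  have : CompactSpace (GK j) :=
    isCompact_iff_compactSpace.1 ((GK j).isClosed_of_isOpen (isOpen_GK j)).isCompact
  have : Finite (GK j ⧸ θ.ker) := θ.ker.quotient_finite_of_isOpen ho
  refine ⟨θ.ker.index, Nat.card_pos, fun g => ?_⟩
  rw [← map_pow]
  exact θ.ker.pow_index_mem g

theorem un_kq (t : (2 : 𝓞 K) ∉ v.asIdeal) {b : Kˣ} (h : v.valuation K (b : K) = 1) :
    Un (kq j k b) v := fun P hP hv g hg => by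
  obtain ⟨l, o, d⟩ := ov_of hP hv t
  exact kq_of_eq (ka_unr prim fixn o d hv (od_one.2 h) hg)

theorem un_mul {θ : GK j →* kˣ} (ho : IsOpen (θ.ker : Set (GK j))) (hP : P.IsPrime)
    (hv : below j P = v.asIdeal) (t : (2 : 𝓞 K) ∉ v.asIdeal)
    (h2 : ∀ g, InI j P g → θ g ^ 2 = 1) (h1 : ∃ g, InI j P g ∧ θ g ≠ 1) {π : Kˣ}
    (hπ : ordv v (π : K) = 1) : Un (θ * kq j k π) v := fun P' hP' hv' g hg => by
  obtain ⟨g, hg, e⟩ := mv (θ * kq j k π) hP hP' (hv.trans hv'.symm) hg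
  obtain ⟨l, o, d⟩ := ov_of hP hv t
  obtain ⟨τ, hτ, c⟩ := tam θ (ka prim fixn π) ho (ka_open prim fixn π) o d h2 fun g _ => pow_self _
  have a : θ τ = -1 := by
    obtain ⟨g, hg, n⟩ := h1
    obtain ⟨m, e, -⟩ := c g hg
    have q : ((θ τ : kˣ) : k) ^ 2 = 1 := congrArg Units.val (h2 τ hτ)
    refine (sq_eq_one_iff.1 q).elim (fun z => ?_) fun z => Units.ext z
    rw [e, show θ τ = 1 from Units.ext z, one_pow] at n
    exact absurd rfl n
  have b : kq j k π τ = -1 := kq_of_ne fun z => by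
    obtain ⟨g, hg, n⟩ := ka_onto prim fixn hP hv hπ
    obtain ⟨m, -, e⟩ := c g hg
    rw [e, z, one_pow] at n
    exact absurd n (by decide)
  obtain ⟨m, e1, e2⟩ := c g hg
  rw [← e, MonoidHom.mul_apply, e1, kq, MonoidHom.comp_apply, e2, map_pow, ← mul_pow, a,
    show sg k (ka prim fixn π τ) = -1 from b, neg_mul_neg, one_mul, one_pow]

theorem ex_unif (v : Pr K) : ∃ (π : Kˣ) (a : 𝓞 K), (π : K) = a ∧ ordv v (π : K) = 1 := by
  obtain ⟨a, ha⟩ := v.intValuation_exists_uniformizer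
  have h : v.valuation K (a : K) = exp (-1) := (v.valuation_of_algebraMap (K := K) a).trans ha
  exact ⟨Units.mk0 a fun z => exp_ne_zero (h.symm.trans (by rw [z, map_zero])), a, rfl,
    P027M.S.Cls.ordv_of h⟩

/-- the law of quadratic reciprocity -/
theorem sy_kq [IsEmpty (K →+* ℝ)] {fr : Pr K → GK j} (hfr : ∀ v, ∃ P, FrI j v P (fr v))
    {π x : Kˣ} {a : 𝓞 K} (e : (π : K) = a) {S : Set (Pr K)} (hv : v ∈ S)
    (hS : ∀ w ∉ S, (2 : 𝓞 K) ∉ w.asIdeal ∧ a ∉ w.asIdeal) (x1 : ∀ w ∈ S, w.valuation K (x : K) = 1)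
    (x2 : x ∉ LN π (.inl v)) (x3 : ∀ w ∈ S, w ≠ v → x ∈ LS (w.valuation K)) :
    sy (kq j k π) fr x = -1 := by
  classical
  obtain ⟨T, hT, ev⟩ := hilb π x
  replace hT : ∀ p, p ∉ T ↔ x ∈ LN π p := fun p => not_iff_comm.1 (Set.ext_iff.1 hT p)
  have hL : ∀ w, w ∉ T.toLeft ↔ x ∈ LN π (.inl w) := fun w => by rw [mem_toLeft, hT]
  have m : v ∈ T.toLeft := by_contra fun c => x2 ((hL v).1 c)
  have h1 : ∀ w, kq j k π (fr w) ^ ordv w (x : K) = if w ∈ T.toLeft.erase v then -1 else 1 :=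
    fun w => by
    by_cases c : w ∈ S
    · rw [ordv_one (x1 w c), zpow_zero, if_neg fun z =>
        (hL w).2 (Subgroup.mem_sup_right (x3 w c (mem_erase.1 z).1)) (mem_erase.1 z).2]
    obtain ⟨P, hP⟩ := hfr w
    have f := fr_iff (hS w c).1 e (hS w c).2 hP
    have g := (hL w).trans (ln_iff (hS w c).1 (e ▸ val_one (hS w c).2) x)
    simp only [mem_erase, show w ≠ v from fun z => c (z ▸ hv), ne_eq, not_false_eq_true, true_and]
    by_cases s : π ∈ LS (w.valuation K)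
    · rw [kq_of_eq (f.2 s), if_neg (g.2 (Or.inl s)), one_zpow]
    rw [kq_of_ne (mt f.1 s)]
    split_ifs with b
    · exact Odd.neg_one_zpow (Int.not_even_iff_odd.1 fun k => g.2 (Or.inr k) b)
    · exact Even.neg_one_zpow ((g.1 b).resolve_left s)
  rw [← card_toLeft_add_card_toRight, eq_empty_of_isEmpty T.toRight, card_empty, add_zero,
    ← card_erase_add_one m, Nat.even_add_one, Nat.not_even_iff_odd] at ev
  rw [sy, finprod_congr h1, finprod_eq_prod_of_mulSupport_subset (s := T.toLeft.erase v) _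
    fun w k => by_contra fun c : w ∉ T.toLeft.erase v => k (if_neg c),
    prod_congr rfl fun w k => if_pos k, prod_const, ev.neg_one_pow]

theorem lb_of [IsEmpty (K →+* ℝ)] {fr : Pr K → GK j} (hfr : ∀ v, ∃ P, FrI j v P (fr v))
    (pw : ∀ θ : GK j →* kˣ, IsOpen (θ.ker : Set (GK j)) → ∀ (n D : ℕ) (x : K), 0 < n →
      (∀ g, θ g ^ n = 1) → D ≠ 0 → (∀ v : Pr K, (D : 𝓞 K) ∉ v.asIdeal → Un θ v) → x ≠ 0 →
      (∀ v : Pr K, (D : 𝓞 K) ∈ v.asIdeal → (Un θ v ∧ v.valuation K x = 1) ∨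
        v.valuation K (x - 1) < v.valuation K ((n : K) ^ 2)) → sy θ fr x = 1)
    {θ : GK j →* kˣ} (ho : IsOpen (θ.ker : Set (GK j))) (hP : P.IsPrime)
    (hv : below j P = v.asIdeal) (t : (2 : 𝓞 K) ∉ v.asIdeal)
    (h2 : ∀ g, InI j P g → θ g ^ 2 = 1) (h1 : ∃ g, InI j P g ∧ θ g ≠ 1) {D N : ℕ} (D0 : D ≠ 0)
    (Dv : (D : 𝓞 K) ∈ v.asIdeal) (hD : ∀ w : Pr K, (D : 𝓞 K) ∉ w.asIdeal → Un θ w) (N0 : N ≠ 0) :
    ∃ x : K, x ≠ 0 ∧ v.valuation K x = 1 ∧ (∀ w : Pr K, w ≠ v → (D : 𝓞 K) ∈ w.asIdeal →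
      w.valuation K (x - 1) < w.valuation K (N : K)) ∧ sy θ fr x = -1 := by
  classical
  obtain ⟨π, a, e, hπ⟩ := ex_unif v
  obtain ⟨u, u1, u2⟩ := ex_unit hπ
  have o : IsOpen ((θ * kq j k π).ker : Set (GK j)) :=
    Subgroup.isOpen_mono (H₁ := θ.ker ⊓ (kq j k π).ker) (fun g h => by
      rw [MonoidHom.mem_ker, MonoidHom.mul_apply, h.1, h.2, mul_one]) (ho.inter (kq_open π))
  obtain ⟨n, n0, hn⟩ := ex_ord o
  have a0 : Ideal.absNorm (Ideal.span {a}) ≠ 0 := fun c => π.ne_zero (by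
    rw [e, Ideal.span_singleton_eq_bot.1 (Ideal.absNorm_eq_zero_iff.1 c)]; rfl)
  set D' := D * (2 * Ideal.absNorm (Ideal.span {a})) with hD'
  have D1 : D' ≠ 0 := mul_ne_zero D0 (mul_ne_zero two_ne_zero a0)
  have up : ∀ w : Pr K, (D : 𝓞 K) ∈ w.asIdeal → (D' : 𝓞 K) ∈ w.asIdeal := fun w h => by
    rw [hD', Nat.cast_mul]
    exact w.asIdeal.mul_mem_right _ h
  have off : ∀ w : Pr K, (D' : 𝓞 K) ∉ w.asIdeal → (2 : 𝓞 K) ∉ w.asIdeal ∧ a ∉ w.asIdeal :=
    fun w h => by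
    rw [hD', Nat.cast_mul, Nat.cast_mul] at h
    exact ⟨fun c => h (w.asIdeal.mul_mem_left _ (w.asIdeal.mul_mem_right _ c)), fun c =>
      h (w.asIdeal.mul_mem_left _ (w.asIdeal.mul_mem_left _
        ((Ideal.span_singleton_le_iff_mem _).2 c (Ideal.absNorm_mem _))))⟩
  have nz : ∀ (w : Pr K) (m : ℕ), m ≠ 0 → w.valuation K (m : K) ≠ 0 := fun w m h =>
    (Valuation.ne_zero_iff _).2 (Nat.cast_ne_zero.2 h)
  have le : ∀ (w : Pr K) (m m' : ℕ), w.valuation K ((m * m' : ℕ) : K) ≤ w.valuation K (m : K) :=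
    fun w m m' => by
    rw [Nat.cast_mul, map_mul]
    exact mul_le_of_le_one_right' (by exact_mod_cast val_le w (m' : 𝓞 K))
  obtain ⟨x, hx⟩ := crt1 (fin_nat (E := K) D1) (fun w => if w = v then (u : K) else 1)
    (fun w => w.valuation K ((N * (n ^ 2 * 4) : ℕ) : K))
    fun w => nz w _ (mul_ne_zero N0 (mul_ne_zero (pow_ne_zero 2 n0.ne') four_ne_zero))
  have l1 : ∀ w : Pr K, w.valuation K ((N * (n ^ 2 * 4) : ℕ) : K) ≤ 1 := fun w => by
    exact_mod_cast val_le w ((N * (n ^ 2 * 4) : ℕ) : 𝓞 K)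
  have xv := hx v (up v Dv)
  rw [if_pos rfl] at xv
  have x1 : v.valuation K x = 1 :=
    u1 ▸ (v.valuation K).map_eq_of_sub_lt (u1.symm ▸ xv.trans_le (l1 v))
  have x0 : x ≠ 0 := fun c => by simp [c] at x1
  have xw : ∀ w : Pr K, w ≠ v → (D' : 𝓞 K) ∈ w.asIdeal →
      w.valuation K (x - 1) < w.valuation K ((N * (n ^ 2 * 4) : ℕ) : K) := fun w c h => by
    simpa only [if_neg c] using hx w h
  refine ⟨x, x0, x1, fun w c h => (xw w c (up w h)).trans_le (le w _ _), ?_⟩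
  have s1 := pw _ o n D' x n0 hn D1 (fun w h P hP hw g hg => by
    rw [MonoidHom.mul_apply, hD w (mt (up w) h) P hP hw g hg,
      un_kq (off w h).1 (e ▸ val_one (off w h).2) P hP hw g hg, mul_one]) x0 fun w h => by
    by_cases c : w = v
    · exact Or.inl (c ▸ ⟨un_mul ho hP hv t h2 h1 hπ, x1⟩)
    · refine Or.inr ((xw w c h).trans_le ?_)
      rw [mul_left_comm, ← Nat.cast_pow]
      exact le w _ _
  have s2 : sy (kq j k π) fr x = -1 := sy_kq (x := Units.mk0 x x0) hfr e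
    (S := {w | (D' : 𝓞 K) ∈ w.asIdeal}) (up v Dv) off (fun w h => by
      by_cases c : w = v
      · exact c ▸ x1
      · simpa using (w.valuation K).map_one_add_of_lt ((xw w c h).trans_le (l1 w)))
    (fun c => u2 ((Subgroup.mul_mem_cancel_left _ (Subgroup.mem_sup_right (LS_of_close
      (x := Units.mk0 x x0 / u) ?_))).1 (by rwa [div_mul_cancel]))) fun w h c =>
    LS_of_close ((xw w c h).trans_le (by
      rw [← mul_assoc, mul_comm]
      exact le w 4 _))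
  · rw [sy_mul _ _ _ x0, s2, mul_neg, mul_one, neg_eq_iff_eq_neg] at s1
    exact s1
  · rw [val_four t, Units.val_div_eq_div_val, div_sub_one u.ne_zero, map_div₀, u1, div_one]
    exact xv.trans_le (l1 v)

end Vale.Agent.P022K.PB.Lb
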