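import Vale.Agent.P022K.Ex.Kum
import Vale.Agent.P022K.CH.Tame
import Vale.Agent.P022K.F0.HilbB
import Vale.Agent.P022K.F0.TorF

/-!
# P022K, block PB: quadratic Kummer characters, Hilbert symbols and tame inertia
-/

set_option linter.all false

open NumberField IsDedekindDomain WithZero
open scoped Pointwise

noncomputable section

namespace Vale.Agent.P022K.PB.Lb

open Vale.Agent.P022 Vale.Agent.P022.C Vale.Agent.P022.H916
open Vale.Agent.P022.H443 (inP)
open Vale.Agent.P027M.S (Pr Inert)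
open Vale.Agent.P022D.W (dec)
open Vale.Agent.P022E.GW (Ov)
open Vale.Agent.P022E.GW.Kc (nat_mem prime_mem)
open Vale.Agent.P022K.Exi
open Vale.Agent.P022K.CH.Loc (WMod chi_data)
open Vale.Agent.P022K.Hilb (LN LN_top hilb unif admC_of even_of odd_of)
open Vale.Agent.P011.Arith (LS NF Sq_le_LS LS_of_close)
open Vale.Agent.P022K.Sh.Tor (val_le val_one val_nat mem_iff ordv_one crt1 fin_nat)

variable {K : Type} [Field K] [NumberField K] {j : K →+* Qb} {v : Pr K} {P : Ideal (𝓞 Qb)}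

/-- the tame inertia group of `K` is cyclic at finite level -/
theorem cyc (H U : Subgroup GQ) [U.Normal] (hU : IsOpen (U : Set GQ)) {l : ℕ} (h : Ov l P) :
    ∃ τ ∈ inP P ⊓ H, ∀ g ∈ inP P ⊓ H, ∃ n : ℕ, WMod l U ((τ ^ n)⁻¹ * g) := by
  obtain ⟨k, _, _, χ, hfin, h1, -⟩ := chi_data U hU h
  let χ' := χ.toHomUnits.comp (Subgroup.inclusion (inf_le_left : inP P ⊓ H ≤ inP P))
  have hfin' : Finite χ'.range := by
    have := hfin.to_subtype
    refine Finite.of_injective (β := Set.range χ)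
      (fun x => ⟨(x.1 : k), by obtain ⟨g, hg⟩ := x.2; exact ⟨_, by rw [← hg]; rfl⟩⟩) ?_
    intro x y h
    exact Subtype.ext (Units.ext (Subtype.ext_iff.1 h))
  have hc : IsCyclic χ'.range := isCyclic_of_injective_ringHom
    ((Units.coeHom k).comp χ'.range.subtype) (fun x y h => Subtype.ext (Units.ext h))
  obtain ⟨⟨_, τ, rfl⟩, hτ⟩ := IsCyclic.exists_monoid_generator (α := χ'.range)
  refine ⟨τ, τ.2, fun g hg => ?_⟩
  obtain ⟨n, hn⟩ := hτ ⟨χ' ⟨g, hg⟩, _, rfl⟩
  have hn' : χ' τ ^ n = χ' ⟨g, hg⟩ := congrArg Subtype.val hn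
  have : χ' ((τ ^ n)⁻¹ * ⟨g, hg⟩) = 1 := by rw [map_mul, map_inv, map_pow, hn', inv_mul_cancel]
  exact ⟨n, (h1 (Subgroup.inclusion (inf_le_left : inP P ⊓ H ≤ inP P)
    ((τ ^ n)⁻¹ * (⟨g, hg⟩ : ↥(inP P ⊓ H))))).1 (congrArg Units.val this :)⟩

/-- one tame generator for finitely many characters of order prime to `l` on inertia -/
theorem tam {A B : Type} [CommGroup A] [CommGroup B] (α : GK j →* A) (β : GK j →* B)
    (ha : IsOpen (α.ker : Set (GK j))) (hb : IsOpen (β.ker : Set (GK j))) {l e : ℕ} (h : Ov l P)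
    (he : ¬ l ∣ e) (a : ∀ g, InI j P g → α g ^ e = 1) (b : ∀ g, InI j P g → β g ^ e = 1) :
    ∃ τ, InI j P τ ∧ ∀ g, InI j P g → ∃ n : ℕ, α g = α τ ^ n ∧ β g = β τ ^ n := by
  obtain ⟨τ, hτ, k⟩ := cyc (GK j) (kerQ j α ⊓ kerQ j β).normalCore
    (GW.Pl.core_open ((isOpen_kerQ j ha).inter (isOpen_kerQ j hb))) h
  refine ⟨⟨τ, hτ.2⟩, hτ.1, fun g hg => ?_⟩
  obtain ⟨n, m, hm⟩ := k g ⟨hg, g.2⟩
  have c : (l ^ m).Coprime e := ((h.1.coprime_iff_not_dvd).2 he).pow_left m
  let u : GK j := ((⟨τ, hτ.2⟩ : GK j) ^ n)⁻¹ * g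
  have iu : InI j P u := (inP P).mul_mem ((inP P).inv_mem ((inP P).pow_mem hτ.1 n)) hg
  have hu := Subgroup.normalCore_le _ hm
  have h1 : α (u ^ l ^ m) = 1 := (mem_kerQ j α _).1 hu.1
  have h2 : β (u ^ l ^ m) = 1 := (mem_kerQ j β _).1 hu.2
  rw [map_pow] at h1 h2
  have h3 := (pow_eq_one_iff_of_coprime c).1 ⟨h1, a u iu⟩
  have h4 := (pow_eq_one_iff_of_coprime c).1 ⟨h2, b u iu⟩
  rw [map_mul, map_inv, map_pow, inv_mul_eq_one] at h3 h4
  exact ⟨n, h3.symm, h4.symm⟩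

/-- the values on inertia do not depend on the prime above `v` -/
theorem mv {A : Type} [CommGroup A] (α : GK j →* A) {P' : Ideal (𝓞 Qb)} (hP : P.IsPrime)
    (hP' : P'.IsPrime) (e : below j P = below j P') {g : GK j} (hg : InI j P' g) :
    ∃ g', InI j P g' ∧ α g' = α g := by
  obtain ⟨s, rfl⟩ := exists_smul j hP hP' e
  refine ⟨s⁻¹ * g * s, ?_, by rw [map_mul, map_mul, map_inv, inv_mul_cancel_comm]⟩
  have := GW.Pl.inert_conj (show Inert _ g.1 from hg) (s : GQ)⁻¹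
  rwa [inv_smul_smul, inv_inv] at this

theorem prim : IsPrimitiveRoot (-1 : Qb) 2 := IsPrimitiveRoot.neg_one 0 (by norm_num)

theorem fixn (g : GK j) : g.1 (-1) = -1 := by rw [map_neg, map_one]

variable (k : Type) [Field k] in
/-- the sign -/
def sg : Multiplicative (ZMod 2) →* kˣ :=
  MonoidHom.mk' (fun a => (-1) ^ a.toAdd.val) fun a b => by
    rw [toAdd_mul, ZMod.val_add, ← pow_add]
    exact (pow_eq_pow_mod _ (neg_one_sq (R := kˣ))).symm

variable (j) (k : Type) [Field k] in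
/-- the character of `K(√b)` -/
def kq (b : Kˣ) : GK j →* kˣ := (sg k).comp (ka prim fixn b)

variable {k : Type} [Field k]

theorem two_cases (a : Multiplicative (ZMod 2)) : a = 1 ∨ a = Multiplicative.ofAdd 1 := by
  revert a
  decide

theorem kq_of_ne {b : Kˣ} {g : GK j} (h : ka prim fixn b g ≠ 1) : kq j k b g = -1 := by
  rw [kq, MonoidHom.comp_apply, (two_cases _).resolve_left h]
  exact pow_one _

theorem kq_of_eq {b : Kˣ} {g : GK j} (h : ka prim fixn b g = 1) : kq j k b g = 1 := by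
  rw [kq, MonoidHom.comp_apply, h, map_one]

theorem kq_sq (b : Kˣ) (g : GK j) : kq j k b g ^ 2 = 1 := by
  rw [kq, MonoidHom.comp_apply, ← map_pow, pow_self, map_one]

theorem kq_open (b : Kˣ) : IsOpen ((kq j k b).ker : Set (GK j)) :=
  Subgroup.isOpen_mono (H₁ := (ka prim fixn b).ker) (fun _ h => kq_of_eq h) (ka_open prim fixn b)

theorem ov_of (hP : P.IsPrime) (hv : below j P = v.asIdeal) (t : (2 : 𝓞 K) ∉ v.asIdeal) :
    ∃ l, Ov l P ∧ ¬ l ∣ 2 := by
  obtain ⟨l, hl, m⟩ := prime_mem v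
  exact ⟨l, ⟨hl, hP, (nat_mem j hv l).1 m⟩, fun d =>
    t (v.asIdeal.mem_of_dvd (Nat.cast_dvd_cast (α := 𝓞 K) d) m)⟩

theorem val_four (t : (2 : 𝓞 K) ∉ v.asIdeal) : v.valuation K (4 : K) = 1 := by
  have : v.valuation K (2 : K) = 1 := val_nat (n := 2) t
  rw [show (4 : K) = 2 * 2 by norm_num, map_mul, this, one_mul]

/-- local squares at an odd prime -/
theorem ls_iff (t : (2 : 𝓞 K) ∉ v.asIdeal) {b : Kˣ} {a : 𝓞 K} (e : (b : K) = a)
    (ha : a ∉ v.asIdeal) :
    b ∈ LS (v.valuation K) ↔ IsSquare (Ideal.Quotient.mk v.asIdeal a) := by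
  have a1 : v.valuation K (b : K) = 1 := e ▸ val_one ha
  constructor
  · rintro ⟨y, hy⟩
    rw [val_four t] at hy
    have h1 := (v.valuation K).map_one_add_of_lt hy
    rw [add_sub_cancel, map_div₀, a1, map_pow, one_div, inv_eq_one] at h1
    have y1 : v.valuation K (y : K) = 1 := by
      rcases lt_trichotomy (v.valuation K (y : K)) 1 with c | c | c
      · exact absurd h1 (pow_lt_one₀ zero_le c two_ne_zero).ne
      · exact c
      · exact absurd h1 (one_lt_pow₀ c two_ne_zero).ne'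
    obtain ⟨r, hr⟩ := Sh.Tor.crt0 (Set.finite_singleton v) (fun _ => (y : K)) (fun _ => 1)
      (fun _ c => c ▸ y1.le) fun _ => one_ne_zero
    have hr := hr v rfl
    refine ⟨Ideal.Quotient.mk _ r, ?_⟩
    rw [← map_mul, Ideal.Quotient.eq, mem_iff]
    have e1 : ((a - r * r : 𝓞 K) : K) = (y : K) ^ 2 * (b / (y : K) ^ 2 - 1) -
        ((r : K) - y) * ((r : K) + y) := by
      have := y.ne_zero
      push_cast
      rw [e]
      field_simp
      ring
    rw [e1]
    refine Valuation.map_sub_lt _ (by rwa [map_mul, map_pow, y1, one_pow, one_mul]) ?_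
    rw [map_mul]
    exact mul_lt_one_of_nonneg_of_lt_one_left zero_le hr
      (Valuation.map_add_le _ (val_le v r) y1.le)
  · rintro ⟨r, hr⟩
    obtain ⟨r, rfl⟩ := Ideal.Quotient.mk_surjective r
    rw [← map_mul, Ideal.Quotient.eq] at hr
    have r1 : r ∉ v.asIdeal := fun c => ha (by
      simpa using v.asIdeal.add_mem hr (v.asIdeal.mul_mem_left r c))
    have r2 := val_one r1
    have r0 : (r : K) ≠ 0 := fun c => by simp [c] at r2
    refine ⟨Units.mk0 _ r0, ?_⟩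
    have e1 : (b : K) / (r : K) ^ 2 - 1 = ((a - r * r : 𝓞 K) : K) / (r : K) ^ 2 := by
      push_cast
      rw [e]
      field_simp
    rw [Units.val_mk0, e1, val_four t, map_div₀, map_pow, r2, one_pow, div_one]
    exact (mem_iff _ _).1 hr

/-- the value at a Frobenius element -/
theorem fr_iff (t : (2 : 𝓞 K) ∉ v.asIdeal) {b : Kˣ} {a : 𝓞 K} (e : (b : K) = a)
    (ha : a ∉ v.asIdeal) {g : GK j} (hg : FrI j v P g) :
    ka prim fixn b g = 1 ↔ b ∈ LS (v.valuation K) := by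
  have := v.isMaximal
  letI := Ideal.Quotient.field v.asIdeal
  have : Finite (𝓞 K ⧸ v.asIdeal) := Ideal.finiteQuotientOfFreeOfNeBot _ v.ne_bot
  letI := Fintype.ofFinite (𝓞 K ⧸ v.asIdeal)
  have c2 : ringChar (𝓞 K ⧸ v.asIdeal) ≠ 2 := fun c => t (Ideal.Quotient.eq_zero_iff_mem.1 (by
    have := ringChar.Nat.cast_ringChar (R := 𝓞 K ⧸ v.asIdeal)
    rw [c] at this
    exact this))
  have q : Ideal.absNorm v.asIdeal = Fintype.card (𝓞 K ⧸ v.asIdeal) :=
    Nat.card_eq_fintype_card (α := 𝓞 K ⧸ v.asIdeal)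
  have od := FiniteField.odd_card_of_char_ne_two c2
  obtain ⟨y, hy⟩ := ex_root 2 (j b)
  have e' : y ^ 2 = RingOfIntegers.mapRingHom j a := by rw [hy, e]; rfl
  let z : 𝓞 Qb := ⟨y, IsIntegral.of_pow two_pos (e' ▸ RingOfIntegers.isIntegral_coe _)⟩
  have ez : z ^ 2 = RingOfIntegers.mapRingHom j a := RingOfIntegers.ext e'
  have mem : ∀ x : 𝓞 K, x ∈ v.asIdeal ↔ RingOfIntegers.mapRingHom j x ∈ P := fun x => by
    rw [← hg.2.1]; rfl
  have z0 : z ∉ P := fun c => ha ((mem a).2 (ez ▸ P.pow_mem_of_mem c 2 two_pos))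
  set m := Fintype.card (𝓞 K ⧸ v.asIdeal) / 2
  have h1 : g.1 • z - z * RingOfIntegers.mapRingHom j a ^ m ∈ P := by
    have := hg.2.2 z
    rwa [q, show Fintype.card (𝓞 K ⧸ v.asIdeal) = 2 * m + 1 by omega, pow_succ', pow_mul,
      ez] at this
  rw [ls_iff t e ha, FiniteField.isSquare_iff c2 (mt Ideal.Quotient.eq_zero_iff_mem.1 ha),
    ← map_pow, ← map_one (Ideal.Quotient.mk v.asIdeal), Ideal.Quotient.eq, mem, map_sub, map_pow,
    map_one]
  refine ⟨fun c => ?_, fun c => by_contra fun n => ?_⟩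
  · rw [show g.1 • z = z from RingOfIntegers.ext ((ka_one prim fixn hy).1 c)] at h1
    refine (hg.1.mem_or_mem (?_ : z * _ ∈ P)).resolve_left z0
    convert P.neg_mem h1 using 1
    ring
  · have e2 := ka_law prim fixn b g hy
    rw [(two_cases _).resolve_left n] at e2
    rw [show g.1 • z = -z from RingOfIntegers.ext (e2.trans (by
      show (-1) ^ 1 * y = -y
      ring))] at h1
    refine t ((mem 2).2 ((hg.1.mem_or_mem (?_ : z * _ ∈ P)).resolve_left z0))
    convert P.neg_mem (P.add_mem h1 (P.mul_mem_left z c)) using 1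
    rw [map_ofNat]
    ring

/-- the local norms at an odd prime where `a` is a unit -/
theorem ln_iff (t : (2 : 𝓞 K) ∉ v.asIdeal) {a : Kˣ} (h1 : v.valuation K (a : K) = 1) (x : Kˣ) :
    x ∈ LN a (.inl v) ↔ a ∈ LS (v.valuation K) ∨ Even (ordv v (x : K)) := by
  by_cases s : a ∈ LS (v.valuation K)
  · simp [s, LN_top (p := .inl v) s]
  have he : (a : K) = 1 + 4 * (((a : K) - 1) / 4) := by ring
  have A := admC_of he (by
    rw [map_div₀, val_four t, div_one]
    exact Valuation.map_sub_le _ h1.le (map_one _).le) h1 s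
  rw [or_iff_right s, ordv, even_neg]
  exact ⟨even_of he A, fun k => by_contra fun n => Int.not_even_iff_odd.2 (odd_of he A n) k⟩

/-- a unit which is not a local norm from `K(√π)` -/
theorem ex_unit {π : Kˣ} (h : ordv v (π : K) = 1) :
    ∃ u : Kˣ, v.valuation K (u : K) = 1 ∧ u ∉ LN π (.inl v) := by
  have h0 : v.valuation K (π : K) = exp (-1) := by rw [P027M.S.Cls.val_eq v π.ne_zero, h]
  have h1 := P011.Arith.local_index_two v π (P011.Arith.Sch.not_mem_LS_of_odd v π h0)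
  obtain ⟨y, hy⟩ : ∃ y, y ∉ LN π (.inl v) := by_contra fun c => by
    rw [show NF π ⊔ LS (v.valuation K) = ⊤ from eq_top_iff.2 fun y _ => by_contra fun n =>
      c ⟨y, n⟩, Subgroup.index_top] at h1
    omega
  refine ⟨y * (-π) ^ (-ordv v (y : K)), ?_, fun c => hy ((Subgroup.mul_mem_cancel_right _
    (zpow_mem (Subgroup.mem_sup_left (P011.Arith.Sch.neg_mem_NF π)) _)).1 c)⟩
  rw [Units.val_mul, Units.val_zpow_eq_zpow_val, map_mul, map_zpow₀, Units.val_neg,
    Valuation.map_neg, h0, P027M.S.Cls.val_eq v y.ne_zero, ← exp_zsmul, ← exp_add, ← exp_zero]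
  congr 1
  simp

end Vale.Agent.P022K.PB.Lb
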