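import Vale.Agent.P022K.PB.Pw
import Vale.Agent.P022K.PB.Lb
import Vale.Agent.P022K.F0.Torn2
import Vale.Agent.P022K.F0.Typ
import Vale.Agent.P022K.F0.Kron2
import Vale.Agent.P022K.F0.Yex

/-!
# P022K / PB: the local components of a Hecke character, from the Galois side
-/

set_option autoImplicit false
set_option linter.all false

open NumberField IsDedekindDomain WithZero Filter

noncomputable section

namespace Vale.Agent.P022K.PB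

open Vale.Agent.P022 Vale.Agent.P022.C
open Vale.Agent.P022K.Sh Vale.Agent.P022K.Sh.Tor

variable {F E : Type} [Field F] [NumberField F] [Field E] [NumberField E] [Algebra F E]
  {j : E →+* Qb} {k : Type} [Field k]

/-- the component of `Ψ` at `D` is given by the Galois character `θ` -/
structure Gs (C : CM F E) (Ψ : Pl E → ℂˣ) (θ : GK j →* kˣ) (fr : Pl E → GK j) (T : kˣ →* ℂˣ)
    (q n : ℕ) : Prop where
  hk : C.Hk Ψ
  opn : IsOpen (θ.ker : Set (GK j))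
  hfr : ∀ v, ∃ P, FrI j v P (fr v)
  inj : Function.Injective T
  qp : q.Prime
  n0 : 0 < n
  ord : ∀ g, θ g ^ n = 1
  qD : ¬ q ∣ C.D
  un : ∀ v : Pl E, ((q * C.D : ℕ) : 𝓞 E) ∉ v.asIdeal → Un θ v
  ep : ∀ γ ∈ C.G, (∀ P : Pl E, (q : 𝓞 E) ∈ P.asIdeal → P.valuation E ((γ : E) - 1) < 1) →
    C.eps Ψ γ = (T (sy θ fr γ)⁻¹ : ℂˣ)

namespace Lo

theorem emp (C : CM F E) : IsEmpty (E →+* ℝ) := ⟨fun φ => by
  have h := C.cj (Complex.ofRealHom.comp φ) C.δ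
  rw [C.cδ, map_neg, RingHom.comp_apply, Complex.ofRealHom_eq_coe, Complex.conj_ofReal,
    neg_eq_self, Complex.ofReal_eq_zero, map_eq_zero] at h
  exact C.δ0 h⟩

theorem cop {a b : ℕ} (h : a.Coprime b) {P : Pl E} (ha : (a : 𝓞 E) ∈ P.asIdeal) :
    (b : 𝓞 E) ∉ P.asIdeal := fun hb => by
  obtain ⟨x, y, e⟩ := (Nat.isCoprime_iff_coprime.2 h).map (Int.castRingHom (𝓞 E))
  simp only [Int.coe_castRingHom, Int.cast_natCast] at e
  exact P.isPrime.ne_top ((Ideal.eq_top_iff_one _).2 (e ▸ P.asIdeal.add_mem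
    (P.asIdeal.mul_mem_left _ ha) (P.asIdeal.mul_mem_left _ hb)))

theorem nz (P : Pl E) {m : ℕ} (h : m ≠ 0) : P.valuation E (m : E) ≠ 0 :=
  (Valuation.ne_zero_iff _).2 (Nat.cast_ne_zero.2 h)

theorem opn_pow {θ : GK j →* kˣ} (h : IsOpen (θ.ker : Set (GK j))) (m : ℕ) :
    IsOpen ((θ ^ m).ker : Set (GK j)) :=
  Subgroup.isOpen_mono (H₁ := θ.ker) (fun g k => by
    rw [MonoidHom.mem_ker, MonoidHom.pow_apply, show θ g = 1 from k, one_pow]) h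

theorem un_pow {θ : GK j →* kˣ} {v : Pl E} (h : Un θ v) (m : ℕ) : Un (θ ^ m) v :=
  fun P a b g c => by rw [MonoidHom.pow_apply, h P a b g c, one_pow]

theorem sy_pow (θ : GK j →* kˣ) (fr : Pl E → GK j) {x : E} (hx : x ≠ 0) (m : ℕ) :
    sy (θ ^ m) fr x = sy θ fr x ^ m := pw_pow' (fun v => θ (fr v)) hx m

/-- powers of a principal unit -/
theorem step {P : Pl E} {l : ℕ} (hl : (l : 𝓞 E) ∈ P.asIdeal) {x : E}
    (h : P.valuation E (x - 1) < 1) (r : ℕ) :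
    P.valuation E (x ^ l ^ r - 1) ≤ exp (-(r + 1 : ℤ)) := by
  have one : ∀ {y : ℤᵐ⁰}, y < 1 → y ≤ exp (-1 : ℤ) := fun {y} hy => by
    by_cases y0 : y = 0
    · exact y0 ▸ zero_le
    · rw [← exp_log y0, ← exp_zero, exp_lt_exp] at hy
      rw [← exp_log y0, exp_le_exp]
      omega
  induction r with
  | zero => simpa using one h
  | succ r ih =>
    have lt : P.valuation E (x ^ l ^ r - 1) < 1 := ih.trans_lt (by
      rw [← exp_zero, exp_lt_exp]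
      omega)
    have s : P.valuation E (∑ i ∈ Finset.range l, (x ^ l ^ r) ^ i) < 1 := by
      rw [show ∑ i ∈ Finset.range l, (x ^ l ^ r) ^ i =
        l + ∑ i ∈ Finset.range l, ((x ^ l ^ r) ^ i - 1) by simp]
      refine Valuation.map_add_lt _ (val_nat_lt hl) (Valuation.map_sum_lt _ one_ne_zero
        fun i _ => ?_)
      rw [← mul_geom_sum, map_mul]
      refine (mul_le_of_le_one_right' (Valuation.map_sum_le _ fun t _ => ?_)).trans_lt lt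
      rw [map_pow, val_of_lt lt, one_pow]
    rw [pow_succ, pow_mul, ← mul_geom_sum, map_mul]
    refine (mul_le_mul' ih (one s)).trans_eq ?_
    rw [← exp_add]
    congr 1

variable {C : CM F E} {Ψ : Pl E → ℂˣ} {w : Pl F}

theorem two_of (a : 2 * C.a ∉ w.asIdeal) : (2 : 𝓞 F) ∉ w.asIdeal :=
  fun h => a (w.asIdeal.mul_mem_right _ h)

/-- a character of order a power of two is tame at an odd place -/
theorem tame (hk : C.Hk Ψ) (hw : (C.D : 𝓞 F) ∈ w.asIdeal) (t : (2 : 𝓞 F) ∉ w.asIdeal) {m : ℕ}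
    {γ : C.G} (hγ : γ ∈ C.G1 {P | ¬ Ab w P}) (hp : C.eps Ψ (γ : Eˣ) ^ 2 ^ m = 1)
    (h : ∀ P : Pl E, Ab w P → P.valuation E (((γ : Eˣ) : E) - 1) < 1) :
    C.eps Ψ (γ : Eˣ) = 1 := by
  obtain ⟨e, l, o, hD⟩ := Nat.exists_eq_two_pow_mul_odd C.D0
  have hl : (l : 𝓞 F) ∈ w.asIdeal := by
    rw [hD, Nat.cast_mul, Nat.cast_pow] at hw
    exact (w.isPrime.mem_or_mem hw).resolve_left fun z => t (w.isPrime.mem_of_pow_mem _ z)
  obtain ⟨r, hr⟩ := ((eventually_all_finite (fin_nat (E := E) C.D0)).2 fun P _ =>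
    (eventually_ge_atTop (-log (P.valuation E (C.D : E))).toNat).mono fun r hr =>
      show exp (-(r + 1 : ℤ)) ≤ P.valuation E (C.D : E) by
        rw [← exp_log (nz P C.D0), exp_le_exp]
        omega).exists
  have h1 : C.eps Ψ (γ : Eˣ) ^ l ^ r = 1 :=
    ((Nel.eH C Ψ).map_pow γ _).symm.trans (C.eps_one hk fun P _ d => by
      by_cases a : Ab w P
      · exact (step ((a.nat _).2 hl) (h P a) r).trans (hr P d)
      · exact pow_mem hγ _ P a d)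
  rw [← pow_one (C.eps Ψ _), ← Nat.Coprime.gcd_eq_one
    ((Nat.coprime_two_left.2 o).pow m r), pow_gcd_eq_one]
  exact ⟨hp, h1⟩

end Lo

open Lo

/-- the restriction to `F_w` is not ramified -/
theorem kw_of {C : CM F E} {Ψ : Pl E → ℂˣ} (hk : C.Hk Ψ) (kp : Kp C Ψ)
    (ev : Even (Module.finrank ℚ F)) {v : Pl F} (ns : ¬ IsSquare (algebraMap (𝓞 F) (Fw v) C.a))
    {Δ : ℕ} (md : Δ % 4 = 3) (ha : C.a = -(Δ : 𝓞 F)) {w : Pl F} (hw : (C.D : 𝓞 F) ∈ w.asIdeal)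
    (a : 2 * C.a ∉ w.asIdeal) : ∃ κ, Kw C Ψ w κ := by
  obtain ⟨Y, -⟩ := yex F E C v ev ns
  have := kron2 F E Y C Ψ hk kp Δ md ha w hw (by
    rw [ordv_one (val_nat fun z => a (ha ▸ w.asIdeal.mul_mem_left _ (neg_mem z)))]
    exact Even.zero)
  by_cases s : IsSquare (algebraMap (𝓞 F) (Fw w) C.a)
  exacts [⟨_, this.1 s⟩, ⟨_, this.2 s⟩]

namespace Gs

variable {C : CM F E} {Ψ : Pl E → ℂˣ} {θ : GK j →* kˣ} {fr : Pl E → GK j} {T : kˣ →* ℂˣ}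
  {q n : ℕ} (G : Gs C Ψ θ fr T q n) {w : Pl F}
include G

theorem qd0 : q * C.D ≠ 0 := mul_ne_zero G.qp.ne_zero C.D0

theorem nab (hw : (C.D : 𝓞 F) ∈ w.asIdeal) {P : Pl E} (h : (q : 𝓞 E) ∈ P.asIdeal) : ¬ Ab w P :=
  fun a => cop (G.qp.coprime_iff_not_dvd.2 G.qD) h ((a.nat _).2 hw)

theorem eps_pow (x : C.G) (h : ∀ P : Pl E, (q : 𝓞 E) ∈ P.asIdeal →
    P.valuation E (((x : Eˣ) : E) - 1) < 1) (m : ℕ) :
    C.eps Ψ (x : Eˣ) ^ m = (T (sy (θ ^ m) fr (x : Eˣ))⁻¹ : ℂˣ) := by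
  rw [G.ep _ x.2 h, sy_pow _ _ (Units.ne_zero _), ← inv_pow, map_pow, Units.val_pow_eq_pow_val]

/-- **pow** -/
theorem pow (w : Pl F) (m : ℕ) (h : ∀ v, Ab w v → Un (θ ^ m) v) :
    ∀ γ ∈ C.G1 {P | ¬ Ab w P}, C.eps Ψ ((γ : C.G) : Eˣ) ^ m = 1 := fun γ hγ => by
  by_cases hw : (C.D : 𝓞 F) ∈ w.asIdeal
  swap
  · rw [C.eps_one G.hk fun P _ d => hγ P (fun a : Ab w P => hw ((a.nat _).1 d)) d, one_pow]
  have := emp C
  have N0 : 0 < q * n ^ 2 := Nat.mul_pos G.qp.pos (Nat.pow_pos G.n0)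
  obtain ⟨x, x1, x2⟩ := enl_apx C N0 (S := {P | ¬ Ab w P})
    (fun P a => ((not_not.1 a : Ab w P).nat _).2 hw) hγ
  have dp : ∀ P : Pl E, ((q * C.D : ℕ) : 𝓞 E) ∈ P.asIdeal → ¬ Ab w P →
      P.valuation E (((x : Eˣ) : E) - 1) < P.valuation E ((n : E) ^ 2) := fun P d a => by
    have e : (enl C _ N0).D = n ^ 2 * (q * C.D) := by
      show C.D * (q * n ^ 2) = _
      ring
    refine (x1 P a (by rw [e, Nat.cast_mul]; exact P.asIdeal.mul_mem_left _ d)).trans_lt ?_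
    rw [e, Nat.cast_mul, map_mul, Nat.cast_pow]
    exact mul_lt_of_lt_one_right (zero_lt_iff.2 (by
      rw [← Nat.cast_pow]; exact nz P (pow_ne_zero 2 G.n0.ne'))) (val_nat_lt d)
  have s1 : sy (θ ^ m) fr ((enlG C N0 x : Eˣ) : E) = 1 := by
    refine pwl (θ ^ m) (opn_pow G.opn m) G.hfr G.n0 (fun g => ?_) G.qd0
      (fun v a => un_pow (G.un v a) m) (Units.ne_zero _) fun v d => ?_
    · rw [MonoidHom.pow_apply, pow_right_comm, G.ord, one_pow]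
    · by_cases a : Ab w v
      · exact Or.inl ⟨h v a, (enlG C N0 x).2 v ((a.nat _).2 hw)⟩
      · exact Or.inr (dp v d a)
  have s2 := G.eps_pow (enlG C N0 x) (fun P d => (dp P (by
      rw [Nat.cast_mul]; exact P.asIdeal.mul_mem_right _ d) (G.nab hw d)).trans_le (by
      rw [map_pow]; exact pow_le_one' (val_nat_le P n) 2)) m
  rw [← eps_eq G.hk x2, s2, s1, inv_one, map_one, Units.val_one]

/-- **Ms** -/
theorem ms (w : Pl F) (h : ∀ v, Ab w v → Un θ v) : Ms C Ψ w := fun γ hγ =>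
  (pow_one _).symm.trans (G.pow w 1 (fun v a => un_pow (h v a) 1) γ hγ)

/-- **ex** -/
theorem ex (hw : (C.D : 𝓞 F) ∈ w.asIdeal) (t : (2 : 𝓞 F) ∉ w.asIdeal) (m : ℕ) {v : Pl E}
    (a : Ab w v) (h2 : Un (θ ^ (2 * m)) v) (h1 : ¬ Un (θ ^ m) v) :
    ∃ γ ∈ C.G1 {P | ¬ Ab w P}, C.eps Ψ ((γ : C.G) : Eˣ) ^ m = -1 := by
  have := emp C
  simp only [Un, not_forall] at h1
  obtain ⟨P, hP, hv, g, hg, h1⟩ := h1
  have sq : ∀ g, InI j P g → (θ ^ m) g ^ 2 = 1 := fun g b => by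
    rw [MonoidHom.pow_apply, ← pow_mul, mul_comm]
    exact h2 P hP hv g b
  have up : ∀ {P : Pl E}, (C.D : 𝓞 E) ∈ P.asIdeal → ((q * C.D : ℕ) : 𝓞 E) ∈ P.asIdeal :=
    fun {P} d => by rw [Nat.cast_mul]; exact P.asIdeal.mul_mem_left _ d
  obtain ⟨x, x0, x1, x2, x3⟩ := Lb.lb_of G.hfr
    (fun θ o n D x a b c d e f => pwl θ o G.hfr a b c d e f) (opn_pow G.opn m) hP hv
    (fun z => t ((a.nat 2).1 z)) sq ⟨g, hg, h1⟩ G.qd0 (up ((a.nat _).2 hw))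
    (fun u b => un_pow (G.un u b) m) C.D0
  have xG : Units.mk0 x x0 ∈ C.G := fun Q d => by
    by_cases e : Q = v
    · exact e ▸ x1
    · exact val_of_cong d (x2 Q e (up d)).le
  have s1 := G.eps_pow ⟨_, xG⟩ (fun Q d => (x2 Q (fun e => G.nab hw d (e ▸ a)) (by
    rw [Nat.cast_mul]; exact Q.asIdeal.mul_mem_right _ d)).trans_le (val_nat_le Q _)) m
  have x4 : sy (θ ^ m) fr x = -1 := x3
  have n1 : (-1 : kˣ) ≠ 1 := fun e => h1 (by
    rcases sq_eq_one_iff.1 (show (((θ ^ m) g : kˣ) : k) ^ 2 = 1 by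
      rw [← Units.val_pow_eq_pow_val, sq g hg, Units.val_one]) with z | z
    exacts [Units.ext z, (Units.ext z : _ = (-1 : kˣ)).trans e])
  have s2 : (T (-1) : ℂ) ^ 2 = 1 := by
    rw [← Units.val_pow_eq_pow_val, ← map_pow, neg_one_sq, map_one, Units.val_one]
  refine ⟨⟨_, xG⟩, fun Q b d => (x2 Q (fun e => b (e ▸ a)) (up d)).le, s1.trans ?_⟩
  rw [Units.val_mk0, x4, inv_neg, inv_one]
  exact (sq_eq_one_iff.1 s2).resolve_left fun z =>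
    n1 (G.inj ((Units.ext z).trans (map_one T).symm))

/-- the two inputs of the canonical type -/
theorem pe (hw : (C.D : 𝓞 F) ∈ w.asIdeal) (a : 2 * C.a ∉ w.asIdeal) {r : ℕ} (hr : 2 ≤ r)
    (h2 : ∀ v, Ab w v → Un (θ ^ 2 ^ r) v) (h1 : ∃ v, Ab w v ∧ ¬ Un (θ ^ 2 ^ (r - 1)) v) :
    (∀ γ ∈ C.G1 {P | ¬ Ab w P}, C.eps Ψ ((γ : C.G) : Eˣ) ^ 2 ^ r = 1) ∧
      ∃ γ ∈ C.G1 {P | ¬ Ab w P}, C.eps Ψ ((γ : C.G) : Eˣ) ^ 2 ^ (r - 1) ≠ 1 := by
  obtain ⟨v, b, h1⟩ := h1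
  obtain ⟨γ, c, d⟩ := G.ex hw (two_of a) _ b (by
    rw [← pow_succ', Nat.sub_add_cancel (by omega)]; exact h2 v b) h1
  exact ⟨G.pow w _ h2, γ, c, by rw [d]; norm_num⟩

/-- **Mr** -/
theorem mr {κ : ℂ} (kw : Kw C Ψ w κ) (hw : (C.D : 𝓞 F) ∈ w.asIdeal) (a : 2 * C.a ∉ w.asIdeal)
    (ns : ¬ IsSquare (algebraMap (𝓞 F) (Fw w) C.a)) {r : ℕ} (hr : 2 ≤ r)
    (h2 : ∀ v, Ab w v → Un (θ ^ 2 ^ r) v) (h1 : ∃ v, Ab w v ∧ ¬ Un (θ ^ 2 ^ (r - 1)) v) :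
    Mr C Ψ w := by
  obtain ⟨p1, γ, c, d⟩ := G.pe hw a hr h2 h1
  refine ⟨hw, a, ns, fun x b e => tame G.hk hw (two_of a) b (p1 x b) e, γ, c, fun e => d ?_⟩
  have := Ty.eps_nm hw kw c
  rw [← e, ← sq] at this
  rw [show r - 1 = r - 2 + 1 by omega, pow_succ', pow_mul, this, one_pow]

end Gs

end Vale.Agent.P022K.PB
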