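import Vale.Agent.P022K.PB.Th
import Vale.Agent.P022K.PB.Loc
import Vale.Agent.P022K.PB.HchA
import Vale.Agent.P022K.F0.Saut2

/-!
# P022K / PB: residual dihedral representations are automorphic
-/

set_option autoImplicit false
set_option linter.all false

open NumberField IsDedekindDomain Matrix
open scoped Pointwise

noncomputable section

namespace Vale.Agent.P022K.PB

open Vale.Agent.P022 Vale.Agent.P022.C CH CH.Weil Sh Sh.Tor
open Vale.Agent.P022.H443 (inP)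
open Vale.Agent.P022D.W (dec inP_le_dec)
open Vale.Agent.P022E.GW (Ov Fb)
open Vale.Agent.P022E.GW.Kc (nat_mem prime_mem)
open Vale.Agent.P022K.Top (Cf2 Prin)
open Vale.Agent.P022K.Top.Pm (Qd Dg An Mo Aq Tk Dh SDX)

open Classical in
/-- **HCH**: Hecke characters with prescribed reduction -/
def HCH : Prop := ∀ (q : ℕ) [Fact q.Prime] (F E : Type) [Field F] [NumberField F] [Field E]
  [NumberField E] [Algebra F E] (C : CM F E) (Δ : ℕ) (io : Qb →+* ℂ) (ι : Qb →+* Cp q) (d : Qb)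
  (r : ℤ) (j : E →+* Qb) (θ : GK j →* (Kp q)ˣ) (fr : Pl E → GK j), C.a = -(Δ : 𝓞 F) → 5 ≤ q →
  ¬ q ∣ C.D → (∀ τ, C.sec τ C.δ = io d) → ‖ι (d - r)‖ < 1 → IsOpen (θ.ker : Set (GK j)) →
  (∀ v, ∃ P, FrI j v P (fr v)) → (∀ v : Pl E, ((q * C.D : ℕ) : 𝓞 E) ∉ v.asIdeal → Un θ v) →
  (∀ v : Pl E, (q : 𝓞 E) ∈ v.asIdeal → v.valuation E (C.δ - r) < 1 → Un (θ / om q j) v) →
  (∀ v : Pl E, (q : 𝓞 E) ∈ v.asIdeal → ¬ v.valuation E (C.δ - r) < 1 → Un θ v) →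
  (∀ w : Pl F, ((q * C.D : ℕ) : 𝓞 F) ∉ w.asIdeal →
    ((∏ᶠ (P : Pl E) (_ : Tor.Ab w P), θ (fr P) : (Kp q)ˣ) : Kp q) =
      if C.Gd w then (qw w : Kp q) else -(qw w : Kp q)) →
  ∃ (n : ℕ) (hn : 0 < n) (ψ : Pl E → Qbˣ), ¬ q ∣ n ∧ Hc (enl C n hn) io ι θ fr r ψ

/-- **MCC**: the canonical types -/
def MCC (c : ∀ l : ℕ, ℕ → Cf2 l) : Prop := ∀ (F E : Type) [Field F] [NumberField F] [Field E]
  [NumberField E] [Algebra F E] (C : CM F E) (Ψ : Pl E → ℂˣ) (io : Qb →+* ℂ) (w : Pl F) (l k : ℕ)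
  (κ : ℂ), C.Hk Ψ → Kw C Ψ w κ → (C.D : 𝓞 F) ∈ w.asIdeal → 2 * C.a ∉ w.asIdeal → l.Prime →
  (l : 𝓞 F) ∈ w.asIdeal → (∀ x : 𝓞 F, ∃ m : ℤ, x - m ∈ w.asIdeal) → 2 ≤ k →
  (∀ γ ∈ C.G1 {P | ¬ Tor.Ab w P}, C.eps Ψ ((γ : C.G) : Eˣ) ^ 2 ^ k = 1) →
  (∃ γ ∈ C.G1 {P | ¬ Tor.Ab w P}, C.eps Ψ ((γ : C.G) : Eˣ) ^ 2 ^ (k - 1) ≠ 1) →
  ((IsSquare (algebraMap (𝓞 F) (Fw w) C.a) ∧ 2 ^ k ∣ l - 1) ∨
    (¬ IsSquare (algebraMap (𝓞 F) (Fw w) C.a) ∧ 2 ^ k ∣ l + 1)) → Mc C Ψ io w l (c l k)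

namespace Sd

variable {X : Fd} {Δ : ℕ} {io : Qb →+* ℂ} {d0 : Qb} {E : Type} [Field E] [NumberField E]
  [Algebra X.F E] {C : CM X.F E} {jE : E →+* Qb} {q : ℕ} [Fact q.Prime] {S : Finset ℕ}
  {ρ : GQ → GL (Fin 2) (Kp q)}

theorem ex_r (d : Dh X S Δ ρ) {P : Id} (o : Ov q P) (k : dec P ≤ Qd Δ) (io : Qb →+* ℂ) :
    ∃ (y : 𝓞 Qb) (r : ℤ), (y : Qb) ^ 2 = -(Δ : Qb) ∧ y - r ∈ P ∧ (q : ℤ) ∣ r ^ 2 + Δ := by
  obtain ⟨d1, e1⟩ := ex_sqrt Δ
  have p := Th.pos d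
  obtain ⟨E, _, _, _, C, jE, h, -, -⟩ := ex_ce X d.real d.even (D := 4 * Δ) p (by omega)
    ⟨2 * Δ, by ring⟩ (dvd_mul_left _ _) io e1 e1
  obtain ⟨v, hv⟩ := exists_below jE o
  obtain ⟨z, hz⟩ := h.int_δ
  obtain ⟨r, hr⟩ := Ce.deg o hv (fun g a => h.mem.2 ⟨d.spl q (by simp) P o a, k a⟩) z
  have a : RingOfIntegers.mapRingHom jE z - r ∈ P := by
    have := Ideal.mem_comap.1 (hv ▸ hr : z - r ∈ below jE P)
    rwa [map_sub, map_intCast] at this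
  have b : ((RingOfIntegers.mapRingHom jE z : 𝓞 Qb) : Qb) ^ 2 = -(Δ : Qb) := by
    rw [← h.sq, ← hz]; rfl
  refine ⟨_, r, b, a, H20.dvd_of_mem o.1 o.2.1 o.2.2 ?_⟩
  generalize RingOfIntegers.mapRingHom jE z = y at a b
  have y2 : y ^ 2 = -(Δ : 𝓞 Qb) := RingOfIntegers.ext (by
    change (y : Qb) ^ 2 = _
    rw [b]; simp)
  convert P.mul_mem_right (-y - r) a using 1
  push_cast
  linear_combination y2

theorem ex_d (ι : Qb →+* Cp q) {y : Qb} {r : ℤ} (e : y ^ 2 = -(Δ : Qb))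
    (k : (q : ℤ) ∣ r ^ 2 + Δ) : ∃ d : Qb, d ^ 2 = -(Δ : Qb) ∧ ‖ι (d - r)‖ < 1 := by
  have a : ‖ι (y - r)‖ * ‖ι (-y - r)‖ < 1 := by
    rw [← norm_mul, ← map_mul, show (y - r) * (-y - r) = ((r ^ 2 + Δ : ℤ) : Qb) by
      push_cast; linear_combination -e, map_intCast, ← sub_zero ((r ^ 2 + Δ : ℤ) : Cp q),
      ← red_eq_iff (IsUltrametricDist.norm_intCast_le_one _ _) (norm_zero.trans_le zero_le_one),
      red_int, red_zero, CharP.intCast_eq_zero_iff _ q]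
    exact k
  by_cases c : ‖ι (y - r)‖ < 1
  · exact ⟨y, e, c⟩
  · exact ⟨-y, (neg_sq y).trans e, (le_mul_of_one_le_left (norm_nonneg _) (not_lt.1 c)).trans_lt a⟩

theorem tw_eq (h : Ce X Δ io d0 C jE) {w : X.Pl} {v : Pl E} (g : C.Gd w) (ab : Tor.Ab w v)
    (ψ : Pl E → Qbˣ) : Tor.tw (up io ψ) w = io (ψ v + ψ (C.pi v)) := by
  obtain ⟨a, b⟩ := h.ab_in g ab
  rw [show Tor.tw (up io ψ) w = ∑ᶠ P ∈ {u | Tor.Ab w u}, (up io ψ P : ℂ) from rfl, a,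
    finsum_mem_pair b, map_add]
  rfl

end Sd

open Sd Th in
/-- **SDX** -/
theorem sdx_of (sa : SAUT2) (hc : HCH) (c : ∀ l : ℕ, ℕ → Cf2 l)
    (pr : ∀ l k, l.Prime → 2 ≤ k → (2 ^ k ∣ l - 1 ∨ 2 ^ k ∣ l + 1) → Prin l (c l k))
    (mc : MCC c) : SDX := by
  classical
  refine ⟨c, pr, fun q hq ι X S L Δ ρ d ty => ?_⟩
  let io : Qb →+* ℂ := (IsAlgClosed.lift (R := ℚ) (S := Qb) (M := ℂ)).toRingHom
  obtain ⟨P0, o0, k0, A⟩ := d.atq
  obtain ⟨y, r, y2, yr, qr⟩ := ex_r d o0 k0 io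
  obtain ⟨d0, e0, dr⟩ := ex_d ι y2 qr
  have p := pos d
  have q7 := d.big
  have S0 : 0 < ∏ l ∈ S, l := Finset.prod_pos fun l a => (d.prm l a).pos
  obtain ⟨E, _, _, _, C0, jE, h0, hD, hδ⟩ := ex_ce X d.real d.even (D := 4 * Δ * ∏ l ∈ S, l) p
    (by nlinarith) ⟨2 * Δ * ∏ l ∈ S, l, by ring⟩ ((dvd_mul_left _ _).mul_right _) io e0 y2
  obtain ⟨θ, hθ⟩ := ex_th d h0
  obtain ⟨fr, hfr⟩ := exists_fr jE
  have lD : ∀ l ∈ S, l ∣ C0.D := fun l a => hD ▸ (Finset.dvd_prod_of_mem _ a).mul_left _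
  have qD : ¬ q ∣ C0.D := fun a => by
    rw [hD, hq.out.dvd_mul, hq.out.dvd_mul, hq.out.prime.dvd_finsetProd_iff] at a
    rcases a with (a | a) | ⟨l, a, b⟩
    · have := Nat.le_of_dvd (by norm_num) a
      omega
    · exact q_nd d a
    · exact d.nS ((Nat.prime_dvd_prime_iff_eq hq.out (d.prm l a)).1 b ▸ a)
  obtain ⟨n, hn, ψ, qn, H⟩ := hc q X.F E C0 Δ io ι d0 r jE θ fr h0.a (by omega) qD h0.sec dr
    (opn d h0 hθ) hfr (fun v => un_off d h0 hθ lD)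
    (fun v a => (at_q d h0 hθ o0 A hδ.symm yr a).1) (fun v a => (at_q d h0 hθ o0 A hδ.symm yr a).2)
    fun w => cen d h0 hθ hfr lD
  have h : Ce X Δ io d0 (enl C0 n hn) jE := ⟨h0.a, h0.emb, h0.cmp, h0.sec⟩
  replace lD : ∀ l ∈ S, l ∣ (enl C0 n hn).D := fun l a => (lD l a).mul_right n
  replace qD : ¬ q ∣ (enl C0 n hn).D := fun a => (hq.out.dvd_mul.1 a).elim qD qn
  generalize enl C0 n hn = C at H h lD qD
  obtain ⟨N, N0, hN⟩ := Lb.ex_ord (opn d h hθ)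
  have G : Gs C (up io ψ) θ fr ((Units.map (io : Qb →* ℂ)).comp (te ι)) q N :=
    ⟨H.hk, opn d h hθ, hfr, (Units.map_injective io.injective).comp te_inj, hq.out, N0, hN, qD,
      fun v => un_off d h hθ lD, H.ep⟩
  have ev : Even (Module.finrank ℚ X.F) := index_GK X.j ▸ d.even
  have mD : ∀ l ∈ S, ∀ P (w : X.Pl), Ov l P → below X.j P = w.asIdeal →
      (C.D : 𝓞 X.F) ∈ w.asIdeal := fun l a P w o e =>
    w.asIdeal.mem_of_dvd (Nat.cast_dvd_cast (lD l a)) ((nat_mem _ e l).2 o.2.2)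
  have nD : ∀ w : X.Pl, (q : 𝓞 X.F) ∈ w.asIdeal → (C.D : 𝓞 X.F) ∉ w.asIdeal := fun w =>
    cop' w.isPrime (hq.out.coprime_iff_not_dvd.2 qD)
  obtain ⟨l0, s0, k, Pv, ov, ev0, dv, tv, nv⟩ := d.v0
  obtain ⟨a0, u0, u0'⟩ := tk d h hθ s0 ov ev0 dv tv
  have ns := mt (h.sq_iff ov ev0 dv a0).1 nv
  have kw := fun w => kw_of (w := w) H.hk H.kp ev ns d.md h.a
  obtain ⟨b, au, ⟨Z, hZ⟩, hb⟩ := sa X S L E C (up io ψ) io Δ ⟨H.hk, H.kp, d.md, h.a, h.emb, ev,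
    (kw _ (mD _ s0 _ _ ov ev0) a0).elim fun _ a => G.mr a (mD _ s0 _ _ ov ev0) a0 ns tv.two u0 u0',
    fun w s => ⟨ev_sph d s, by
      by_cases a : (q : 𝓞 X.F) ∈ w.asIdeal
      · exact fun γ g => C.eps_one H.hk fun P _ m => g P (fun e : Tor.Ab w P =>
          nD w a ((e.nat _).1 m)) m
      · exact G.ms w fun v => un_sph d h hθ s a⟩,
    fun l c' w hl ⟨s, _, P, o, e, dc⟩ hL => by
      obtain ⟨k, rfl, t⟩ := ty l s c' hL
      have t := t P o dc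
      obtain ⟨a, u, u'⟩ := tk d h hθ s o e dc t
      obtain ⟨κ, hκ⟩ := kw w (mD _ s _ _ o e) a
      obtain ⟨p1, p2⟩ := G.pe (mD _ s _ _ o e) a t.two u u'
      exact mc _ E C _ io w l k κ H.hk hκ (mD _ s _ _ o e) a hl ((nat_mem _ e l).2 o.2.2)
        (Ce.deg o e dc) t.two p1 p2 (t.alt.imp (fun x => ⟨(h.sq_iff o e dc a).2 x.1, x.2⟩)
          fun x => ⟨mt (h.sq_iff o e dc a).1 x.1, x.2⟩)⟩
  refine ⟨b, au, fun P w o e => ?_, Z.image (fun w => (prime_mem w).choose) ∪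
    (q * C.D).primeFactors, fun l hl P w φ o f => ?_⟩
  · have m := (nat_mem _ e q).2 o.2.2
    obtain ⟨v, hv⟩ := exists_below jE o
    have ab := (h.ab_iff hv).2 e
    obtain ⟨φ, f⟩ := H916.exists_frob X.j o.2.1 o.1 o.2.2
    have f' : FrI X.j w P φ := ⟨o.2.1, e, e ▸ f⟩
    have g : C.Gd w := (h.gd_iff o f' (nD w m)).2 (by
      obtain ⟨n, -, -, F⟩ := frb_of_fri o f'
      obtain ⟨σ, rfl⟩ := Fld.ov_conj o0 o
      have := normal_Qd.conj_mem _ (k0 (Fld.mem_dec_smul.1 (fb_dec o F.2.1))) σ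
      simpa [mul_assoc] using this)
    rw [io.injective ((hb q hq.out (fun w => sph_q d) w m g).trans (tw_eq h g ab ψ)), map_add]
    have mv := (ab.nat q).2 m
    have u1 := H.uq v mv
    have u2 := H.uq _ ((C.nat_pi v q).2 mv)
    have dv := fun a => nD w m ((ab.nat C.D).1 a)
    rw [C.val_pi, map_sub, C.cδ, map_intCast, ← neg_add', Valuation.map_neg] at u2
    have x1 : v.valuation E (C.δ - r) * v.valuation E (C.δ + r) < 1 := by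
      obtain ⟨t, ht⟩ := qr
      have : (C.δ - r) * (C.δ + r) = -(q * (t : E)) := by
        have a := C.sq
        have b : ((r ^ 2 + Δ : ℤ) : E) = ((q * t : ℤ) : E) := by rw [ht]
        rw [h.a] at a
        push_cast at b ⊢
        simp only [map_neg, map_natCast] at a
        linear_combination a - b
      rw [← map_mul, this, Valuation.map_neg, map_mul]
      exact mul_lt_one_of_lt_of_le (val_nat_lt mv) (map_intCast (algebraMap (𝓞 E) E) t ▸ val_le v t)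
    have x2 : ¬ (v.valuation E (C.δ - r) < 1 ∧ v.valuation E (C.δ + r) < 1) := fun a => by
      have := Valuation.map_add_lt _ a.1 a.2
      rw [sub_add_add_cancel, ← two_mul, map_mul, CM.val_two dv, CM.val_δ dv, one_mul] at this
      exact lt_irrefl _ this
    by_cases a : v.valuation E (C.δ - r) < 1
    · have b := u2.2 fun b => x2 ⟨a, b⟩
      rw [IsUltrametricDist.norm_add_eq_max_of_norm_ne_norm ((u1.1 a).trans_eq b.symm).ne,
        max_eq_right ((u1.1 a).le.trans b.ge), b]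
    · have b := u2.1 ((le_mul_of_one_le_left' (not_lt.1 a)).trans_lt x1)
      rw [IsUltrametricDist.norm_add_eq_max_of_norm_ne_norm (b.trans_eq (u1.2 a).symm).ne',
        max_eq_left (b.le.trans (u1.2 a).ge), u1.2 a]
  · rw [Finset.mem_union, not_or] at hl
    have m := (nat_mem _ f.2.1 l).2 o.2.2
    have wZ : w ∉ Z := fun a => hl.1 (Finset.mem_image.2 ⟨w, a, by_contra fun n => cop' w.isPrime
      ((Nat.coprime_primes (prime_mem w).choose_spec.1 o.1).2 n) (prime_mem w).choose_spec.2 m⟩)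
    have wD : ((q * C.D : ℕ) : 𝓞 X.F) ∉ w.asIdeal := cop' w.isPrime (o.1.coprime_iff_not_dvd.2
      fun a => hl.2 (Nat.mem_primeFactors.2 ⟨o.1, a, mul_ne_zero hq.out.ne_zero C.D0⟩)) m
    have wD' : (C.D : 𝓞 X.F) ∉ w.asIdeal := fun a => wD (by
      rw [Nat.cast_mul]; exact Ideal.mul_mem_left _ _ a)
    have e := hZ w wZ
    obtain ⟨v, hv⟩ := exists_below jE o
    have ab := (h.ab_iff hv).2 f.2.1
    rw [trace_fin_two]
    by_cases g : C.Gd w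
    · rw [ta, if_pos g, tw_eq h g ab] at e
      have vD : ∀ v, Tor.Ab w v → ((q * C.D : ℕ) : 𝓞 E) ∉ v.asIdeal := fun v a b =>
        wD ((a.nat _).1 b)
      obtain ⟨s1, s2⟩ := split d h hθ hfr (fun v a => un_off d h hθ lD (vD v a)) o hv f
        ((h.gd_iff o f wD').1 g)
      obtain ⟨r1, r2⟩ := H.rd v (vD v ab)
      obtain ⟨r3, r4⟩ := H.rd _ (vD _ (C.ab_pi ab))
      rw [io.injective e, map_add, red_add r1.le r3.le, r2, r4, s1, s2]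
      exact ⟨(IsUltrametricDist.norm_add_le_max _ _).trans (max_le r1.le r3.le), rfl⟩
    · rw [ta, if_neg g, map_eq_zero] at e
      have a := (d.mon φ φ.2).2 (mt (h.gd_iff o f wD').2 g)
      rw [e, map_zero, red_zero, norm_zero]
      exact ⟨zero_le_one, by rw [show (ρ φ).val 0 0 = 0 from a.1, show (ρ φ).val 1 1 = 0 from a.2,
        add_zero]⟩

end Vale.Agent.P022K.PB
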