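import Vale.Agent.P022K.PB.Sdx
import Vale.Agent.P022K.PB.Hch
import Vale.Agent.P022K.PB.CanB

/-!
# P022K / PB: the seeds
-/

set_option autoImplicit false
set_option linter.all false

noncomputable section

namespace Vale.Agent.P022K.PB

open Vale.Agent.P022K.Top.Pm (SDX)

theorem hchP : HCH := fun q hq F E _ _ _ _ _ C Δ io ι d r j θ fr ha q5 qD hd hr ho hfr hu h1 h2
    hk => by
  obtain ⟨n, ψ, h⟩ := hch C ha q5 qD io ι d hd r hr θ ho hfr hu h1 h2 hk
  exact ⟨_, _, ψ, fun a => qD (hq.out.dvd_of_dvd_pow a), h⟩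

/-- **SDX** from the types -/
theorem sdx_mc (sa : Sh.SAUT2) (mc : MCC cc) : SDX :=
  sdx_of sa hchP cc (fun _ _ a b c => prin_cc a b c) mc

end Vale.Agent.P022K.PB
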