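import Vale.Agent.P022K.PB.SdxF
import Vale.Agent.P022K.PB.Can

/-!
# P022K / PB: the seeds, types plugged in
-/

set_option autoImplicit false
set_option linter.all false

noncomputable section

namespace Vale.Agent.P022K.PB

open Vale.Agent.P022K.Top.Pm (SDX)

theorem mcc : MCC cc := fun _ _ _ _ _ _ _ _ _ io _ _ _ _ a b c d e f g h i j m =>
  mc_cc io a b c d e f g h i j m

/-- **SDX** -/
theorem sdx (sa : Sh.SAUT2) : SDX := sdx_mc sa mcc

end Vale.Agent.P022K.PB
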