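import Vale.Agent.P022K.PB.Pw
import Vale.Agent.P022K.PB.Lb
import Vale.Agent.P022K.CH.Eps

/-!
# P022K, block PB: Teichmueller lifts, the cyclotomic character modulo `q`, row LB
-/

set_option linter.all false

open NumberField IsDedekindDomain Filter

noncomputable section

namespace Vale.Agent.P022K.PB

open Vale.Agent.P022 Vale.Agent.P022.C CH
open Vale.Agent.P027M.S (Pr)
open Vale.Agent.P022E.GW (Ov)
open Vale.Agent.P022E.GW.Kc (nat_mem prime_mem)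
open Vale.Agent.P022K.Sh.Tor (mem_iff val_le val_one)

variable {q : ℕ} [hq : Fact q.Prime]

/-- the non zero elements of the residue field are roots of unity -/
theorem tors (x : (Kp q)ˣ) : ∃ n, ¬ q ∣ n ∧ x ^ n = 1 := by
  obtain ⟨y, hy, e⟩ := red_surj (x : Kp q)
  let L := IntermediateField.adjoin ℚ_[q] {y}
  have : FiniteDimensional ℚ_[q] L := IntermediateField.adjoin.finiteDimensional
    (Algebra.IsAlgebraic.isAlgebraic y).isIntegral
  let V : Submodule ℚ_[q] (Cp q) := L.toSubalgebra.toSubmodule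
  have : FiniteDimensional ℚ_[q] V := this
  have : ProperSpace V := FiniteDimensional.proper ℚ_[q] V
  have hk : ∀ k : ℕ, ‖y ^ k‖ ≤ 1 := fun k => by
    rw [norm_pow]
    exact pow_le_one₀ (norm_nonneg _) hy
  have rk : ∀ k : ℕ, red (y ^ k) = (x ^ k : (Kp q)ˣ) := fun k => by
    induction k with
    | zero => rw [pow_zero, pow_zero, red_one, Units.val_one]
    | succ k ih => rw [pow_succ, pow_succ, red_mul (hk k) hy, ih, e, Units.val_mul]
  obtain ⟨a, -, φ, hφ, lim⟩ := tendsto_subseq_of_bounded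
    (Metric.isBounded_closedBall (x := (0 : V)) (r := 1))
    (x := fun k => (⟨y ^ k, (pow_mem (IntermediateField.mem_adjoin_simple_self _ y) k : _ ∈ L)⟩ : V))
    fun k => mem_closedBall_zero_iff.2 (hk k)
  obtain ⟨N, hN⟩ := Metric.cauchySeq_iff'.1 lim.cauchySeq 1 one_pos
  have h1 : red (y ^ φ (N + 1)) = red (y ^ φ N) := (red_eq_iff (hk _) (hk _)).2 (by
    have := hN (N + 1) N.le_succ
    rwa [dist_eq_norm] at this)
  rw [rk, rk, Units.val_inj] at h1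
  obtain ⟨d, hd⟩ := Nat.exists_eq_add_of_lt (hφ N.lt_succ_self)
  rw [hd, add_assoc, pow_add, mul_eq_left] at h1
  obtain ⟨k, m, hm, e⟩ := Nat.exists_eq_pow_mul_and_not_dvd d.succ_ne_zero q hq.out.ne_one
  refine ⟨m, hm, Units.ext ?_⟩
  have h2 := congrArg Units.val h1
  rw [show d + 1 = _ from e, mul_comm, pow_mul, Units.val_pow_eq_pow_val, Units.val_one,
    ← sub_eq_zero, ← one_pow (q ^ k), ← sub_pow_char_pow] at h2
  exact sub_eq_zero.1 (pow_eq_zero_iff (pow_ne_zero _ hq.out.ne_zero) |>.1 h2)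

variable (ι : Qb →+* Cp q)

/-- the graph of the reduction -/
def RS : Subgroup (Qbˣ × (Kp q)ˣ) where
  carrier := {z | ‖ι z.1‖ = 1 ∧ red (ι z.1) = z.2}
  mul_mem' {a b} ha hb := by
    refine ⟨?_, ?_⟩ <;> rw [Prod.fst_mul, Units.val_mul, map_mul]
    · rw [norm_mul, ha.1, hb.1, mul_one]
    · rw [red_mul ha.1.le hb.1.le, ha.2, hb.2, Prod.snd_mul, Units.val_mul]
  one_mem' := by simp [red_one]
  inv_mem' {a} ha := by
    have h : ‖ι (a⁻¹.1 : Qbˣ)‖ = 1 := by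
      rw [Prod.fst_inv, Units.val_inv_eq_inv_val, map_inv₀, norm_inv, ha.1, inv_one]
    refine ⟨h, ?_⟩
    rw [Prod.snd_inv, Units.val_inv_eq_inv_val, ← ha.2]
    refine eq_inv_of_mul_eq_one_left ?_
    rw [← red_mul h.le ha.1.le, ← map_mul, ← Units.val_mul, Prod.fst_inv, inv_mul_cancel,
      Units.val_one, map_one, red_one]

/-- `a` is the reduction of the unit `z` -/
def Rd (z : Qbˣ) (a : (Kp q)ˣ) : Prop := (z, a) ∈ RS ι

variable {ι} {z z' : Qbˣ} {a a' : (Kp q)ˣ}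

theorem Rd.one : Rd ι 1 1 := (RS ι).one_mem

theorem Rd.mul (h : Rd ι z a) (h' : Rd ι z' a') : Rd ι (z * z') (a * a') :=
  (RS ι).mul_mem (x := (z, a)) (y := (z', a')) h h'

theorem Rd.inv (h : Rd ι z a) : Rd ι z⁻¹ a⁻¹ := (RS ι).inv_mem (x := (z, a)) h

theorem Rd.div (h : Rd ι z a) (h' : Rd ι z' a') : Rd ι (z / z') (a / a') :=
  (RS ι).div_mem (x := (z, a)) (y := (z', a')) h h'

theorem Rd.pow (h : Rd ι z a) (n : ℕ) : Rd ι (z ^ n) (a ^ n) := (RS ι).pow_mem (x := (z, a)) h n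

theorem Rd.zpow (h : Rd ι z a) (n : ℤ) : Rd ι (z ^ n) (a ^ n) := (RS ι).zpow_mem (x := (z, a)) h n

theorem Rd.uniq (h : Rd ι z a) (h' : Rd ι z a') : a = a' := Units.ext (h.2.symm.trans h'.2)

theorem Rd.near (h : Rd ι z a) (e : ‖ι z' - ι z‖ < 1) : Rd ι z' a := by
  have h1 : ‖ι z'‖ = 1 := by
    have := IsUltrametricDist.norm_add_eq_max_of_norm_ne_norm (x := ι z' - ι z) (y := ι z)
      (e.trans_eq h.1.symm).ne
    rwa [sub_add_cancel, show ‖ι z‖ = 1 from h.1, max_eq_right e.le] at this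
  exact ⟨h1, ((red_eq_iff h1.le h.1.le).2 e).trans h.2⟩

theorem Rd.ex (h : ‖ι z‖ = 1) : ∃ a, Rd ι z a :=
  ⟨Units.mk0 (red (ι z)) fun e => by
    have := (red_eq_iff h.le (norm_zero.trans_le zero_le_one)).1 (e.trans red_zero.symm)
    rw [sub_zero] at this
    exact this.ne h, h, rfl⟩

theorem Rd.eq_one (h : Rd ι z 1) {n : ℕ} (hn : ¬ q ∣ n) (e : z ^ n = 1) : z = 1 := by
  refine Units.ext (ι.injective (Exi.sep (Valued.v (R := Cp q)) (N := n)
    (fun c => hn (c ▸ dvd_zero q)) ?_ ?_ |>.trans (map_one ι).symm))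
  · rw [← map_pow, ← Units.val_pow_eq_pow_val, e, Units.val_one, map_one]
  · rw [PadicAlgCl.valuation_def, PadicAlgCl.valuation_def, ← NNReal.coe_lt_coe, coe_nnnorm, coe_nnnorm, norm_nat hn]
    exact (red_eq_iff h.1.le norm_one.le).1 (h.2.trans red_one.symm)

theorem norm_root {n : ℕ} (hn : n ≠ 0) (e : z ^ n = 1) : ‖ι z‖ = 1 :=
  (pow_eq_one_iff_of_nonneg (norm_nonneg _) hn).1 (by
    rw [← norm_pow, ← map_pow, ← Units.val_pow_eq_pow_val, e, Units.val_one, map_one, norm_one])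

variable (ι) in
theorem ex_te (a : (Kp q)ˣ) : ∃ z, Rd ι z a ∧ ∃ n, ¬ q ∣ n ∧ z ^ n = 1 := by
  obtain ⟨n, hn, e⟩ := tors a
  have n0 : n ≠ 0 := fun c => hn (c ▸ dvd_zero q)
  have : NeZero n := ⟨n0⟩
  have hz := (H853.zt_prim n).isUnit_unit n0
  generalize ((H853.zt_prim n).isUnit n0).unit = ζ at hz
  obtain ⟨b, hb⟩ := Rd.ex (ι := ι) (norm_root n0 hz.pow_eq_one)
  have h1 : IsPrimitiveRoot b n := ⟨((hb.pow n).uniq (hz.pow_eq_one ▸ Rd.one)), fun l hl =>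
    hz.dvd_of_pow_eq_one l ((hl ▸ hb.pow l).eq_one hn (by
      rw [← pow_mul, mul_comm, pow_mul, hz.pow_eq_one, one_pow]))⟩
  obtain ⟨i, -, hi⟩ := h1.eq_pow_of_mem_rootsOfUnity ((mem_rootsOfUnity n a).2 e)
  exact ⟨ζ ^ i, hi ▸ hb.pow i, n, hn, by rw [← pow_mul, mul_comm, pow_mul, hz.pow_eq_one, one_pow]⟩

theorem Rd.same (h : Rd ι z a) (h' : Rd ι z' a) (e : ∃ n, ¬ q ∣ n ∧ z ^ n = 1)
    (e' : ∃ n, ¬ q ∣ n ∧ z' ^ n = 1) : z = z' := by
  obtain ⟨n, hn, e⟩ := e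
  obtain ⟨m, hm, e'⟩ := e'
  refine div_eq_one.1 ((div_self' a ▸ h.div h').eq_one (n := n * m)
    (fun c => (hq.out.dvd_mul.1 c).elim hn hm) ?_)
  rw [div_pow, pow_mul, e, mul_comm, pow_mul, e', one_pow, one_pow, div_one]

variable (ι) in
/-- the Teichmueller lift -/
def te : (Kp q)ˣ →* Qbˣ := MonoidHom.mk' (fun a => (ex_te ι a).choose) fun a b => by
  obtain ⟨h1, n, hn, e⟩ := (ex_te ι a).choose_spec
  obtain ⟨h2, m, hm, e'⟩ := (ex_te ι b).choose_spec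
  refine (ex_te ι _).choose_spec.1.same (h1.mul h2) (ex_te ι _).choose_spec.2
    ⟨n * m, fun c => (hq.out.dvd_mul.1 c).elim hn hm, ?_⟩
  rw [mul_pow, pow_mul, e, mul_comm n, pow_mul, e', one_pow, one_pow, mul_one]

theorem rd_te (a : (Kp q)ˣ) : Rd ι (te ι a) a := (ex_te ι a).choose_spec.1

theorem te_ord (a : (Kp q)ˣ) : ∃ n, ¬ q ∣ n ∧ te ι a ^ n = 1 := (ex_te ι a).choose_spec.2

theorem te_norm (a : (Kp q)ˣ) : ‖ι (te ι a)‖ = 1 := (rd_te a).1

theorem red_te (a : (Kp q)ˣ) : red (ι (te ι a)) = a := (rd_te a).2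

theorem te_inj : Function.Injective (te ι) := fun a b h => (rd_te a).uniq (h ▸ rd_te b)

theorem Rd.eq_te (h : Rd ι z a) {n : ℕ} (hn : ¬ q ∣ n) (e : z ^ n = 1) : z = te ι a :=
  h.same (rd_te a) ⟨n, hn, e⟩ (te_ord a)

variable {K : Type} [Field K] [NumberField K]

theorem Rd.pw {f : Pr K → Qbˣ} {g : Pr K → (Kp q)ˣ} {x : K} (hx : x ≠ 0)
    (h : ∀ v, ordv v x ≠ 0 → Rd ι (f v) (g v)) : Rd ι (pw f x) (pw g x) := by
  have h1 : PB.pw (fun v => (f v, g v)) x ∈ RS ι :=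
    finprod_induction _ (RS ι).one_mem (fun _ _ => (RS ι).mul_mem) fun v => by
      by_cases c : ordv v x = 0
      · rw [c, zpow_zero]
        exact (RS ι).one_mem
      · exact (RS ι).zpow_mem (h v c) _
  have h2 := map_pw (MonoidHom.fst _ _) (fun v => (f v, g v)) hx
  have h3 := map_pw (MonoidHom.snd _ _) (fun v => (f v, g v)) hx
  rwa [(Prod.ext h2 h3 : _ = (PB.pw f x, PB.pw g x))] at h1

/-- the prime attached to an embedding -/
theorem ex_pl (f : K →+* Cp q) : ∃ P : Pr K, (q : 𝓞 K) ∈ P.asIdeal ∧ ∀ y : K,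
    (P.valuation K y < 1 → ‖f y‖ < 1) ∧ (P.valuation K y = 1 → ‖f y‖ = 1) := by
  have hi : ∀ x : 𝓞 K, ‖f x‖ ≤ 1 := fun x => mem_op.1
    ((Valuation.integer.integers (Valued.v (R := Cp q))).mem_of_integral
      ((x.isIntegral_coe.map f.toIntAlgHom).tower_top))
  let g : 𝓞 K →+* Kp q := (IsLocalRing.residue (Op q)).comp
    ((f.comp (algebraMap (𝓞 K) K)).codRestrict _ fun x => mem_op.2 (hi x))
  have hg : ∀ x : 𝓞 K, x ∈ RingHom.ker g ↔ ‖f x‖ < 1 := fun x => res_eq_zero _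
  have m : (q : 𝓞 K) ∈ RingHom.ker g := by
    rw [RingHom.mem_ker, map_natCast, CharP.cast_eq_zero]
  let P : Pr K := ⟨RingHom.ker g, RingHom.ker_isPrime g, fun c => hq.out.ne_zero (by
    rw [c, Ideal.mem_bot] at m
    exact_mod_cast m)⟩
  have h1 : ∀ x : 𝓞 K, x ∉ P.asIdeal → ‖f x‖ = 1 := fun x c =>
    (hi x).eq_or_lt.resolve_right fun k => c ((hg x).2 k)
  have key : ∀ y : K, P.valuation K y ≤ 1 → ∃ n : 𝓞 K, ‖f y‖ = ‖f n‖ ∧
      P.valuation K y = P.valuation K (n : K) := fun y hy => by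
    obtain ⟨n, d, hn⟩ := P.exists_primeCompl_mul_eq_of_integer _ hy
    have e : (n : K) = y * (d : 𝓞 K) := hn.symm
    exact ⟨n, by rw [e, map_mul, norm_mul, h1 _ d.2, mul_one],
      by rw [e, map_mul, val_one d.2, mul_one]⟩
  refine ⟨P, m, fun y => ⟨fun c => ?_, fun c => ?_⟩⟩ <;> obtain ⟨n, a, b⟩ := key y c.le
  · exact a ▸ (hg n).1 ((mem_iff P n).2 (b ▸ c))
  · exact a ▸ h1 n fun k => ((mem_iff P n).1 k).ne (b ▸ c)

variable {j : K →+* Qb} {v : Pr K}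

variable (j q) in
/-- the cyclotomic character modulo `q` -/
def om : GK j →* (Kp q)ˣ := MonoidHom.toHomUnits
  { toFun := fun g => red (eps q g)
    map_one' := by rw [OneMemClass.coe_one, eps_one, red_one]
    map_mul' := fun a b => by
      rw [Subgroup.coe_mul, eps_mul, red_mul (norm_eps _).le (norm_eps _).le] }

theorem om_coe (g : GK j) : (om q j g : Kp q) = red (eps q g) := rfl

theorem om_open : IsOpen ((om q j).ker : Set (GK j)) := by
  convert (Gz_open q).preimage (continuous_subtype_val (p := fun g => g ∈ GK j)) using 1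
  ext g
  rw [Set.mem_preimage, SetLike.mem_coe, SetLike.mem_coe, mem_Gz_p, MonoidHom.mem_ker,
    Units.ext_iff, om_coe, Units.val_one, ← red_one, red_eq_iff (norm_eps _).le norm_one.le]

theorem ov_ne {P : Ideal (𝓞 Qb)} (hP : P.IsPrime) (hv : below j P = v.asIdeal)
    (h : (q : 𝓞 K) ∉ v.asIdeal) : ∃ l, Ov l P ∧ l ≠ q := by
  obtain ⟨l, hl, m⟩ := prime_mem v
  exact ⟨l, ⟨hl, hP, (nat_mem j hv l).1 m⟩, fun e => h (e ▸ m)⟩

theorem om_un (h : (q : 𝓞 K) ∉ v.asIdeal) : Un (om q j) v := fun P hP hv g hg => by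
  obtain ⟨l, o, d⟩ := ov_ne hP hv h
  exact Units.ext (by rw [om_coe, eps_inert o d hg, red_one, Units.val_one])

theorem om_fr (h : (q : 𝓞 K) ∉ v.asIdeal) {P : Ideal (𝓞 Qb)} {g : GK j} (hg : FrI j v P g) :
    (om q j g : Kp q) = Ideal.absNorm v.asIdeal := by
  obtain ⟨l, o, d⟩ := ov_ne hg.1 hg.2.1 h
  rw [om_coe, eps_of_pow o d hg.2.2, red_nat]

/-- **LB** -/
theorem lb {k : Type} [Field k] [IsEmpty (K →+* ℝ)] {fr : Pr K → GK j}
    (hfr : ∀ v, ∃ P, FrI j v P (fr v)) {θ : GK j →* kˣ} (ho : IsOpen (θ.ker : Set (GK j)))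
    {P : Ideal (𝓞 Qb)} (hP : P.IsPrime) (hv : below j P = v.asIdeal) (t : (2 : 𝓞 K) ∉ v.asIdeal)
    (h2 : ∀ g, InI j P g → θ g ^ 2 = 1) (h1 : ∃ g, InI j P g ∧ θ g ≠ 1) {D N : ℕ} (D0 : D ≠ 0)
    (Dv : (D : 𝓞 K) ∈ v.asIdeal) (hD : ∀ w : Pr K, (D : 𝓞 K) ∉ w.asIdeal → Un θ w) (N0 : N ≠ 0) :
    ∃ x : K, x ≠ 0 ∧ v.valuation K x = 1 ∧ (∀ w : Pr K, w ≠ v → (D : 𝓞 K) ∈ w.asIdeal →
      w.valuation K (x - 1) < w.valuation K (N : K)) ∧ sy θ fr x = -1 :=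
  Lb.lb_of hfr (fun θ o _ _ _ a b c d e f => pwl θ o hfr a b c d e f) ho hP hv t h2 h1 D0 Dv hD N0

end Vale.Agent.P022K.PB
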