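import Vale.Agent.P022K.PB.Cm
import Vale.Agent.P022K.PB.Tei

/-!
# P022K / PB: the character of a residual dihedral representation
-/

set_option autoImplicit false
set_option linter.all false

open NumberField IsDedekindDomain Matrix
open scoped Pointwise

noncomputable section

namespace Vale.Agent.P022K.PB

open Vale.Agent.P022 Vale.Agent.P022.C CH CH.Weil Sh Sh.Tor
open Vale.Agent.P022.H443 (inP)
open Vale.Agent.P022D.W (dec inP_le_dec)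
open Vale.Agent.P022E.GW (Ov Fb)
open Vale.Agent.P022E.GW.Kc (nat_mem prime_mem)
open Vale.Agent.P022K.Top.Pm (Qd Dg An Mo Aq Tk Dh)

theorem cop' {R : Type} [CommRing R] {P : Ideal R} (hP : P.IsPrime) {a b : ℕ} (h : a.Coprime b)
    (ha : (a : R) ∈ P) : (b : R) ∉ P := fun hb => by
  obtain ⟨x, y, e⟩ := (Nat.isCoprime_iff_coprime.2 h).map (Int.castRingHom R)
  simp only [Int.coe_castRingHom, Int.cast_natCast] at e
  exact hP.ne_top ((Ideal.eq_top_iff_one _).2 (e ▸ P.add_mem (P.mul_mem_left _ ha)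
    (P.mul_mem_left _ hb)))

theorem in_conj {P : Id} {s g : GQ} (h : s ∈ inP (g • P)) : g⁻¹ * s * g ∈ inP P := fun x => by
  have := h (g • x)
  rwa [Ideal.mem_pointwise_smul_iff_inv_smul_mem, smul_sub, inv_smul_smul, smul_smul,
    smul_smul] at this

section

variable {k : Type} [Field k] {a : GL (Fin 2) k}

theorem det_ne (a : GL (Fin 2) k) : a 0 0 * a 1 1 - a 0 1 * a 1 0 ≠ 0 :=
  det_fin_two a.val ▸ a.det_ne_zero

theorem dg_ne (h : Dg a) : a 0 0 ≠ 0 := fun e => det_ne a (by rw [e, h.1]; ring)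

theorem an_ne (h : An a) : a 0 1 ≠ 0 := fun e => det_ne a (by rw [e, h.1]; ring)

theorem mul_ent (a b : GL (Fin 2) k) (i j : Fin 2) : (a * b) i j = a i 0 * b 0 j + a i 1 * b 1 j := by
  simp [Matrix.mul_apply, Fin.sum_univ_two]

end

variable {X : Fd} {Δ : ℕ} {io : Qb →+* ℂ} {d0 : Qb} {E : Type} [Field E] [NumberField E]
  [Algebra X.F E] {C : CM X.F E} {jE : E →+* Qb} {q : ℕ} [Fact q.Prime] {S : Finset ℕ}
  {ρ : GQ → GL (Fin 2) (Kp q)}

namespace Th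

/-- the homomorphism -/
def rh (d : Dh X S Δ ρ) : X.H →* GL (Fin 2) (Kp q) :=
  MonoidHom.mk' (fun g => ρ g) fun a b => d.mul a a.2 b b.2

variable (d : Dh X S Δ ρ)
include d

theorem pos : 0 < Δ := by have := d.md; omega

theorem ex_c : ∃ c ∈ X.H, c ∉ Qd Δ := by
  obtain ⟨y, hy⟩ := ex_sqrt Δ
  let i : Qb →+* ℂ := (IsAlgClosed.lift (R := ℚ) (S := Qb) (M := ℂ)).toRingHom
  obtain ⟨c, hc⟩ := H916.exists_conj_elt i
  refine ⟨c, d.real c ⟨i, hc⟩, fun k => ?_⟩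
  have e := hc y
  rw [k y hy, conj_sqrt (pos d) (by rw [← map_pow, hy, map_neg, map_natCast])] at e
  have : y = 0 := (map_eq_zero i).1 (by linear_combination e / 2)
  rw [this] at hy
  exact (pos d).ne' (by exact_mod_cast (show (Δ : Qb) = 0 by linear_combination hy))

theorem conj {c g : GQ} (hc : c ∈ X.H) (kc : c ∉ Qd Δ) (hg : g ∈ X.H) :
    ρ (c * g * c⁻¹) 0 0 = ρ g 1 1 := by
  have e : ρ (c * g * c⁻¹) * ρ c = ρ c * ρ g := by
    rw [← d.mul _ (mul_mem (mul_mem hc hg) (inv_mem hc)) _ hc, ← d.mul _ hc _ hg,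
      inv_mul_cancel_right]
  have a := (d.mon c hc).2 kc
  have := congrArg (fun x : GL (Fin 2) (Kp q) => x 0 1) e
  simp only [mul_ent, a.1, a.2, mul_zero, zero_mul, add_zero, zero_add] at this
  exact mul_right_cancel₀ (an_ne a) (this.trans (mul_comm _ _))

theorem det_in {g : GQ} (hg : g ∈ X.H) (k : g ∈ Qd Δ) : ρ g 0 0 * ρ g 1 1 = red (eps q g) := by
  rw [← d.det g hg, det_fin_two]
  have := ((d.mon g hg).1 k).1
  change _ = ρ g 0 0 * ρ g 1 1 - ρ g 0 1 * ρ g 1 0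
  rw [this, zero_mul, sub_zero]

theorem pow_conj {t g : GQ} (ht : t ∈ X.H) (hg : g ∈ X.H) {n : ℕ}
    (e : ρ (t⁻¹ * g * t) ^ n = 1) : ρ g ^ n = 1 := by
  have e' : rh d ((⟨t, ht⟩ : X.H)⁻¹ * ⟨g, hg⟩ * ⟨t, ht⟩) ^ n = 1 := e
  rw [map_mul, map_mul, map_inv, ← MulAut.conj_inv_apply, ← map_pow, map_eq_one_iff _
    (MulEquiv.injective _)] at e'
  exact e'

variable {w : X.Pl} {v : Pl E} {l : ℕ} {P : Id}

/-- transport of a relation on inertia to all primes above a place -/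
theorem all_pow (hP : P.IsPrime) (e : below X.j P = w.asIdeal) {n : ℕ}
    (k : ∀ s ∈ X.H, s ∈ inP P → ρ s ^ n = 1) {P' : Id} (hP' : P'.IsPrime)
    (e' : below X.j P' = w.asIdeal) {s : GQ} (hs : s ∈ X.H) (i : s ∈ inP P') : ρ s ^ n = 1 := by
  obtain ⟨t, rfl⟩ := H916.exists_smul X.j hP hP' (e.trans e'.symm)
  exact pow_conj d t.2 hs (k _ (mul_mem (mul_mem (inv_mem t.2) hs) t.2) (in_conj i))

theorem triv (k : SphW X S w) (hq : (q : 𝓞 X.F) ∉ w.asIdeal) (hP : P.IsPrime)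
    (e : below X.j P = w.asIdeal) {s : GQ} (hs : s ∈ X.H) (i : s ∈ inP P) : ρ s = 1 := by
  obtain ⟨l, P', o, e', k⟩ := k
  refine (pow_one _).symm.trans (all_pow d o.2.1 e' (fun s a b => ?_) hP e hs i)
  rw [pow_one]
  exact d.sph l P' o (fun c => hq (c ▸ (nat_mem _ e' l).2 o.2.2)) k s ⟨a, b⟩

theorem q_nd : ¬ q ∣ Δ := by
  obtain ⟨P, o, k, -⟩ := d.atq
  exact Ce.not_dvd d.sqf o (inP_le_dec.trans k)

theorem ev_sph (k : SphW X S w) : Even (ordv w (Δ : X.F)) := by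
  by_cases hq : (q : 𝓞 X.F) ∈ w.asIdeal
  · rw [ordv_one (val_nat (cop' w.isPrime ((Nat.Prime.coprime_iff_not_dvd Fact.out).2 (q_nd d)) hq))]
    exact Even.zero
  obtain ⟨P, hP, e⟩ := H916.exists_above X.j w.asIdeal w.isPrime
  refine Ce.ev_of (pos d) hP e fun s a b => by_contra fun c => ?_
  have := ((d.mon s a).2 c).1
  rw [triv d k hq hP e a b] at this
  simp at this

theorem sph_off {D : ℕ} (hD : ∀ l ∈ S, l ∣ D) (hw : (D : 𝓞 X.F) ∉ w.asIdeal) : SphW X S w := by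
  obtain ⟨P, hP, e⟩ := H916.exists_above X.j w.asIdeal w.isPrime
  obtain ⟨l, hl, m⟩ := prime_mem w
  have key : ∀ l ∈ S, (l : 𝓞 X.F) ∉ w.asIdeal := fun l a b =>
    hw (w.asIdeal.mem_of_dvd (Nat.cast_dvd_cast (hD l a)) b)
  refine ⟨l, P, ⟨hl, hP, (nat_mem _ e l).1 m⟩, e, fun c => ?_, .inl fun c => key l c m⟩
  obtain ⟨l', a, -, P', o, e', -⟩ := d.v0
  exact key l' a (e ▸ c ▸ (nat_mem _ e' l').2 o.2.2)

theorem sph_q (hw : (q : 𝓞 X.F) ∈ w.asIdeal) : SphW X S w :=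
  sph_off d (D := ∏ l ∈ S, l) (fun l a => Finset.dvd_prod_of_mem _ a) (cop' w.isPrime
    (Nat.Coprime.prod_right fun l a => (Nat.coprime_primes Fact.out (d.prm l a)).2
      fun c : q = l => d.nS (c ▸ a)) hw)

variable (h : Ce X Δ io d0 C jE)
include h

theorem ex_th : ∃ θ : GK jE →* (Kp q)ˣ, ∀ g, (θ g : Kp q) = ρ g 0 0 := by
  have dg : ∀ g : GK jE, Dg (ρ g) := fun g => (d.mon g (h.mem.1 g.2).1).1 (h.mem.1 g.2).2
  refine ⟨MonoidHom.mk' (fun g => Units.mk0 _ (dg_ne (dg g))) fun a b => Units.ext ?_, fun _ => rfl⟩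
  change ρ (a * b) 0 0 = ρ a 0 0 * ρ b 0 0
  rw [d.mul _ (h.mem.1 a.2).1 _ (h.mem.1 b.2).1, mul_ent, (dg a).1, zero_mul, add_zero]

variable {θ : GK jE →* (Kp q)ˣ} (hθ : ∀ g, (θ g : Kp q) = ρ g 0 0)
include hθ

theorem opn : IsOpen (θ.ker : Set (GK jE)) := by
  obtain ⟨U, a, b⟩ := d.opn
  refine Subgroup.isOpen_mono (H₁ := U.subgroupOf (GK jE)) (fun g k => Units.ext ?_)
    (a.preimage continuous_subtype_val)
  rw [hθ, b g ⟨(h.mem.1 g.2).1, k⟩]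
  simp

theorem pow_one' (g : GK jE) {n : ℕ} (e : ρ g ^ n = 1) : θ g ^ n = 1 := Units.ext (by
  have : ρ (g ^ n : GK jE) = ρ g ^ n := map_pow (rh d) ⟨g, (h.mem.1 g.2).1⟩ n
  rw [← map_pow, hθ, this, e]
  simp)

theorem un_sph (k : SphW X S w) (hq : (q : 𝓞 X.F) ∉ w.asIdeal) (ab : Tor.Ab w v) : Un θ v :=
  fun P hP e g i => Units.ext (by
    rw [hθ, triv d k hq hP ((h.ab_iff e).1 ab) (h.mem.1 g.2).1 i]
    simp)

theorem un_off {D : ℕ} (hD : ∀ l ∈ S, l ∣ D) (hv : ((q * D : ℕ) : 𝓞 E) ∉ v.asIdeal) : Un θ v := by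
  rw [Nat.cast_mul] at hv
  exact un_sph d h hθ (sph_off d hD fun a => hv (Ideal.mul_mem_left _ _ (((ab_un v).nat _).2 a)))
    (fun a => hv (Ideal.mul_mem_right _ _ (((ab_un v).nat _).2 a))) (ab_un v)

/-- tame places -/
theorem tk {k : ℕ} (hl : l ∈ S) (o : Ov l P) (e : below X.j P = w.asIdeal) (dc : dec P ≤ X.H)
    (t : Tk Δ ρ l k P) : 2 * C.a ∉ w.asIdeal ∧ (∀ v, Tor.Ab w v → Un (θ ^ 2 ^ k) v) ∧
      ∃ v, Tor.Ab w v ∧ ¬ Un (θ ^ 2 ^ (k - 1)) v := by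
  refine ⟨fun a => ?_, fun v ab P' hP' e' g i => pow_one' d h hθ g (all_pow d o.2.1 e
    (fun s _ b => t.pow s b) hP' ((h.ab_iff e').1 ab) (h.mem.1 g.2).1 i), ?_⟩
  · have l2 : ¬ l ∣ 2 := fun c => by
      obtain rfl := (Nat.prime_dvd_prime_iff_eq o.1 Nat.prime_two).1 c
      have f : 2 ^ 2 ∣ 2 ^ k := pow_dvd_pow 2 t.two
      rcases t.alt with b | b
      · exact absurd (f.trans b.2) (by decide)
      · exact absurd (f.trans b.2) (by decide)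
    refine cop' w.isPrime (o.1.coprime_iff_not_dvd.2 fun c => (o.1.dvd_mul.1 c).elim l2
      (Ce.not_dvd d.sqf o t.ine)) ((nat_mem _ e l).2 o.2.2) ?_
    rw [h.a, mul_neg, neg_mem_iff] at a
    exact_mod_cast a
  · obtain ⟨v, hv⟩ := exists_below jE o
    obtain ⟨s, i, n⟩ := t.ex
    have sH := dc (inP_le_dec i)
    refine ⟨v, (h.ab_iff hv).2 e, fun u => n ?_⟩
    have a := congrArg Units.val (u P o.2.1 hv ⟨s, h.mem.2 ⟨sH, t.ine i⟩⟩ i)
    rw [MonoidHom.pow_apply, ← map_pow, hθ] at a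
    have b : ρ (s ^ 2 ^ (k - 1)) = ρ s ^ 2 ^ (k - 1) := map_pow (rh d) ⟨s, sH⟩ _
    have c := det_in d (pow_mem sH (2 ^ (k - 1))) (pow_mem (t.ine i) _)
    have g := (d.mon _ (pow_mem sH (2 ^ (k - 1)))).1 (pow_mem (t.ine i) _)
    have a' : ρ (s ^ 2 ^ (k - 1)) 0 0 = 1 := a
    rw [a', one_mul, eps_inert o (fun c : l = q => d.nS (c ▸ hl)) (pow_mem i _), red_one] at c
    rw [← b]
    ext x y
    fin_cases x <;> fin_cases y <;> simp [a', c, g.1, g.2]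

/-- the places over `q` -/
theorem at_q {P0 : Id} (o : Ov q P0) (A : ∀ σ, ∀ s ∈ inP P0, (σ ∈ Qd Δ → ρ (σ * s * σ⁻¹) 1 1 = 1) ∧
    (σ ∉ Qd Δ → ρ (σ * s * σ⁻¹) 0 0 = 1)) {y : 𝓞 Qb} (hy : (y : Qb) = jE C.δ) {r : ℤ}
    (hr : y - r ∈ P0) (hv : (q : 𝓞 E) ∈ v.asIdeal) :
    (v.valuation E (C.δ - r) < 1 → Un (θ / om q jE) v) ∧
      (¬ v.valuation E (C.δ - r) < 1 → Un θ v) := by
  obtain ⟨z, hz⟩ := h.int_δ
  have hy2 : (y : Qb) ^ 2 = -(Δ : Qb) := by rw [hy, h.sq]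
  have key : ∀ P : Id, P.IsPrime → below jE P = v.asIdeal → ∃ σ : GQ, P = σ • P0 ∧
      (σ ∈ Qd Δ ↔ v.valuation E (C.δ - r) < 1) := fun P hP e => by
    have o' : Ov q P := ⟨o.1, hP, (nat_mem _ e q).1 hv⟩
    obtain ⟨σ, rfl⟩ := Fld.ov_conj o o'
    have e1 : v.valuation E (C.δ - r) < 1 ↔ y - r ∈ σ • P0 := by
      rw [show C.δ - r = ((z - r : 𝓞 E) : E) by rw [← hz]; simp, ← mem_iff, ← e]
      refine Iff.of_eq (congrArg (· ∈ σ • P0) (RingOfIntegers.ext ?_))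
      change jE (z - r) = y - r
      rw [map_sub, map_intCast, hz, hy]
    have e2 := Ideal.smul_mem_pointwise_smul σ _ _ hr
    have e3 : σ • (r : 𝓞 Qb) = r := RingOfIntegers.ext (map_intCast σ r)
    rw [smul_sub, e3] at e2
    refine ⟨σ, rfl, fun k => e1.2 ?_, fun k => by_contra fun n => ?_⟩
    · rwa [show σ • y = y from RingOfIntegers.ext (k _ hy2)] at e2
    · rw [show σ • y = -y from RingOfIntegers.ext (not_Qd hy2 n)] at e2
      have y2 : y ^ 2 = -(Δ : 𝓞 Qb) := RingOfIntegers.ext (by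
        change (y : Qb) ^ 2 = _
        rw [hy, h.sq]; simp)
      refine cop' hP (o.1.coprime_iff_not_dvd.2 fun c => (o.1.dvd_mul.1 c).elim (fun c => ?_)
        (q_nd d)) o'.2.2 (b := 2 * Δ) ?_
      · have := Nat.le_of_dvd two_pos c
        have := d.big
        omega
      · convert Ideal.mul_mem_right y _ (sub_mem e2 (e1.1 k)) using 1
        push_cast
        linear_combination 2 * y2
  refine ⟨fun k P hP e g i => ?_, fun k P hP e g i => ?_⟩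
  · obtain ⟨σ, rfl, a⟩ := key P hP e
    have b := (A σ _ (in_conj i)).1 (a.2 k)
    have c := det_in d (h.mem.1 g.2).1 (h.mem.1 g.2).2
    simp only [mul_assoc, mul_inv_cancel, mul_one, mul_inv_cancel_left] at b
    rw [b, mul_one] at c
    rw [MonoidHom.div_apply, div_eq_one]
    exact Units.ext ((hθ g).trans c)
  · obtain ⟨σ, rfl, a⟩ := key P hP e
    have b := (A σ _ (in_conj i)).2 (mt a.1 k)
    simp only [mul_assoc, mul_inv_cancel, mul_one, mul_inv_cancel_left] at b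
    exact Units.ext ((hθ g).trans b)

variable {fr : Pl E → GK jE} (hfr : ∀ v, ∃ P, FrI jE v P (fr v)) {φ : X.H}
include hfr

theorem val_fr (u : Un θ v) {g : GK jE} (f : FrI jE v P g) : (θ (fr v) : Kp q) = ρ g 0 0 := by
  obtain ⟨P', f'⟩ := hfr v
  rw [H565.fre_unique jE θ v u _ _ _ _ f' f, hθ]

theorem split (u : ∀ v, Tor.Ab w v → Un θ v) (o : Ov l P) (e : below jE P = v.asIdeal)
    (f : FrI X.j w P φ) (k : φ.1 ∈ Qd Δ) :
    (θ (fr v) : Kp q) = ρ φ 0 0 ∧ (θ (fr (C.pi v)) : Kp q) = ρ φ 1 1 := by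
  have ab := (h.ab_iff e).2 f.2.1
  obtain ⟨c, hc, kc⟩ := ex_c d
  exact ⟨val_fr d h hθ hfr (u v ab) (h.fr_in o e f k),
    (val_fr d h hθ hfr (u _ (C.ab_pi ab)) (h.fr_in (Ce.ov_smul o c) (h.below_pi e hc kc)
      (Ce.fr_conj f ⟨c, hc⟩) (normal_Qd.conj_mem _ k c))).trans (conj d hc kc φ.2)⟩

open Classical in
/-- the restriction to the base field -/
theorem cen (hD : ∀ l ∈ S, l ∣ C.D) (hw : ((q * C.D : ℕ) : 𝓞 X.F) ∉ w.asIdeal) :
    ((∏ᶠ (P : Pl E) (_ : Tor.Ab w P), θ (fr P) : (Kp q)ˣ) : Kp q) =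
      if C.Gd w then (qw w : Kp q) else -(qw w : Kp q) := by
  have u : ∀ v, Tor.Ab w v → Un θ v := fun v a => un_off d h hθ hD fun b => hw ((a.nat _).1 b)
  rw [Nat.cast_mul] at hw
  have hq : (q : 𝓞 X.F) ∉ w.asIdeal := fun a => hw (Ideal.mul_mem_right _ _ a)
  have hD' : (C.D : 𝓞 X.F) ∉ w.asIdeal := fun a => hw (Ideal.mul_mem_left _ _ a)
  obtain ⟨P, φ, f⟩ := H651.exists_frI X.j w
  obtain ⟨l, o, -⟩ := ov_ne f.1 f.2.1 hq
  obtain ⟨v, e⟩ := exists_below jE o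
  have ab := (h.ab_iff e).2 f.2.1
  have N : red (eps q φ) = qw w := om_fr hq f
  split_ifs with g
  · have k := (h.gd_iff o f hD').1 g
    obtain ⟨a, b⟩ := h.ab_in g ab
    obtain ⟨s1, s2⟩ := split d h hθ hfr u o e f k
    rw [show (∏ᶠ (P : Pl E) (_ : Tor.Ab w P), θ (fr P)) = ∏ᶠ P ∈ {u | Tor.Ab w u}, θ (fr P)
      from rfl, a, finprod_mem_pair b, Units.val_mul, s1, s2, det_in d φ.2 k, N]
  · have k := mt (h.gd_iff o f hD').2 g
    have a := (d.mon φ φ.2).2 k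
    rw [show (∏ᶠ (P : Pl E) (_ : Tor.Ab w P), θ (fr P)) = ∏ᶠ P ∈ {u | Tor.Ab w u}, θ (fr P)
      from rfl, h.ab_out (h.pi_out o e f k) ab, finprod_mem_singleton,
      val_fr d h hθ hfr (u v ab) (h.fr_out o e f hD' k), ← N, ← d.det φ φ.2, det_fin_two]
    change ρ (φ * φ) 0 0 = -(ρ φ 0 0 * ρ φ 1 1 - ρ φ 0 1 * ρ φ 1 0)
    rw [d.mul _ φ.2 _ φ.2, mul_ent, a.1]
    ring

end Th

end Vale.Agent.P022K.PB
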